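import Vale.Agent.P157F.Defs
import Vale.Agent.P157.Low.CubeFacts

/-!
P157: two measures on a configuration of the cavity system: with the exponent of the new spin and
with its linearisation.
-/

namespace Vale.Agent.P157F

open MeasureTheory ProbabilityTheory Vale.Agent.P157 Vale.Agent.P157.Low
open scoped RealInnerProductSpace

/-- The old spins and the new one. -/
abbrev Cfg (N : ℕ) := (Fin (N + 1) → Bool) × Bool

/-- The disorder of the cavity system. -/
abbrev CavOm (N P : ℕ) := (ℕ × ((ℕ → Sp (N + 1)) × (ℕ → ℝ))) × PertSpace (N + 1) P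

/-- The law of the disorder of the cavity system. -/
noncomputable def cavLaw (α : ℝ) (N P : ℕ) : Measure (CavOm N P) :=
  ((poiLaw (α * ((N : ℝ) + 2))).prod ((patLaw (N + 1)).prod fieldLaw)).prod
    (stdGaussian (PertSpace (N + 1) P))

instance (α : ℝ) (N P : ℕ) : IsProbabilityMeasure (cavLaw α N P) := by unfold cavLaw; infer_instance

/-- The sign of a spin. -/
def sgn (b : Bool) : ℝ := if b then 1 else -1

variable {N P : ℕ}

/-- The overlap of the old spins. -/
noncomputable def oldR (z z' : Cfg N) : ℝ := ⟪cubeVec (N + 1) z.1, cubeVec (N + 1) z'.1⟫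

/-- The field of the new spin. -/
noncomputable def cavXi (f : ℝ → ℝ) (ω : CavOm N P) (σ : Fin (N + 1) → Bool) : ℝ :=
  Real.sqrt (1 / ((N : ℝ) + 2)) *
    ∑ a ∈ Finset.range ω.1.1, ω.1.2.2 a * deriv f ⟪ω.1.2.1 a, cubeVec (N + 1) σ⟫

/-- The weight with the linearised exponent of the new spin. -/
noncomputable def qWt (f : ℝ → ℝ) (x : Fin P → ℝ) (ω : CavOm N P) (z : Cfg N) : ℝ :=
  Real.exp (∑ a ∈ Finset.range ω.1.1, f ⟪ω.1.2.1 a, cubeVec (N + 1) z.1⟫) *
    Real.exp (strength N * ⟪ω.2, pertVec x (cubeVec (N + 1) z.1)⟫) *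
      Real.exp (sgn z.2 * cavXi f ω z.1)

/-- Average of two replicas at given weights. -/
noncomputable def pairE (w : Cfg N → ℝ) (Θ : Cfg N → Cfg N → ℝ) : ℝ :=
  (∑ z, ∑ z', w z * w z' * Θ z z') / (∑ z, w z) ^ 2

/-- Average of two replicas of the cavity system. -/
noncomputable def cavAvg (f : ℝ → ℝ) (α : ℝ) (N : ℕ) {P : ℕ} (x : Fin P → ℝ)
    (Θ : Cfg N → Cfg N → ℝ) : ℝ :=
  ∫ ω, pairE (cavW f N x ω) Θ ∂cavLaw α N P

/-- Average of two replicas with the linearised exponent. -/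
noncomputable def qAvg (f : ℝ → ℝ) (α : ℝ) (N : ℕ) {P : ℕ} (x : Fin P → ℝ)
    (Θ : Cfg N → Cfg N → ℝ) : ℝ :=
  ∫ ω, pairE (qWt f x ω) Θ ∂cavLaw α N P

end Vale.Agent.P157F
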