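import Vale.Agent.P157.Low.Ultra

/-!
P157: monotone functions of the overlap that are weakly close to it are close in the mean.
-/

namespace Vale.Agent.P157F

open MeasureTheory Filter Vale.Agent.P157.Low
open scoped Topology

/-- A subsequence of bounded monotone functions converges on a countable set. -/
lemma exists_subseq_on {S : Set ℝ} (hS : S.Countable) (g : ℕ → ℝ → ℝ)
    (hgb : ∀ K t, g K t ∈ Set.Icc (0 : ℝ) 1) :
    ∃ φ : ℕ → ℕ, StrictMono φ ∧ ∀ t ∈ S, ∃ l, Tendsto (fun j => g (φ j) t) atTop (𝓝 l) := by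
  have : Countable S := hS.to_subtype
  have hc : IsCompact (Set.pi Set.univ fun _ : S => Set.Icc (0 : ℝ) 1) :=
    isCompact_univ_pi fun _ => isCompact_Icc
  obtain ⟨l, -, φ, hφ, hl⟩ := hc.tendsto_subseq (x := fun K (t : S) => g K t)
    fun K t _ => hgb K t
  exact ⟨φ, hφ, fun t ht => ⟨l ⟨t, ht⟩, tendsto_pi_nhds.1 hl ⟨t, ht⟩⟩⟩

/-- Bounded monotone functions have a subsequence converging everywhere. -/
lemma exists_helly (g : ℕ → ℝ → ℝ) (hg : ∀ K, Monotone (g K))
    (hgb : ∀ K t, g K t ∈ Set.Icc (0 : ℝ) 1) :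
    ∃ φ : ℕ → ℕ, StrictMono φ ∧ ∃ G : ℝ → ℝ, ∀ t, Tendsto (fun j => g (φ j) t) atTop (𝓝 (G t)) := by
  obtain ⟨φ, hφ, h1⟩ := exists_subseq_on (Set.countable_range ((↑) : ℚ → ℝ)) g hgb
  choose G1 hG1 using fun r : ℚ => h1 (r : ℝ) (Set.mem_range_self r)
  have hG1b : ∀ r, G1 r ∈ Set.Icc (0 : ℝ) 1 := fun r =>
    isClosed_Icc.mem_of_tendsto (hG1 r) (Eventually.of_forall fun j => hgb _ _)
  have hG1m : Monotone G1 := fun r s hrs => le_of_tendsto_of_tendsto' (hG1 r) (hG1 s) fun j =>
    hg _ (Rat.cast_le.2 hrs)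
  set L : ℝ → ℝ := fun t => sSup (G1 '' {r : ℚ | (r : ℝ) < t}) with hL
  have hne : ∀ t : ℝ, (G1 '' {r : ℚ | (r : ℝ) < t}).Nonempty := fun t => by
    obtain ⟨r, hr⟩ := exists_rat_lt t
    exact ⟨_, r, hr, rfl⟩
  have hbdd : ∀ t : ℝ, BddAbove (G1 '' {r : ℚ | (r : ℝ) < t}) := fun t =>
    ⟨1, by rintro _ ⟨r, -, rfl⟩; exact (hG1b r).2⟩
  have hLm : Monotone L := fun t t' htt => csSup_le_csSup (hbdd t') (hne t)
    (Set.image_mono fun r hr => lt_of_lt_of_le hr htt)
  obtain ⟨ψ, hψ, h2⟩ := exists_subseq_on hLm.countable_not_continuousAt (fun j => g (φ j))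
    fun j t => hgb _ t
  have h : ∀ t, ∃ l, Tendsto (fun j => g (φ (ψ j)) t) atTop (𝓝 l) := fun t => by
    by_cases hc : ContinuousAt L t
    swap
    · exact h2 t hc
    refine ⟨L t, Metric.tendsto_atTop.2 fun ε hε => ?_⟩
    obtain ⟨_, ⟨r, hr, rfl⟩, hrL⟩ := exists_lt_of_lt_csSup (hne t) (sub_lt_self (L t) (half_pos hε))
    obtain ⟨δ, hδ, hcd⟩ := Metric.continuousAt_iff.1 hc (ε / 2) (half_pos hε)
    obtain ⟨r', hr1, hr2⟩ := exists_rat_btwn (show t < t + δ / 2 by linarith)
    have hr'L : G1 r' ≤ L (t + δ / 2) := le_csSup (hbdd _) ⟨r', hr2, rfl⟩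
    have hd : dist (t + δ / 2) t < δ := by
      rw [Real.dist_eq, add_sub_cancel_left, abs_of_pos (half_pos hδ)]
      linarith
    have hLs := (abs_lt.1 ((Real.dist_eq _ _).symm.trans_lt (hcd hd))).2
    obtain ⟨J, hJ⟩ := eventually_atTop.1
      ((((hG1 r).comp hψ.tendsto_atTop).eventually (eventually_gt_nhds (sub_lt_self (G1 r) (half_pos hε)))).and
        (((hG1 r').comp hψ.tendsto_atTop).eventually (eventually_lt_nhds (lt_add_of_pos_right (G1 r') (half_pos hε)))))
    refine ⟨J, fun j hj => ?_⟩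
    obtain ⟨e1, e2⟩ := hJ j hj
    have m1 := hg (φ (ψ j)) (show (r : ℝ) ≤ t from hr.le)
    have m2 := hg (φ (ψ j)) hr1.le
    simp only [Function.comp_apply] at e1 e2
    rw [Real.dist_eq, abs_lt]
    constructor <;> linarith
  choose G hG using h
  exact ⟨fun j => φ (ψ j), hφ.comp hψ, G, hG⟩

/-- Weak convergence to the identity of monotone functions of the overlap is convergence in mean. -/
theorem tendsto_mean_of_weak (A : Arr) {g : ℕ → ℝ → ℝ} (hg : ∀ K, Monotone (g K))
    (hgb : ∀ K t, 0 ≤ g K t ∧ g K t ≤ 1)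
    (h : ∀ ψ : ℝ → ℝ, Continuous ψ → (∃ C, ∀ t, |ψ t| ≤ C) →
      Tendsto (fun K => ∫ R, ψ (R 0 1) * (R 0 1 - g K (R 0 1)) ∂A.law 2) atTop (𝓝 0)) :
    Tendsto (fun K => ∫ R, |R 0 1 - g K (R 0 1)| ∂A.law 2) atTop (𝓝 0) := by
  refine tendsto_of_subseq_tendsto fun ns hns => ?_
  obtain ⟨φ, hφ, G, hG⟩ := exists_helly (fun j => g (ns j)) (fun j => hg _) fun j => hgb _
  refine ⟨φ, ?_⟩
  have := A.prob 2
  have hGb : ∀ t, G t ∈ Set.Icc (0 : ℝ) 1 := fun t =>
    isClosed_Icc.mem_of_tendsto (hG t) (Eventually.of_forall fun j => hgb _ _)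
  have hGm : Monotone G := fun s t hst => le_of_tendsto_of_tendsto' (hG s) (hG t) fun j => hg _ hst
  have hm : Measurable fun R : Mat 2 => R 0 1 := measurable_entry 0 1
  set ν := (A.law 2).map fun R => R 0 1 with hν
  have := Measure.isProbabilityMeasure_map (μ := A.law 2) hm.aemeasurable
  set u : ℝ → ℝ := fun t => max (-1) (min 1 t) - G t with hu
  have hum : Measurable u := ((measurable_const.max (measurable_const.min measurable_id))).sub hGm.measurable
  have hcl : ∀ t : ℝ, |max (-1) (min 1 t)| ≤ (1 : ℝ) := fun t =>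
    abs_le.2 ⟨le_max_left _ _, max_le (by norm_num) (min_le_left _ _)⟩
  have hid : ∀ t : ℝ, |t| ≤ 1 → max (-1) (min 1 t) = t := fun t ht => by
    rw [min_eq_right (abs_le.1 ht).2, max_eq_right (abs_le.1 ht).1]
  have hub : ∀ t, |u t| ≤ 2 := fun t => (abs_sub _ _).trans (by
    rw [abs_of_nonneg (hGb t).1]
    linarith [hcl t, (hGb t).2])
  -- the limit is orthogonal to continuous functions
  have hzero : ∀ ψ : ℝ → ℝ, Continuous ψ → (∃ C, ∀ t, |ψ t| ≤ C) →
      ∫ t, ψ t * u t ∂ν = 0 := by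
    rintro ψ hψ ⟨C, hC⟩
    have hpm : Measurable fun t => ψ t * u t := hψ.measurable.mul hum
    rw [hν, integral_map hm.aemeasurable hpm.aestronglyMeasurable]
    refine tendsto_nhds_unique ?_ ((h ψ hψ ⟨C, hC⟩).comp (hns.comp hφ.tendsto_atTop))
    refine tendsto_integral_of_dominated_convergence (fun _ => C * 2)
      (fun j => ((hψ.measurable.comp hm).mul (hm.sub ((hg _).measurable.comp hm))).aestronglyMeasurable)
      (integrable_const _) (fun j => (A.bdd 2).mono fun R hR => ?_) ((A.bdd 2).mono fun R hR => ?_)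
    · show ‖ψ (R 0 1) * (R 0 1 - g (ns (φ j)) (R 0 1))‖ ≤ C * 2
      rw [Real.norm_eq_abs, abs_mul]
      refine mul_le_mul (hC _) ((abs_sub _ _).trans ?_) (abs_nonneg _) ((abs_nonneg _).trans (hC 0))
      rw [abs_of_nonneg (hgb _ _).1]
      linarith [hR 0 1, (hgb (ns (φ j)) (R 0 1)).2]
    · simp only [hu, hid _ (hR 0 1), Function.comp_apply]
      exact ((hG (R 0 1)).const_sub _).const_mul _
  have hsq : ∫ t, u t ^ 2 ∂ν ≤ 0 := by
    refine le_of_forall_pos_le_add fun δ hδ => ?_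
    obtain ⟨w, hw, -⟩ := (Integrable.of_bound (μ := ν) hum.aestronglyMeasurable 2
      (Eventually.of_forall fun t => (Real.norm_eq_abs _).le.trans (hub t))).exists_boundedContinuous_integral_sub_le
        (show 0 < δ / 2 by linarith)
    have hwu := hzero (fun t => w t) w.continuous
      ⟨‖w‖, fun t => (Real.norm_eq_abs _).symm.le.trans (w.norm_coe_le_norm t)⟩
    have i1 : Integrable (fun t => w t * u t) ν :=
      Integrable.of_bound (w.continuous.measurable.mul hum).aestronglyMeasurable (‖w‖ * 2)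
        (Eventually.of_forall fun t => by
          rw [norm_mul]
          exact mul_le_mul (w.norm_coe_le_norm t) ((Real.norm_eq_abs _).le.trans (hub t)) (norm_nonneg _)
            (norm_nonneg _))
    have i2 : Integrable (fun t => u t ^ 2) ν :=
      Integrable.of_bound (hum.pow_const 2).aestronglyMeasurable (2 ^ 2)
        (Eventually.of_forall fun t => by
          rw [norm_pow, Real.norm_eq_abs]
          exact pow_le_pow_left₀ (abs_nonneg _) (hub t) 2)
    have i3 : Integrable (fun t => ‖u t - w t‖) ν :=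
      ((Integrable.of_bound (μ := ν) hum.aestronglyMeasurable 2
        (Eventually.of_forall fun t => (Real.norm_eq_abs _).le.trans (hub t))).sub (w.integrable ν)).norm
    calc ∫ t, u t ^ 2 ∂ν ≤ ∫ t, (w t * u t + 2 * ‖u t - w t‖) ∂ν := by
          refine integral_mono i2 (i1.add (i3.const_mul 2)) fun t => ?_
          simp only [Real.norm_eq_abs]
          have hp : (u t - w t) * u t ≤ |u t - w t| * 2 := (le_abs_self _).trans (by
            rw [abs_mul]
            exact mul_le_mul_of_nonneg_left (hub t) (abs_nonneg _))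
          nlinarith
      _ ≤ 0 + δ := by
          rw [integral_add i1 (i3.const_mul 2), integral_const_mul, hwu]
          linarith
  have hu0 : ∀ᵐ R ∂A.law 2, R 0 1 = G (R 0 1) := by
    have e := (integral_eq_zero_iff_of_nonneg_ae (Eventually.of_forall fun t => sq_nonneg (u t))
      (Integrable.of_bound (hum.pow_const 2).aestronglyMeasurable (2 ^ 2)
        (Eventually.of_forall fun t => by
          rw [norm_pow, Real.norm_eq_abs]
          exact pow_le_pow_left₀ (abs_nonneg _) (hub t) 2))).1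
      (le_antisymm hsq (integral_nonneg fun t => sq_nonneg (u t)))
    rw [hν] at e
    filter_upwards [ae_of_ae_map hm.aemeasurable e, A.bdd 2] with R hR hb
    simp only [Pi.zero_apply, hu, hid _ (hb 0 1)] at hR
    linarith [pow_eq_zero_iff (n := 2) (by norm_num) |>.1 hR]
  have key : Tendsto (fun j => ∫ R, |R 0 1 - g (ns (φ j)) (R 0 1)| ∂A.law 2) atTop
      (𝓝 (∫ R, |R 0 1 - G (R 0 1)| ∂A.law 2)) := by
    refine tendsto_integral_of_dominated_convergence (fun _ => (2 : ℝ))
      (fun j => (hm.sub ((hg _).measurable.comp hm)).abs.aestronglyMeasurable) (integrable_const _)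
      (fun j => (A.bdd 2).mono fun R hR => ?_)
      (Eventually.of_forall fun R => ((hG (R 0 1)).const_sub _).abs)
    rw [Real.norm_eq_abs, abs_abs]
    refine (abs_sub _ _).trans ?_
    rw [abs_of_nonneg (hgb _ _).1]
    linarith [hR 0 1, (hgb (ns (φ j)) (R 0 1)).2]
  refine key.trans (le_of_eq ?_)
  congr 1
  exact integral_eq_zero_of_ae (hu0.mono fun R hR => by simp [← hR])

end Vale.Agent.P157F
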