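import Vale.Agent.P157F.Low.Defs
import Vale.Agent.P157.Low.Cavity

/-!
P157: the cavity measure is close to the one with the linearised exponent.
-/

namespace Vale.Agent.P157F

open MeasureTheory ProbabilityTheory Filter Vale.Agent.P157 Vale.Agent.P157.Low
open scoped Topology RealInnerProductSpace

variable {N P : ℕ} {f : ℝ → ℝ} {B : ℝ}

/-- An average of two replicas as a double sum of probabilities. -/
lemma pq_pairE_eq (w : Cfg N → ℝ) (Θ : Cfg N → Cfg N → ℝ) :
    pairE w Θ = ∑ z, ∑ z', w z / (∑ y, w y) * (w z' / ∑ y, w y) * Θ z z' := by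
  rw [pairE, Finset.sum_div]
  refine Finset.sum_congr rfl fun z _ => ?_
  rw [Finset.sum_div]
  exact Finset.sum_congr rfl fun z' _ => by ring

lemma pq_pairE_scale (w : Cfg N → ℝ) (Θ : Cfg N → Cfg N → ℝ) {c : ℝ} (hc : c ≠ 0) :
    pairE (fun z => c * w z) Θ = pairE w Θ := by
  simp only [pq_pairE_eq, ← Finset.mul_sum, mul_div_mul_left _ _ hc]

lemma pq_abs_pairE_le {w : Cfg N → ℝ} (hw : ∀ z, 0 < w z) {Θ : Cfg N → Cfg N → ℝ} {C : ℝ}
    (hΘ : ∀ z z', |Θ z z'| ≤ C) : |pairE w Θ| ≤ C := by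
  have hZ : 0 < ∑ y, w y := Finset.sum_pos (fun z _ => hw z) Finset.univ_nonempty
  have h1 : ∑ z, w z / ∑ y, w y = 1 := by rw [← Finset.sum_div, div_self hZ.ne']
  have hp : ∀ z, 0 ≤ w z / ∑ y, w y := fun z => (div_pos (hw z) hZ).le
  rw [pq_pairE_eq]
  refine (Finset.abs_sum_le_sum_abs _ _).trans ((Finset.sum_le_sum fun z _ =>
    (Finset.abs_sum_le_sum_abs _ _).trans (Finset.sum_le_sum
      (g := fun z' => w z / (∑ y, w y) * (w z' / ∑ y, w y) * C) fun z' _ => ?_)).trans_eq ?_)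
  · rw [abs_mul, abs_mul, abs_of_nonneg (hp z), abs_of_nonneg (hp z')]
    exact mul_le_mul_of_nonneg_left (hΘ z z') (mul_nonneg (hp z) (hp z'))
  · simp only [← Finset.sum_mul, ← Finset.mul_sum, h1, mul_one, one_mul]

/-- A multiplicative change of the weight moves an average of two replicas by four relative
deviations. -/
lemma pq_pair_le {w : Cfg N → ℝ} (hw : ∀ z, 0 < w z) (u : Cfg N → ℝ) {Θ : Cfg N → Cfg N → ℝ}
    {C : ℝ} (hΘ : ∀ z z', |Θ z z'| ≤ C) :
    |pairE (fun z => w z * Real.exp (u z)) Θ - pairE w Θ| ≤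
      4 * C * ((∑ z, w z * |Real.exp (u z) - 1|) / ∑ z, w z) := by
  set v := fun z => w z * Real.exp (u z) with hv
  set Z := ∑ y, w y
  set Z' := ∑ y, v y
  set T := (∑ z, w z * |Real.exp (u z) - 1|) / Z
  have hZ : 0 < Z := Finset.sum_pos (fun z _ => hw z) Finset.univ_nonempty
  have hv0 : ∀ z, 0 < v z := fun z => mul_pos (hw z) (Real.exp_pos _)
  have hZ' : 0 < Z' := Finset.sum_pos (fun z _ => hv0 z) Finset.univ_nonempty
  have hC : 0 ≤ C := (abs_nonneg _).trans (hΘ default default)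
  set p := fun z => w z / Z
  set p' := fun z => v z / Z'
  have hp : ∀ z, 0 ≤ p z := fun z => (div_pos (hw z) hZ).le
  have hp' : ∀ z, 0 ≤ p' z := fun z => (div_pos (hv0 z) hZ').le
  have h1 : ∑ z, p z = 1 := by simp only [p, ← Finset.sum_div]; exact div_self hZ.ne'
  have h1' : ∑ z, p' z = 1 := by simp only [p', ← Finset.sum_div]; exact div_self hZ'.ne'
  have hvw : ∀ z, |v z - w z| = w z * |Real.exp (u z) - 1| := fun z => by
    rw [hv]; simp only
    rw [show w z * Real.exp (u z) - w z = w z * (Real.exp (u z) - 1) by ring, abs_mul,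
      abs_of_pos (hw z)]
  have hd : |Z - Z'| ≤ ∑ z, w z * |Real.exp (u z) - 1| := by
    rw [abs_sub_comm, ← Finset.sum_sub_distrib]
    exact (Finset.abs_sum_le_sum_abs _ _).trans_eq (Finset.sum_congr rfl fun z _ => hvw z)
  have htv : ∑ z, |p' z - p z| ≤ 2 * T := by
    have e : ∀ z, p' z - p z = (v z - w z) / Z + v z / Z' * ((Z - Z') / Z) := fun z => by
      simp only [p, p']
      field_simp
      ring
    refine (Finset.sum_le_sum (g := fun z => w z * |Real.exp (u z) - 1| / Z + p' z * T)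
      fun z _ => ?_).trans_eq ?_
    · rw [e z]
      refine (abs_add_le _ _).trans (add_le_add ?_ ?_)
      · rw [abs_div, abs_of_pos hZ, hvw]
      · rw [abs_mul, abs_of_nonneg (hp' z), abs_div, abs_of_pos hZ]
        exact mul_le_mul_of_nonneg_left (div_le_div_of_nonneg_right hd hZ.le) (hp' z)
    · rw [Finset.sum_add_distrib, ← Finset.sum_mul, h1', one_mul, ← Finset.sum_div]
      ring
  rw [pq_pairE_eq, pq_pairE_eq, ← Finset.sum_sub_distrib]
  refine (Finset.abs_sum_le_sum_abs _ _).trans ((Finset.sum_le_sum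
    (g := fun z => ∑ z', C * (|p' z - p z| * p' z' + p z * |p' z' - p z'|)) fun z _ => ?_).trans ?_)
  · rw [← Finset.sum_sub_distrib]
    refine (Finset.abs_sum_le_sum_abs _ _).trans (Finset.sum_le_sum fun z' _ => ?_)
    show |p' z * p' z' * Θ z z' - p z * p z' * Θ z z'| ≤ _
    rw [← sub_mul, abs_mul, mul_comm]
    refine mul_le_mul (hΘ z z') ?_ (abs_nonneg _) hC
    rw [show p' z * p' z' - p z * p z' = (p' z - p z) * p' z' + p z * (p' z' - p z') by ring]
    refine (abs_add_le _ _).trans_eq ?_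
    rw [abs_mul, abs_mul, abs_of_nonneg (hp' z'), abs_of_nonneg (hp z)]
  · simp only [← Finset.mul_sum, Finset.sum_add_distrib, ← Finset.sum_mul, h1, h1', mul_one, one_mul]
    nlinarith [mul_le_mul_of_nonneg_left htv hC]

lemma pq_sgn_exp_le (b : Bool) (ξ : ℝ) :
    Real.exp (2 * (sgn b * ξ)) ≤ 2 * Real.cosh (2 * ξ) := by
  have e : 2 * Real.cosh (2 * ξ) = Real.exp (2 * ξ) + Real.exp (-(2 * ξ)) := by
    rw [Real.cosh_eq]; ring
  have h1 := Real.exp_pos (2 * ξ)
  have h2 := Real.exp_pos (-(2 * ξ))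
  rw [e]
  cases b <;> simp [sgn, mul_neg] <;> linarith

/-- One term of the relative deviation. -/
lemma pq_term_le (u a : ℝ) {t : ℝ} (ht : 0 < t) :
    Real.exp a * |Real.exp u - 1| ≤
      t * u ^ 2 + (Real.exp (2 * (u + a)) + Real.exp (2 * a)) / (2 * t) := by
  have h1 : |Real.exp u - 1| ≤ |u| * (Real.exp u + 1) := by
    have h := Real.add_one_le_exp (-u)
    have h' := Real.add_one_le_exp u
    have e : Real.exp (-u) * Real.exp u = 1 := by rw [← Real.exp_add, neg_add_cancel, Real.exp_zero]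
    have h2 := mul_le_mul_of_nonneg_right h (Real.exp_pos u).le
    rw [e] at h2
    rcases le_total 0 u with hu | hu
    · rw [abs_of_nonneg hu, abs_of_nonneg (by linarith)]
      nlinarith [Real.exp_pos u]
    · rw [abs_of_nonpos hu, abs_of_nonpos (by linarith [Real.exp_le_one_iff.2 hu])]
      nlinarith [Real.exp_pos u]
  set X := Real.exp (u + a) + Real.exp a
  have hX : 0 ≤ X := by positivity
  have h2 : Real.exp a * |Real.exp u - 1| ≤ |u| * X := by
    refine (mul_le_mul_of_nonneg_left h1 (Real.exp_pos a).le).trans_eq ?_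
    simp only [X, Real.exp_add]
    ring
  have h3 : X ^ 2 ≤ 2 * (Real.exp (2 * (u + a)) + Real.exp (2 * a)) := by
    have e : ∀ r : ℝ, Real.exp (2 * r) = Real.exp r ^ 2 := fun r => by
      rw [sq, ← Real.exp_add]; ring_nf
    rw [e, e]
    nlinarith [sq_nonneg (Real.exp (u + a) - Real.exp a)]
  have h4 : |u| * X ≤ t * u ^ 2 + X ^ 2 / (4 * t) := by
    rw [← sub_le_iff_le_add', le_div_iff₀ (by positivity), ← sq_abs u]
    nlinarith [sq_nonneg (2 * t * |u| - X)]
  refine h2.trans (h4.trans (add_le_add le_rfl ?_))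
  refine (div_le_div_of_nonneg_right h3 (by positivity)).trans_eq ?_
  field_simp
  ring

/-- The relative deviation with a field of the new spin, by an average over the old spins. -/
lemma pq_point {v : (Fin (N + 1) → Bool) → ℝ} (hv : ∀ σ, 0 < v σ)
    (ξ : (Fin (N + 1) → Bool) → ℝ) (u : Cfg N → ℝ) (G : (Fin (N + 1) → Bool) → ℝ)
    (hG : ∀ σ s, Real.exp (sgn s * ξ σ) * |Real.exp (u (σ, s)) - 1| ≤ G σ) :
    (∑ z, v z.1 * Real.exp (sgn z.2 * ξ z.1) * |Real.exp (u z) - 1|) /
        (∑ z : Cfg N, v z.1 * Real.exp (sgn z.2 * ξ z.1)) ≤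
      repE (n := 1) v fun r => G (r 0) := by
  have hS : 0 < ∑ σ, v σ := sum_pos_wt hv
  have hG0 : ∀ σ, 0 ≤ G σ := fun σ => le_trans (by positivity) (hG σ true)
  rw [repE_one_eq, Fintype.sum_prod_type, Fintype.sum_prod_type]
  have hnum : ∑ σ, ∑ s, v σ * Real.exp (sgn s * ξ σ) * |Real.exp (u (σ, s)) - 1| ≤
      2 * ∑ σ, v σ * G σ := by
    rw [Finset.mul_sum]
    refine Finset.sum_le_sum fun σ _ => ?_
    rw [Fintype.sum_bool, mul_assoc, mul_assoc]
    linarith [mul_le_mul_of_nonneg_left (hG σ true) (hv σ).le,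
      mul_le_mul_of_nonneg_left (hG σ false) (hv σ).le]
  have hden : 2 * ∑ σ, v σ ≤ ∑ σ, ∑ s, v σ * Real.exp (sgn s * ξ σ) := by
    rw [Finset.mul_sum]
    refine Finset.sum_le_sum fun σ _ => ?_
    rw [Fintype.sum_bool]
    have h1 := Real.add_one_le_exp (ξ σ)
    have h2 := Real.add_one_le_exp (-ξ σ)
    simp only [sgn, ↓reduceIte, one_mul, neg_mul, Bool.false_eq_true]
    nlinarith [hv σ]
  refine (div_le_div₀ (mul_nonneg (by norm_num) (Finset.sum_nonneg fun σ _ =>
    mul_nonneg (hv σ).le (hG0 σ))) hnum (by linarith) hden).trans_eq ?_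
  exact mul_div_mul_left _ _ two_ne_zero

/-- Products over different fields integrate factor by factor. -/
lemma pq_integral_prod (M : ℕ) (G : ℕ → ℝ → ℝ) (hG : ∀ a, Integrable (G a) (gaussianReal 0 1)) :
    Integrable (fun h : ℕ → ℝ => ∏ a ∈ Finset.range M, G a (h a)) fieldLaw ∧
      ∫ h, ∏ a ∈ Finset.range M, G a (h a) ∂fieldLaw =
        ∏ a ∈ Finset.range M, ∫ z, G a z ∂gaussianReal 0 1 := by
  have hmp : MeasurePreserving (fun h : ℕ → ℝ => fun a : Fin M => h a) fieldLaw
      (Measure.pi fun _ : Fin M => gaussianReal 0 1) :=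
    ⟨by fun_prop, map_first_patterns (γ := gaussianReal 0 1) M⟩
  have hi : Integrable (fun z : Fin M → ℝ => ∏ a : Fin M, G a (z a))
      (Measure.pi fun _ : Fin M => gaussianReal 0 1) :=
    Integrable.fintype_prod (f := fun (a : Fin M) (z : ℝ) => G a z) fun a => hG a
  have e : ∀ h : ℕ → ℝ, ∏ a ∈ Finset.range M, G a (h a) = ∏ a : Fin M, G a (h a) := fun h =>
    (Fin.prod_univ_eq_prod_range (fun a => G a (h a)) M).symm
  simp only [e]
  refine ⟨hmp.integrable_comp_of_integrable hi, ?_⟩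
  have h1 : ∫ h, ∏ a : Fin M, G a (h a) ∂fieldLaw =
      ∫ z, ∏ a : Fin M, G a (z a) ∂Measure.pi fun _ : Fin M => gaussianReal 0 1 := by
    conv_rhs => rw [← hmp.map_eq]
    rw [integral_map hmp.measurable.aemeasurable (by rw [hmp.map_eq]; exact hi.aestronglyMeasurable)]
  rw [h1, integral_fintype_prod_eq_prod (μ := fun _ : Fin M => gaussianReal 0 1)
    (fun (a : Fin M) (z : ℝ) => G a z)]
  exact Fin.prod_univ_eq_prod_range (fun a => ∫ z, G a z ∂gaussianReal 0 1) M

/-- The exponential moment of the change of one pattern. -/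
lemma pq_one_pattern (hf : Pot f B) (hs : Smf f) {D : ℝ}
    (hD : ∀ x, |deriv f x| ≤ D ∧ |deriv (deriv f) x| ≤ D) (b τ : ℝ) :
    Integrable (fun z => Real.exp (2 * (f (b + τ * z) - f b))) (gaussianReal 0 1) ∧
      ∫ z, Real.exp (2 * (f (b + τ * z) - f b)) ∂gaussianReal 0 1 ≤
        Real.exp ((2 * D + 4 * D ^ 2 * Real.exp (4 * B)) * τ ^ 2) := by
  have hB : ∀ z, |2 * (f (b + τ * z) - f b)| ≤ 4 * B := fun z => by
    rw [abs_mul, abs_two]
    linarith [abs_sub (f (b + τ * z)) (f b), hf.bound (b + τ * z), hf.bound b]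
  have hd1 : ∀ y, HasDerivAt f (deriv f y) y := fun y => by
    simpa [iteratedDeriv_one] using hs.hasDerivAt (k := 0) (by norm_num) y
  have hd2 : ∀ y, HasDerivAt (deriv f) (deriv (deriv f) y) y := fun y => by
    simpa [iteratedDeriv_succ] using hs.hasDerivAt (k := 1) (by norm_num) y
  have hD0 : 0 ≤ D := (abs_nonneg _).trans (hD 0).1
  have hlin : ∀ x, |f (b + x) - f b| ≤ D * |x| := fun x =>
    Low.abs_le_of_deriv_le (φ := fun s => f (b + s) - f b) (φ' := fun s => deriv f (b + s))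
      (fun s => ((hd1 (b + s)).comp_const_add b s).sub_const _) (by simp) (abs_nonneg x)
      (fun s _ => (hD _).1) (abs_le.1 le_rfl)
  have hquad : ∀ x, |f (b + x) - f b - deriv f b * x| ≤ D * |x| * |x| := fun x =>
    Low.abs_le_of_deriv_le (φ := fun s => f (b + s) - f b - deriv f b * s)
      (φ' := fun s => deriv f (b + s) - deriv f b)
      (fun s => by
        simpa using (((hd1 (b + s)).comp_const_add b s).sub_const (f b)).fun_sub
          ((hasDerivAt_id s).const_mul (deriv f b)))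
      (by simp) (abs_nonneg x)
      (fun s hsm => Low.abs_le_of_deriv_le (φ := fun r => deriv f (b + r) - deriv f b)
        (φ' := fun r => deriv (deriv f) (b + r))
        (fun r => ((hd2 (b + r)).comp_const_add b r).sub_const _) (by simp) (abs_nonneg x)
        (fun r _ => (hD _).2) hsm)
      (abs_le.1 le_rfl)
  have hexp : ∀ v : ℝ, Real.exp v ≤ 1 + v + v ^ 2 * Real.exp |v| := fun v => by
    have h1 : 1 ≤ Real.exp |v| := Real.one_le_exp (abs_nonneg v)
    rcases le_or_gt |v| 1 with hv | hv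
    · have := (abs_le.1 (Real.abs_exp_sub_one_sub_id_le hv)).2
      nlinarith [sq_nonneg v]
    · have := Real.exp_le_exp.2 (le_abs_self v)
      have h2 := mul_le_mul_of_nonneg_left h1 (show 0 ≤ |v| ^ 2 - 1 by nlinarith)
      nlinarith [neg_abs_le v, sq_abs v]
  have hint : Integrable (fun z => Real.exp (2 * (f (b + τ * z) - f b))) (gaussianReal 0 1) := by
    refine Integrable.of_bound ((((hf.meas.comp (((measurable_id).const_mul τ).const_add b)).sub_const
      _).const_mul 2).exp.aestronglyMeasurable) (Real.exp (4 * B)) (Eventually.of_forall fun z => ?_)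
    rw [Real.norm_eq_abs, Real.abs_exp, Real.exp_le_exp]
    exact (le_abs_self _).trans (hB z)
  set K := 2 * D + 4 * D ^ 2 * Real.exp (4 * B)
  have hp : ∀ z, Real.exp (2 * (f (b + τ * z) - f b)) ≤
      1 + 2 * deriv f b * τ * z + K * τ ^ 2 * z ^ 2 := fun z => by
    set v := 2 * (f (b + τ * z) - f b)
    have h1 : v ≤ 2 * deriv f b * τ * z + 2 * D * (τ * z) ^ 2 := by
      have := (abs_le.1 (hquad (τ * z))).2
      rw [mul_assoc D, ← sq, sq_abs] at this
      simp only [v]
      linarith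
    have h2 : v ^ 2 ≤ 4 * D ^ 2 * (τ * z) ^ 2 := by
      have := pow_le_pow_left₀ (abs_nonneg _) (hlin (τ * z)) 2
      rw [sq_abs, mul_pow, sq_abs] at this
      simp only [v]
      nlinarith
    have h3 : v ^ 2 * Real.exp |v| ≤ 4 * D ^ 2 * (τ * z) ^ 2 * Real.exp (4 * B) :=
      mul_le_mul h2 (Real.exp_le_exp.2 (hB z)) (Real.exp_pos _).le (by positivity)
    have h4 := hexp v
    have e : K * τ ^ 2 * z ^ 2 = 2 * D * (τ * z) ^ 2 + 4 * D ^ 2 * (τ * z) ^ 2 * Real.exp (4 * B) := by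
      simp only [K]; ring
    linarith
  have h2i := integrable_gauss_pow 2 (by decide)
  have hid : Integrable (fun z : ℝ => z) (gaussianReal 0 1) :=
    (IsGaussian.memLp_id (gaussianReal 0 1) 1 (by simp)).integrable le_rfl
  have e2 : ∫ z, z ^ 2 ∂gaussianReal 0 1 = 1 := by
    have h := sq_sub_one_facts.2
    rw [integral_sub h2i (integrable_const _), integral_const, probReal_univ, one_smul] at h
    linarith
  refine ⟨hint, (integral_mono hint (((integrable_const 1).add (hid.const_mul _)).add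
    (h2i.const_mul _)) hp).trans ?_⟩
  rw [integral_add' ((integrable_const 1).add (hid.const_mul _)) (h2i.const_mul _),
    integral_add' (integrable_const 1) (hid.const_mul _), integral_const_mul, integral_const_mul, e2,
    integral_id_gaussianReal]
  simp only [integral_const, probReal_univ, one_smul, mul_zero, mul_one, add_zero]
  linarith [Real.add_one_le_exp (K * τ ^ 2)]

/-- A small contraction of the field changes a potential with bounded `x f' x` little. -/
lemma pq_scale (hs : Smf f) {D : ℝ} (hD : ∀ x, |x * deriv f x| ≤ D) {ε : ℝ} (h0 : 0 ≤ ε)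
    (h1 : ε ≤ 1 / 2) (y : ℝ) : |f (Real.sqrt (1 - ε) * y) - f y| ≤ 2 * D * ε := by
  set c := Real.sqrt (1 - ε) with hc
  have hc2 : c ^ 2 = 1 - ε := Real.sq_sqrt (by linarith)
  have hc0 : 0 ≤ c := Real.sqrt_nonneg _
  have hc1 : c ≤ 1 := Real.sqrt_le_one.2 (by linarith)
  have hch : 1 / 2 ≤ c := by nlinarith
  have hd : ∀ r : ℝ, HasDerivAt (fun r => f (r * y)) (deriv f (r * y) * y) r := fun r => by
    simpa [Function.comp_def, iteratedDeriv_one] using
      (hs.hasDerivAt (k := 0) (by norm_num) (r * y)).comp r ((hasDerivAt_id r).mul_const y)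
  have h := Convex.norm_image_sub_le_of_norm_hasDerivWithin_le (s := Set.Icc c 1)
    (f := fun r => f (r * y)) (C := 2 * D) (fun r _ => (hd r).hasDerivWithinAt)
    (fun r hr => by
      rw [Real.norm_eq_abs]
      have hr0 : 1 / 2 ≤ r := hch.trans hr.1
      have := hD (r * y)
      rw [mul_assoc, abs_mul, abs_of_nonneg (by linarith : 0 ≤ r), mul_comm y] at this
      nlinarith [abs_nonneg (deriv f (r * y) * y)])
    (convex_Icc _ _) (Set.right_mem_Icc.2 hc1) (Set.left_mem_Icc.2 hc1)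
  simp only [Real.norm_eq_abs, one_mul] at h
  refine h.trans (mul_le_mul_of_nonneg_left ?_ (mul_nonneg zero_le_two ((abs_nonneg _).trans (hD 0))))
  rw [abs_of_nonpos (by linarith)]
  nlinarith

/-- The exponential moment of twice the exponent of the new spin. -/
lemma pq_exp_top (hf : Pot f B) (hs : Smf f) {D : ℝ}
    (hD : ∀ x, |deriv f x| ≤ D ∧ |deriv (deriv f) x| ≤ D) {Dx : ℝ} (hDx : ∀ x, |x * deriv f x| ≤ Dx)
    {ε : ℝ} (h0 : 0 ≤ ε) (h1 : ε ≤ 1 / 2) (y : ℕ → ℝ) (M : ℕ) (s : Bool) :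
    let Δ := fun h : ℕ → ℝ => ∑ a ∈ Finset.range M, (f (Real.sqrt (1 - ε) * y a +
      Real.sqrt ε * (h a * if s then 1 else -1)) - f (y a))
    Integrable (fun h => Real.exp (2 * Δ h)) fieldLaw ∧
      ∫ h, Real.exp (2 * Δ h) ∂fieldLaw ≤
        Real.exp ((2 * D + 4 * D ^ 2 * Real.exp (4 * B) + 4 * Dx) * ε * M) := by
  intro Δ
  set c := Real.sqrt (1 - ε)
  set τ := Real.sqrt ε * (if s then 1 else -1) with hτ
  have hτ2 : τ ^ 2 = ε := by
    rw [hτ, mul_pow, Real.sq_sqrt h0]; cases s <;> simp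
  set G := fun a z => Real.exp (2 * (f (c * y a + τ * z) - f (c * y a))) *
    Real.exp (2 * (f (c * y a) - f (y a)))
  have e : ∀ h : ℕ → ℝ, Real.exp (2 * Δ h) = ∏ a ∈ Finset.range M, G a (h a) := fun h => by
    simp only [Δ, Finset.mul_sum, Real.exp_sum]
    refine Finset.prod_congr rfl fun a _ => ?_
    simp only [G, hτ, ← Real.exp_add, c]
    congr 1
    ring_nf
  simp only [e]
  have hg := fun a => pq_one_pattern hf hs hD (c * y a) τ
  obtain ⟨hi, he⟩ := pq_integral_prod M G fun a => (hg a).1.mul_const _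
  refine ⟨hi, he.trans_le ?_⟩
  rw [mul_comm _ (M : ℝ), Real.exp_nat_mul]
  calc ∏ a ∈ Finset.range M, ∫ z, G a z ∂gaussianReal 0 1
      ≤ ∏ _a ∈ Finset.range M,
          Real.exp ((2 * D + 4 * D ^ 2 * Real.exp (4 * B) + 4 * Dx) * ε) := by
        refine Finset.prod_le_prod (fun a _ => integral_nonneg fun z => by positivity) fun a _ => ?_
        simp only [G, integral_mul_const]
        refine (mul_le_mul (hg a).2 (Real.exp_le_exp.2 (mul_le_mul_of_nonneg_left
          ((le_abs_self _).trans (pq_scale hs hDx h0 h1 (y a))) zero_le_two))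
          (Real.exp_pos _).le (Real.exp_pos _).le).trans_eq ?_
        rw [← Real.exp_add, hτ2]
        congr 1
        ring
    _ = _ := by simp

/-- The two measures at fixed disorder of the old system. -/
lemma pq_pointwise (hf : Pot f B) (hs : Smf f) {D Dx : ℝ}
    (hD : ∀ x, |deriv f x| ≤ D ∧ |deriv (deriv f) x| ≤ D ∧ |iteratedDeriv 3 f x| ≤ D)
    (hDx : ∀ x, |x * deriv f x| ≤ Dx) (x : Fin P → ℝ) (d : ℝ) {t : ℝ} (ht : 0 < t) (M : ℕ)
    (g : ℕ → Sp (N + 1)) (J : PertSpace (N + 1) P) {Θ : Cfg N → Cfg N → ℝ} {C : ℝ}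
    (hΘ : ∀ z z', |Θ z z'| ≤ C) :
    ∫ h, |pairE (cavW f N x ((M, (g, h)), J)) Θ - pairE (qWt f x ((M, (g, h)), J)) Θ| ∂fieldLaw ≤
      4 * C * (t * (repE (n := 1) (cw f N x M g J) (fun r => devSq f d M g (r 0)) +
        3 * (D / 2) ^ 2 * var2 * ((1 / ((N : ℝ) + 2)) ^ 2 * (M : ℝ)) +
        3 * (729 * (3 * D) ^ 2) * ((1 / ((N : ℝ) + 2)) ^ 3 *
          (repE (n := 1) (cw f N x M g J) (fun r => sixth M g (r 0)) + mom6 * (M : ℝ) ^ 2))) +
        (Real.exp |d| + 1) / t * Real.exp ((2 * D + 4 * D ^ 2 * Real.exp (4 * B) + 4 * Dx + 2 * D ^ 2) *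
          (1 / ((N : ℝ) + 2)) * M)) := by
  set ε := 1 / ((N : ℝ) + 2) with hε
  set K := 3 * (729 * (3 * D) ^ 2)
  have hε0 : 0 ≤ ε := by positivity
  have hεh : ε ≤ 1 / 2 := by
    rw [hε]
    exact one_div_le_one_div_of_le two_pos (by linarith [(Nat.cast_nonneg N : (0 : ℝ) ≤ N)])
  have hC : 0 ≤ C := (abs_nonneg _).trans (hΘ default default)
  have hD0 : 0 ≤ D := (abs_nonneg _).trans (hD 0).1
  have hDx0 : 0 ≤ Dx := (abs_nonneg _).trans (hDx 0)
  set v := cw f N x M g J
  have hv : ∀ σ, 0 < v σ := cw_pos x M g J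
  set ξ := fun h σ => xiFld f N M g h σ
  set Δ := fun (h : ℕ → ℝ) σ (s : Bool) => ∑ a ∈ Finset.range M,
    (f (Real.sqrt (1 - ε) * fld g a σ + Real.sqrt ε * (h a * if s then 1 else -1)) - f (fld g a σ))
  set U := fun (h : ℕ → ℝ) σ => devSq f d M g σ +
    3 * (∑ a ∈ Finset.range M, (ε / 2 * deriv (deriv f) (fld g a σ)) * (h a ^ 2 - 1)) ^ 2 +
    K * (ε ^ 3 * ((M : ℝ) * ∑ a ∈ Finset.range M, (1 + fld g a σ ^ 6 + h a ^ 6)))
  set G := fun (h : ℕ → ℝ) σ => t * U h σ +
    (Real.exp |d| / (2 * t) * (Real.exp (2 * Δ h σ true) + Real.exp (2 * Δ h σ false)) +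
      1 / t * Real.cosh (2 * ξ h σ))
  have hp : ∀ h, |pairE (cavW f N x ((M, (g, h)), J)) Θ - pairE (qWt f x ((M, (g, h)), J)) Θ| ≤
      4 * C * repE (n := 1) v (fun r => G h (r 0)) := fun h => by
    set u := fun z : Cfg N => Δ h z.1 z.2 - sgn z.2 * ξ h z.1 - d / 2
    set w := fun z : Cfg N => v z.1 * Real.exp (sgn z.2 * ξ h z.1)
    have hw : ∀ z, 0 < w z := fun z => mul_pos (hv _) (Real.exp_pos _)
    have e1 : qWt f x ((M, (g, h)), J) = w := rfl
    have e2 : cavW f N x ((M, (g, h)), J) =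
        fun z => Real.exp (d / 2) * (w z * Real.exp (u z)) := funext fun z => by
      rw [cavW_eq f x M g h J z.1 z.2]
      show v z.1 * Real.exp (Δ h z.1 z.2) = _
      simp only [u, w, Real.exp_sub]
      field_simp
    rw [e1, e2, pq_pairE_scale (fun z => w z * Real.exp (u z)) Θ (Real.exp_pos _).ne']
    refine (pq_pair_le hw u hΘ).trans (mul_le_mul_of_nonneg_left
      (pq_point hv (ξ h) u (G h) fun σ s => ?_) (by linarith))
    refine (pq_term_le (u (σ, s)) (sgn s * ξ h σ) ht).trans (add_le_add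
      (mul_le_mul_of_nonneg_left ?_ ht.le) ?_)
    · have he := exponent_remainder hs hD hε0 (by linarith) M (fun a => fld g a σ) h d s
      have eu : sgn s * ξ h σ =
          if s then Real.sqrt ε * ∑ a ∈ Finset.range M, h a * deriv f (fld g a σ)
          else -(Real.sqrt ε * ∑ a ∈ Finset.range M, h a * deriv f (fld g a σ)) := by
        cases s
        · exact (neg_one_mul _)
        · exact (one_mul _)
      have e : u (σ, s) = Δ h σ s -
          (if s then Real.sqrt ε * ∑ a ∈ Finset.range M, h a * deriv f (fld g a σ)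
          else -(Real.sqrt ε * ∑ a ∈ Finset.range M, h a * deriv f (fld g a σ))) - d / 2 := by
        rw [← eu]
      rw [e]
      exact he
    · have a1 : Real.exp (2 * (u (σ, s) + sgn s * ξ h σ)) ≤
          Real.exp |d| * (Real.exp (2 * Δ h σ true) + Real.exp (2 * Δ h σ false)) := by
        refine le_trans (Real.exp_le_exp.2 (show 2 * (u (σ, s) + sgn s * ξ h σ) ≤
          |d| + 2 * Δ h σ s by simp only [u]; linarith [neg_le_abs d])) ?_
        rw [Real.exp_add]
        refine mul_le_mul_of_nonneg_left ?_ (Real.exp_pos _).le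
        have := Real.exp_pos (2 * Δ h σ true)
        have := Real.exp_pos (2 * Δ h σ false)
        cases s <;> linarith
      have a2 := pq_sgn_exp_le s (ξ h σ)
      rw [add_div]
      refine add_le_add ((div_le_div_of_nonneg_right a1 (by positivity)).trans_eq (by ring)) ?_
      refine (div_le_div_of_nonneg_right a2 (by positivity)).trans_eq ?_
      field_simp
  set b := 2 * D + 4 * D ^ 2 * Real.exp (4 * B) + 4 * Dx + 2 * D ^ 2
  have hU := fun σ => integral_remainder_le g (fun y => (hD y).2.1) hε0 (devSq f d M g σ) K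
    (by positivity) M σ
  have hE := fun σ s => pq_exp_top hf hs (fun y => ⟨(hD y).1, (hD y).2.1⟩) hDx hε0 hεh
    (fun a => fld g a σ) M s
  have hc := fun σ => integral_cosh_xiFld (fun y => (hD y).1) g M σ
  have iEt : ∀ σ, Integrable (fun h => Real.exp (2 * Δ h σ true)) fieldLaw := fun σ => (hE σ true).1
  have iEf : ∀ σ, Integrable (fun h => Real.exp (2 * Δ h σ false)) fieldLaw := fun σ => (hE σ false).1
  have iG : ∀ σ, Integrable (fun h => G h σ) fieldLaw := fun σ =>
    ((hU σ).1.const_mul t).add ((((iEt σ).add (iEf σ)).const_mul _).add ((hc σ).1.const_mul _))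
  have eG : ∀ σ, ∫ h, G h σ ∂fieldLaw ≤ t * (devSq f d M g σ + 3 * (D / 2) ^ 2 * var2 *
      (ε ^ 2 * (M : ℝ)) + K * (ε ^ 3 * (sixth M g σ + mom6 * (M : ℝ) ^ 2))) +
      (Real.exp |d| + 1) / t * Real.exp (b * ε * M) := fun σ => by
    have i2 : Integrable (fun h => Real.exp |d| / (2 * t) *
        (Real.exp (2 * Δ h σ true) + Real.exp (2 * Δ h σ false))) fieldLaw :=
      ((iEt σ).add (iEf σ)).const_mul _
    have i3 : Integrable (fun h => 1 / t * Real.cosh (2 * ξ h σ)) fieldLaw := (hc σ).1.const_mul _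
    have i1 : Integrable (fun h => t * U h σ) fieldLaw := (hU σ).1.const_mul t
    have i23 : Integrable (fun h => Real.exp |d| / (2 * t) *
        (Real.exp (2 * Δ h σ true) + Real.exp (2 * Δ h σ false)) +
        1 / t * Real.cosh (2 * ξ h σ)) fieldLaw := i2.add i3
    simp only [G]
    rw [integral_add i1 i23, integral_add i2 i3, integral_const_mul, integral_const_mul,
      integral_const_mul, integral_add (iEt σ) (iEf σ)]
    refine add_le_add (mul_le_mul_of_nonneg_left (hU σ).2 ht.le) ?_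
    have k : ∀ k', k' ≤ b → Real.exp (k' * ε * M) ≤ Real.exp (b * ε * M) := fun k' hk =>
      Real.exp_le_exp.2 (mul_le_mul_of_nonneg_right (mul_le_mul_of_nonneg_right hk hε0)
        (Nat.cast_nonneg M))
    have x1 := (hE σ true).2.trans (k _ (by simp only [b]; linarith [sq_nonneg D]))
    have x2 := (hE σ false).2.trans (k _ (by simp only [b]; linarith [sq_nonneg D]))
    have x3 := (hc σ).2.trans (k _ (by
      simp only [b]
      linarith [mul_nonneg (mul_nonneg (show (0 : ℝ) ≤ 4 by norm_num) (sq_nonneg D))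
        (Real.exp_pos (4 * B)).le]))
    refine (add_le_add (mul_le_mul_of_nonneg_left (add_le_add x1 x2) (by positivity))
      (mul_le_mul_of_nonneg_left x3 (by positivity))).trans_eq ?_
    field_simp
    ring
  obtain ⟨ir, er⟩ := integral_repE (w := v) (F := G) iG
  refine (integral_mono_of_nonneg (Eventually.of_forall fun h => abs_nonneg _) (ir.const_mul _)
    (Eventually.of_forall hp)).trans ?_
  rw [integral_const_mul, er]
  refine mul_le_mul_of_nonneg_left ((repE_mono hv fun r => eG (r 0)).trans_eq ?_) (by linarith)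
  have e : ∀ (A Q : (Fin 1 → Fin (N + 1) → Bool) → ℝ) (a k m c : ℝ),
      repE v (fun r => t * (A r + a + K * (k * (Q r + m))) + c) =
        t * (repE v A + a + K * (k * (repE v Q + m))) + c := fun A Q a k m c => by
    rw [repE_affine hv t c (fun r => A r + a + K * (k * (Q r + m)))]
    congr 2
    have h1 : (fun r => A r + a + K * (k * (Q r + m))) =
        fun r => A r + ((K * k) * Q r + (a + K * k * m)) := funext fun r => by ring
    rw [h1, repE_add, repE_affine hv]
    ring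
  exact e _ _ _ _ _ _

/-- The averages of the two measures differ by the drift and two small terms. -/
lemma pq_average (hf : Pot f B) (hs : Sft f) {α : ℝ} (hα : 0 < α) :
    ∃ C', 0 ≤ C' ∧ ∀ (N P : ℕ) (x : Fin P → ℝ) (Θ : Cfg N → Cfg N → ℝ) (C d t : ℝ),
      (∀ z z', |Θ z z'| ≤ C) → 0 < t →
      |cavAvg f α N x Θ - qAvg f α N x Θ| ≤ 4 * C *
        (t * ((pSys hf N (α * ((N : ℝ) + 2)) 0 x).avgRep 1 (fun ω r =>
          ((1 / ((N : ℝ) + 2)) * (∑ a ∈ Finset.range (cnt ω),
            (deriv (deriv f) (pat ω a (r 0)) - pat ω a (r 0) * deriv f (pat ω a (r 0)))) - d) ^ 2) +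
          C' / ((N : ℝ) + 2)) + (Real.exp |d| + 1) * C' / t) := by
  obtain ⟨D, hD1, hD⟩ := hs.smf.exists_bound
  obtain ⟨Dx, hDx⟩ := hs.flat
  have hDx0 : 0 ≤ Dx := (abs_nonneg _).trans (hDx 0)
  set b0 := 2 * D + 4 * D ^ 2 * Real.exp (4 * B) + 4 * Dx + 2 * D ^ 2
  set C1 := 3 * (D / 2) ^ 2 * var2
  set K := 3 * (729 * (3 * D) ^ 2)
  set C' := max (α * C1 + K * (α ^ 2 + α) * (Real.exp (2 * B) * mom6 + mom6))
    (Real.exp (α * (b0 * Real.exp b0)))
  have hC'0 : 0 ≤ C' := (Real.exp_pos _).le.trans (le_max_right _ _)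
  refine ⟨C', hC'0, fun N P x Θ C d t hΘ ht => ?_⟩
  have hC : 0 ≤ C := (abs_nonneg _).trans (hΘ default default)
  set ε := 1 / ((N : ℝ) + 2) with hε
  set lam := α * ((N : ℝ) + 2) with hlam
  have hN2 : (0 : ℝ) < (N : ℝ) + 2 := by positivity
  have hε0 : 0 ≤ ε := by positivity
  have hε1 : ε ≤ 1 := by rw [hε, div_le_one hN2]; linarith [(Nat.cast_nonneg N : (0 : ℝ) ≤ N)]
  have hl : 0 ≤ lam := by positivity
  have hle : lam * ε = α := by rw [hlam, hε]; field_simp
  set law := disLaw lam N P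
  -- the averages over the reordered disorder
  set Wc := fun p : Dis N P × (ℕ → ℝ) => cavW f N x ((p.1.1.1, (p.1.1.2, p.2)), p.1.2)
  set Wq := fun p : Dis N P × (ℕ → ℝ) => qWt f x ((p.1.1.1, (p.1.1.2, p.2)), p.1.2)
  have mc : ∀ z : Cfg N, Measurable fun p => Wc p z := fun z => measurable_cavW hf x z.1 z.2
  have mq : ∀ z : Cfg N, Measurable fun p => Wq p z := fun z => by
    have m1 : Measurable fun p : Dis N P × (ℕ → ℝ) => cw f N x p.1.1.1 p.1.1.2 p.1.2 z.1 :=
      (measurable_cw hf x z.1).comp measurable_fst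
    have m2 : Measurable fun p : Dis N P × (ℕ → ℝ) => xiFld f N p.1.1.1 p.1.1.2 p.2 z.1 :=
      measurable_of_count (fun M g h => xiFld f N M g h z.1) fun M => by
        unfold xiFld
        exact (Finset.measurable_sum (Finset.range M) fun a _ =>
          ((measurable_pi_apply a).comp measurable_snd).mul
            ((measurable_deriv f).comp ((measurable_fld a z.1).comp measurable_fst))).const_mul _
    exact m1.mul (m2.const_mul (sgn z.2)).exp
  have pc : ∀ p z, 0 < Wc p z := fun p z => mul_pos (Real.exp_pos _) (Real.exp_pos _)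
  have pq : ∀ p z, 0 < Wq p z := fun p z =>
    mul_pos (mul_pos (Real.exp_pos _) (Real.exp_pos _)) (Real.exp_pos _)
  have mE : ∀ W : Dis N P × (ℕ → ℝ) → Cfg N → ℝ, (∀ z, Measurable fun p => W p z) →
      Measurable fun p => pairE (W p) Θ := fun W hW =>
    (Finset.measurable_sum _ fun z _ => Finset.measurable_sum _ fun z' _ =>
      ((hW z).mul (hW z')).mul_const _).div
      ((Finset.measurable_sum _ fun z _ => hW z).pow_const 2)
  have iC : Integrable (fun p => pairE (Wc p) Θ) (law.prod fieldLaw) :=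
    Integrable.of_bound (mE Wc mc).aestronglyMeasurable C
      (Eventually.of_forall fun p => pq_abs_pairE_le (pc p) hΘ)
  have iQ : Integrable (fun p => pairE (Wq p) Θ) (law.prod fieldLaw) :=
    Integrable.of_bound (mE Wq mq).aestronglyMeasurable C
      (Eventually.of_forall fun p => pq_abs_pairE_le (pq p) hΘ)
  have hmp := measurePreserving_shuffle (poiLaw lam) (patLaw (N + 1))
    (stdGaussian (PertSpace (N + 1) P)) fieldLaw
  have hmap : ∀ W : Dis N P × (ℕ → ℝ) → Cfg N → ℝ, (∀ z, Measurable fun p => W p z) →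
      ∫ q, pairE (W (shuf q)) Θ ∂cavLaw α N P = ∫ p, pairE (W p) Θ ∂law.prod fieldLaw := by
    intro W hW
    have hm : Measurable fun q : CavOm N P => pairE (W (shuf q)) Θ := (mE W hW).comp measurable_shuf
    rw [cavLaw, ← hlam, ← hmp.map_eq, integral_map hmp.measurable.aemeasurable hm.aestronglyMeasurable]
    rfl
  have e1 : cavAvg f α N x Θ = ∫ p, pairE (Wc p) Θ ∂law.prod fieldLaw := hmap Wc mc
  have e2 : qAvg f α N x Θ = ∫ p, pairE (Wq p) Θ ∂law.prod fieldLaw := hmap Wq mq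
  rw [e1, e2, ← integral_sub iC iQ]
  refine abs_integral_le_integral_abs.trans ?_
  have iA : Integrable (fun p => |pairE (Wc p) Θ - pairE (Wq p) Θ|) (law.prod fieldLaw) :=
    (iC.sub iQ).abs
  rw [integral_prod _ iA]
  -- the bound at fixed disorder
  set sq1 := fun ω : Dis N P => repE (n := 1) (cw f N x ω.1.1 ω.1.2 ω.2) (fun r => devSq f d ω.1.1 ω.1.2 (r 0))
  set six := fun ω : Dis N P => repE (n := 1) (cw f N x ω.1.1 ω.1.2 ω.2) (fun r => sixth ω.1.1 ω.1.2 (r 0))
  set ex := fun ω : Dis N P => Real.exp (b0 * ε * ω.1.1)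
  set err := fun ω : Dis N P => sq1 ω + C1 * (ε ^ 2 * (ω.1.1 : ℝ)) +
    K * (ε ^ 3 * (six ω + mom6 * (ω.1.1 : ℝ) ^ 2))
  have hisq : Integrable sq1 law := integrable_devSq hf (fun y => ⟨(hD y).1, (hD y).2.1⟩) hl x d
  obtain ⟨hi6, hb6⟩ : Integrable six law ∧ ∫ ω, six ω ∂law ≤ Real.exp (2 * B) * mom6 * (lam ^ 2 + lam) :=
    integral_sixth_le hf hl x
  obtain ⟨hiM, eM⟩ := integral_count (N := N) (P := P) (fun M : ℕ => (M : ℝ)) (integral_poiLaw_id hl).1
  obtain ⟨hiM2, eM2⟩ := integral_count (N := N) (P := P) (fun M : ℕ => (M : ℝ) ^ 2) (integral_poiLaw_sq hl).1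
  obtain ⟨hie, eE⟩ : Integrable ex law ∧ ∫ ω, ex ω ∂law = _ :=
    integral_count (N := N) (P := P) (fun M : ℕ => Real.exp (b0 * ε * M)) (integral_poiLaw_exp hl _).1
  rw [(integral_poiLaw_id hl).2] at eM
  rw [(integral_poiLaw_sq hl).2] at eM2
  rw [(integral_poiLaw_exp hl _).2] at eE
  have ia : Integrable (fun ω => sq1 ω + C1 * (ε ^ 2 * (ω.1.1 : ℝ))) law :=
    hisq.add ((hiM.const_mul (ε ^ 2)).const_mul C1)
  have ib : Integrable (fun ω => K * (ε ^ 3 * (six ω + mom6 * (ω.1.1 : ℝ) ^ 2))) law :=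
    ((hi6.add (hiM2.const_mul mom6)).const_mul (ε ^ 3)).const_mul K
  have hierr : Integrable err law := ia.add ib
  have herr : ∫ ω, err ω ∂law ≤ ∫ ω, sq1 ω ∂law + C' / ((N : ℝ) + 2) := by
    rw [integral_add ia ib, integral_add hisq ((hiM.const_mul (ε ^ 2)).const_mul C1),
      integral_const_mul, integral_const_mul, integral_const_mul, integral_const_mul,
      integral_add hi6 (hiM2.const_mul mom6), integral_const_mul, eM, eM2, add_assoc]
    refine add_le_add le_rfl ?_
    have hC' : α * C1 + K * (α ^ 2 + α) * (Real.exp (2 * B) * mom6 + mom6) ≤ C' := le_max_left _ _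
    have hK : 0 ≤ K := by positivity
    have hm0 : 0 ≤ Real.exp (2 * B) * mom6 + mom6 := by
      have := mom6_nonneg; positivity
    have k1 : ε ^ 2 * lam = ε * α := by rw [← hle]; ring
    have k2 : ε ^ 3 * (lam ^ 2 + lam) ≤ ε * (α ^ 2 + α) := by
      have : ε ^ 3 * (lam ^ 2 + lam) = ε * α ^ 2 + ε * (ε * α) := by rw [← hle]; ring
      rw [this, mul_add]
      exact add_le_add le_rfl (mul_le_mul_of_nonneg_left (mul_le_of_le_one_left hα.le hε1) hε0)
    have k3 : ∫ ω, six ω ∂law + mom6 * (lam ^ 2 + lam) ≤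
        (Real.exp (2 * B) * mom6 + mom6) * (lam ^ 2 + lam) := by linarith
    calc C1 * (ε ^ 2 * lam) + K * (ε ^ 3 * (∫ ω, six ω ∂law + mom6 * (lam ^ 2 + lam)))
        ≤ C1 * (ε * α) + K * ((Real.exp (2 * B) * mom6 + mom6) * (ε * (α ^ 2 + α))) := by
          rw [k1]
          refine add_le_add le_rfl (mul_le_mul_of_nonneg_left
            ((mul_le_mul_of_nonneg_left k3 (pow_nonneg hε0 3)).trans ?_) hK)
          rw [mul_left_comm]
          exact mul_le_mul_of_nonneg_left k2 hm0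
      _ = ε * (α * C1 + K * (α ^ 2 + α) * (Real.exp (2 * B) * mom6 + mom6)) := by ring
      _ ≤ ε * C' := mul_le_mul_of_nonneg_left hC' hε0
      _ = C' / ((N : ℝ) + 2) := by rw [hε]; ring
  have hex : ∫ ω, ex ω ∂law ≤ C' := by
    rw [eE]
    refine le_trans (Real.exp_le_exp.2 ?_) (le_max_right _ _)
    have hD0 : 0 ≤ D := zero_le_one.trans hD1
    have hb00 : 0 ≤ b0 := by positivity
    set c := b0 * ε
    have hc0 : 0 ≤ c := by positivity
    have h1 : Real.exp c - 1 ≤ c * Real.exp c := by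
      have h := mul_le_mul_of_nonneg_left (Real.add_one_le_exp (-c)) (Real.exp_pos c).le
      rw [← Real.exp_add, add_neg_cancel, Real.exp_zero] at h
      linarith
    refine (mul_le_mul_of_nonneg_left (h1.trans (mul_le_mul_of_nonneg_left
      (Real.exp_le_exp.2 (mul_le_of_le_one_right hb00 hε1)) hc0)) hl).trans_eq ?_
    simp only [c]
    rw [← hle]
    ring
  have iB : Integrable (fun ω => 4 * C * (t * err ω + (Real.exp |d| + 1) / t * ex ω)) law :=
    ((hierr.const_mul t).add (hie.const_mul _)).const_mul _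
  refine (integral_mono iA.integral_prod_left iB fun ω => ?_).trans ?_
  · obtain ⟨⟨M, g⟩, J⟩ := ω
    exact pq_pointwise hf hs.smf hD hDx x d ht M g J hΘ
  rw [integral_const_mul, integral_add (hierr.const_mul t) (hie.const_mul _), integral_const_mul,
    integral_const_mul, avgRep_devSq hf lam x d]
  refine mul_le_mul_of_nonneg_left (add_le_add (mul_le_mul_of_nonneg_left herr ht.le) ?_) (by linarith)
  exact (mul_le_mul_of_nonneg_left hex (by positivity)).trans_eq (by ring)

/-- The limit of the second-order terms is bounded by a constant of the potential. -/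
lemma pq_drift_bound {A : Arr} {K : ℕ} (D : Discr A (K + 2)) (hs : Smf f) {Dv : ℝ}
    (hD : ∀ x, |deriv f x| ≤ Dv) : |D.pairing f - D.rdiag f| ≤ Dv ^ 2 := by
  obtain ⟨h1, h2⟩ := D.rdiag_mem hs hD
  have hq : ∀ j, 0 ≤ D.q j ∧ D.q j ≤ 1 := fun j => ⟨(D.rangeq j).1,
    (D.rangeq j).2.trans (sub_le_self _ (by positivity))⟩
  have p0 : 0 ≤ D.pairing f := Finset.sum_nonneg fun E _ =>
    mul_nonneg (D.C.nonneg 2 E) (mul_nonneg (hq _).1 (D.rval_mem hs hD _).1)
  have p1 : D.pairing f ≤ D.rdiag f := by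
    refine (Finset.sum_le_sum fun E _ => mul_le_mul_of_nonneg_left
      (mul_le_of_le_one_left (D.rval_mem hs hD _).1 (hq (E 0 1)).2 |>.trans (D.rval_mem hs hD _).2)
      (D.C.nonneg 2 E)).trans_eq ?_
    rw [← Finset.sum_mul, D.C.total 2, one_mul]
  exact abs_le.2 ⟨by linarith, by linarith⟩

/-- Averages of bounded functions agree in the limit. -/
theorem tendsto_cav_sub_q {f : ℝ → ℝ} {B : ℝ} (hf : Pot f B) (hs : Sft f) {α : ℝ} (hα : 0 < α)
    {A : Arr} {Ns : ℕ → ℕ} (hN : Tendsto Ns atTop atTop) (Ps : ℕ → ℕ) (xs : ∀ j, Fin (Ps j) → ℝ)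
    (h : Conv (fun j => pSys hf (Ns j) (α * ((Ns j : ℝ) + 2)) 0 (xs j)) A)
    (Θ : ∀ j, Cfg (Ns j) → Cfg (Ns j) → ℝ) {C : ℝ} (hΘ : ∀ j z z', |Θ j z z'| ≤ C) :
    Tendsto (fun j => cavAvg f α (Ns j) (xs j) (Θ j) - qAvg f α (Ns j) (xs j) (Θ j)) atTop (𝓝 0) := by
  obtain ⟨Dv, -, hDv⟩ := hs.smf.exists_bound
  obtain ⟨C', hC'0, hC'⟩ := pq_average hf hs hα
  have hC : 0 ≤ C := (abs_nonneg _).trans (hΘ 0 default default)
  rw [Metric.tendsto_atTop]
  intro η hη
  set E := (Real.exp (α * Dv ^ 2) + 1) * C'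
  set t := 16 * C * E / η + 1 with ht
  have hE : 0 ≤ E := by positivity
  have ht0 : 0 < t := by positivity
  have hE' : 4 * C * (E / t) ≤ η / 4 := by
    rw [← mul_div_assoc, div_le_iff₀ ht0, ht, mul_add,
      show η / 4 * (16 * C * E / η) = 4 * C * E by field_simp; ring]
    linarith
  set η' := η / (4 * (4 * C * t + 1))
  have hη' : 0 < η' := by positivity
  set D : ∀ K, Discr A (K + 2) := fun K => (A.exists_discr (Nat.le_add_left 2 K)).some
  obtain ⟨K, hK⟩ := (drift_limit hf hs.smf hα hN Ps xs h D hη').exists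
  have hsmall : ∀ᶠ j in atTop, C' / ((Ns j : ℝ) + 2) < η' :=
    (tendsto_const_nhds.div_atTop (tendsto_atTop_add_const_right _ _
      (tendsto_natCast_atTop_atTop.comp hN))).eventually (eventually_lt_nhds hη')
  obtain ⟨j0, hj0⟩ := eventually_atTop.1 (hK.and hsmall)
  refine ⟨j0, fun j hj => ?_⟩
  obtain ⟨h1, h2⟩ := hj0 j hj
  set d := α * ((D K).pairing f - (D K).rdiag f) with hd
  have hd' : |d| ≤ α * Dv ^ 2 := by
    rw [hd, abs_mul, abs_of_pos hα]
    exact mul_le_mul_of_nonneg_left (pq_drift_bound (D K) hs.smf fun x => (hDv x).1) hα.le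
  have h3 := hC' (Ns j) (Ps j) (xs j) (Θ j) C d t (hΘ j) ht0
  rw [Real.dist_eq, sub_zero]
  refine h3.trans_lt ?_
  have h4 : (Real.exp |d| + 1) * C' / t ≤ E / t :=
    div_le_div_of_nonneg_right (mul_le_mul_of_nonneg_right
      (add_le_add (Real.exp_le_exp.2 hd') le_rfl) hC'0) ht0.le
  have h5 := mul_le_mul_of_nonneg_left h4 (show (0 : ℝ) ≤ 4 * C by linarith)
  have h6 := mul_le_mul_of_nonneg_left (add_le_add h1 h2.le) (show (0 : ℝ) ≤ 4 * C * t by positivity)
  have h7 : 4 * C * t * (η' + η') ≤ η / 2 := by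
    have : 4 * C * t * η' ≤ (4 * C * t + 1) * η' := by nlinarith
    have e : (4 * C * t + 1) * η' = η / 4 := by simp only [η']; field_simp
    linarith
  rw [mul_add (4 * C), ← mul_assoc]
  linarith

end Vale.Agent.P157F
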