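import Vale.Agent.P157F.Low.Defs
import Vale.Agent.P157.Low.Expansion
import Vale.Agent.P157.Low.DriftValues
import Vale.Agent.P157.Low.DriftTilt

/-!
P157: averages of two replicas with the linearised exponent, truncated and expanded in series.
-/

namespace Vale.Agent.P157F

open MeasureTheory ProbabilityTheory Filter Vale.Agent.P157 Vale.Agent.P157.Low
open scoped RealInnerProductSpace Topology

variable {f : ℝ → ℝ} {B : ℝ} {N P : ℕ}

/-- Average of two replicas with insertions `θ W`, over the squared average of `W`. -/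
noncomputable def qRat (w ξ : (Fin (N + 1) → Bool) → ℝ) (W θ : ℝ → ℝ)
    (φ : (Fin (N + 1) → Bool) → (Fin (N + 1) → Bool) → ℝ) : ℝ :=
  repE (n := 2) w (fun r => φ (r 0) (r 1) * ∏ l, θ (ξ (r l)) * W (ξ (r l))) /
    ((∑ σ, w σ * W (ξ σ)) / ∑ σ, w σ) ^ 2

/-- The function of the overlap inserted in the averages. -/
noncomputable def ovlF (ψ : ℝ → ℝ) (σ τ : Fin (N + 1) → Bool) : ℝ :=
  ψ ⟪cubeVec (N + 1) σ, cubeVec (N + 1) τ⟫

/-- Insertions of the linearised exponent at given disorder. -/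
noncomputable def qInt (f : ℝ → ℝ) (x : Fin P → ℝ) (W θ : ℝ → ℝ) (ψ : ℝ → ℝ) (ω : Dis N P)
    (h : ℕ → ℝ) : ℝ :=
  qRat (cw f N x ω.1.1 ω.1.2 ω.2) (xiFld f N ω.1.1 ω.1.2 h) W θ (ovlF ψ)

section Point

variable {w ξ : (Fin (N + 1) → Bool) → ℝ} {W θ : ℝ → ℝ}
  {φ : (Fin (N + 1) → Bool) → (Fin (N + 1) → Bool) → ℝ} {C : ℝ}

lemma one_le_mean (hw : ∀ σ, 0 < w σ) (hW : ∀ y, 1 ≤ W y) :
    1 ≤ (∑ σ, w σ * W (ξ σ)) / ∑ σ, w σ := by
  rw [one_le_div (Finset.sum_pos (fun σ _ => hw σ) Finset.univ_nonempty)]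
  exact Finset.sum_le_sum fun σ _ => le_mul_of_one_le_right (hw σ).le (hW _)

lemma qRat_num_le (hw : ∀ σ, 0 < w σ) (hW : ∀ y, 1 ≤ W y) (hθ : ∀ y, |θ y| ≤ 1)
    (hφ : ∀ σ τ, |φ σ τ| ≤ C) :
    |repE (n := 2) w (fun r => φ (r 0) (r 1) * ∏ l, θ (ξ (r l)) * W (ξ (r l)))| ≤
      C * ((∑ σ, w σ * W (ξ σ)) / ∑ σ, w σ) ^ 2 := by
  have hsum := Finset.sum_pos (fun σ (_ : σ ∈ Finset.univ) => hw σ) Finset.univ_nonempty
  have hC : 0 ≤ C := (abs_nonneg _).trans (hφ (fun _ => true) fun _ => true)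
  rw [repE, abs_div, abs_of_pos (pow_pos hsum 2), div_pow, ← mul_div_assoc]
  refine div_le_div_of_nonneg_right ((Finset.abs_sum_le_sum_abs _ _).trans ?_) (sq_nonneg _)
  have e : (∑ σ, w σ * W (ξ σ)) ^ 2 = ∑ r : Fin 2 → Fin (N + 1) → Bool, ∏ l, w (r l) * W (ξ (r l)) := by
    rw [← Fintype.prod_sum (fun (_ : Fin 2) σ => w σ * W (ξ σ))]
    simp
  rw [e, Finset.mul_sum]
  refine Finset.sum_le_sum fun r _ => ?_
  rw [abs_mul, abs_mul, Finset.abs_prod, Finset.abs_prod, mul_left_comm]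
  refine mul_le_mul (hφ _ _) ?_ (by positivity) hC
  rw [← Finset.prod_mul_distrib]
  refine Finset.prod_le_prod (fun l _ => by positivity) fun l _ => ?_
  rw [abs_mul, abs_of_pos (hw _), abs_of_pos (zero_lt_one.trans_le (hW _))]
  exact mul_le_mul_of_nonneg_left
    (mul_le_of_le_one_left (zero_le_one.trans (hW _)) (hθ _)) (hw _).le

lemma abs_qRat_le (hw : ∀ σ, 0 < w σ) (hW : ∀ y, 1 ≤ W y) (hθ : ∀ y, |θ y| ≤ 1)
    (hφ : ∀ σ τ, |φ σ τ| ≤ C) : |qRat w ξ W θ φ| ≤ C := by
  have hp := zero_lt_one.trans_le (one_le_mean (ξ := ξ) hw hW)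
  rw [qRat, abs_div, abs_of_pos (pow_pos hp 2), div_le_iff₀ (pow_pos hp 2)]
  exact qRat_num_le hw hW hθ hφ

/-- Replacing the cosine by the truncated one. -/
lemma qRat_trunc (hw : ∀ σ, 0 < w σ) (hθ : ∀ y, |θ y| ≤ 1) (hφ : ∀ σ τ, |φ σ τ| ≤ C) {L : ℝ}
    (hL : 0 < L) :
    |qRat w ξ Real.cosh θ φ - qRat w ξ (coshT L) θ φ| ≤
      8 * C / L * ((∑ σ, w σ * Real.cosh (2 * ξ σ)) / ∑ σ, w σ) := by
  have hsum := Finset.sum_pos (fun σ (_ : σ ∈ Finset.univ) => hw σ) Finset.univ_nonempty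
  have hC : 0 ≤ C := (abs_nonneg _).trans (hφ (fun _ => true) fun _ => true)
  set Sw := ∑ σ, w σ
  set p := (∑ σ, w σ * Real.cosh (ξ σ)) / Sw
  set q := (∑ σ, w σ * coshT L (ξ σ)) / Sw
  have hq : 1 ≤ q := one_le_mean hw fun y => one_le_coshT L y
  have hqp : q ≤ p := div_le_div_of_nonneg_right (Finset.sum_le_sum fun σ _ =>
    mul_le_mul_of_nonneg_left (coshT_le_cosh hL _) (hw σ).le) hsum.le
  have hd : p - q ≤ 2 / L * ((∑ σ, w σ * Real.cosh (2 * ξ σ)) / Sw) := by
    simp only [p, q]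
    rw [← sub_div, ← Finset.sum_sub_distrib, mul_div_assoc', Finset.mul_sum]
    refine div_le_div_of_nonneg_right (Finset.sum_le_sum fun σ _ => ?_) hsum.le
    nlinarith [mul_le_mul_of_nonneg_left (coshT_ge hL (ξ σ)) (hw σ).le]
  set n := repE (n := 2) w (fun r => φ (r 0) (r 1) * ∏ l, θ (ξ (r l)) * Real.cosh (ξ (r l)))
  set m := repE (n := 2) w (fun r => φ (r 0) (r 1) * ∏ l, θ (ξ (r l)) * coshT L (ξ (r l)))
  have hm : |m| ≤ C * q ^ 2 := qRat_num_le hw (fun y => one_le_coshT L y) hθ hφ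
  have hnm : |n - m| ≤ C * (p ^ 2 - q ^ 2) := by
    simp only [n, m, p, q]
    rw [repE, repE, ← sub_div, ← Finset.sum_sub_distrib, abs_div, abs_of_pos (pow_pos hsum 2), div_pow,
      div_pow, ← sub_div, ← mul_div_assoc]
    refine div_le_div_of_nonneg_right ((Finset.abs_sum_le_sum_abs _ _).trans ?_) (sq_nonneg _)
    have e : ∀ W : ℝ → ℝ, (∑ σ, w σ * W (ξ σ)) ^ 2 =
        ∑ r : Fin 2 → Fin (N + 1) → Bool, ∏ l, w (r l) * W (ξ (r l)) := fun W => by
      rw [← Fintype.prod_sum (fun (_ : Fin 2) σ => w σ * W (ξ σ))]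
      simp
    rw [e Real.cosh, e (coshT L), ← Finset.sum_sub_distrib, Finset.mul_sum]
    refine Finset.sum_le_sum fun r _ => ?_
    simp only [Fin.prod_univ_two]
    set c0 := Real.cosh (ξ (r 0))
    set c1 := Real.cosh (ξ (r 1))
    set t0 := coshT L (ξ (r 0))
    set t1 := coshT L (ξ (r 1))
    have ht0 : 1 ≤ t0 := one_le_coshT _ _
    have ht1 : 1 ≤ t1 := one_le_coshT _ _
    have h0 : t0 ≤ c0 := coshT_le_cosh hL _
    have h1 : t1 ≤ c1 := coshT_le_cosh hL _
    have hge : 0 ≤ c0 * c1 - t0 * t1 := sub_nonneg.2 (mul_le_mul h0 h1 (by linarith) (by linarith))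
    rw [show w (r 0) * w (r 1) * (φ (r 0) (r 1) * (θ (ξ (r 0)) * c0 * (θ (ξ (r 1)) * c1))) -
        w (r 0) * w (r 1) * (φ (r 0) (r 1) * (θ (ξ (r 0)) * t0 * (θ (ξ (r 1)) * t1))) =
        (φ (r 0) (r 1) * (θ (ξ (r 0)) * θ (ξ (r 1)))) * (w (r 0) * w (r 1) * (c0 * c1 - t0 * t1)) by ring,
      abs_mul, abs_of_nonneg (mul_nonneg (mul_nonneg (hw _).le (hw _).le) hge),
      show w (r 0) * c0 * (w (r 1) * c1) - w (r 0) * t0 * (w (r 1) * t1) =
        w (r 0) * w (r 1) * (c0 * c1 - t0 * t1) by ring]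
    refine mul_le_mul_of_nonneg_right ?_ (mul_nonneg (mul_nonneg (hw _).le (hw _).le) hge)
    rw [abs_mul, abs_mul]
    exact (mul_le_mul (hφ _ _) (mul_le_one₀ (hθ _) (abs_nonneg _) (hθ _)) (by positivity) hC).trans_eq
      (mul_one C)
  have hp : 1 ≤ p := hq.trans hqp
  show |n / p ^ 2 - m / q ^ 2| ≤ _
  calc |n / p ^ 2 - m / q ^ 2| = |(n - m) / p ^ 2 - m / q ^ 2 * ((p ^ 2 - q ^ 2) / p ^ 2)| := by
        congr 1
        field_simp
        ring
    _ ≤ |(n - m) / p ^ 2| + |m / q ^ 2 * ((p ^ 2 - q ^ 2) / p ^ 2)| := abs_sub _ _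
    _ ≤ C * ((p ^ 2 - q ^ 2) / p ^ 2) + C * ((p ^ 2 - q ^ 2) / p ^ 2) := by
        refine add_le_add ?_ ?_
        · rw [abs_div, abs_of_pos (by positivity : 0 < p ^ 2), ← mul_div_assoc]
          exact div_le_div_of_nonneg_right hnm (sq_nonneg _)
        · have h2 : 0 ≤ (p ^ 2 - q ^ 2) / p ^ 2 := div_nonneg (by nlinarith) (sq_nonneg _)
          rw [abs_mul, abs_of_nonneg h2, abs_div, abs_of_pos (by positivity : 0 < q ^ 2)]
          exact mul_le_mul_of_nonneg_right ((div_le_iff₀ (by positivity)).2 hm) h2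
    _ ≤ 4 * C * (p - q) := by
        have h3 : (p ^ 2 - q ^ 2) / p ^ 2 ≤ 2 * (p - q) := by
          rw [div_le_iff₀ (by positivity), show p ^ 2 - q ^ 2 = (p - q) * (p + q) by ring,
            mul_comm (2 : ℝ), mul_assoc]
          exact mul_le_mul_of_nonneg_left (by nlinarith) (sub_nonneg.2 hqp)
        nlinarith [mul_le_mul_of_nonneg_left h3 hC]
    _ ≤ _ := by
        refine (mul_le_mul_of_nonneg_left hd (by positivity)).trans_eq ?_
        ring

end Point

lemma measurable_xiFld_pt (f : ℝ → ℝ) (N P : ℕ) (σ : Fin (N + 1) → Bool) :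
    Measurable fun p : Dis N P × (ℕ → ℝ) => xiFld f N p.1.1.1 p.1.1.2 p.2 σ :=
  measurable_of_count (fun M g h => xiFld f N M g h σ) fun M => by
    unfold xiFld
    exact (Finset.measurable_sum (Finset.range M) fun a _ => ((measurable_pi_apply a).comp
      measurable_snd).mul ((measurable_deriv f).comp ((measurable_fld a σ).comp measurable_fst))).const_mul _

lemma measurable_qInt (hf : Pot f B) (x : Fin P → ℝ) {W θ : ℝ → ℝ} (hW : Measurable W)
    (hθ : Measurable θ) (ψ : ℝ → ℝ) :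
    Measurable fun p : Dis N P × (ℕ → ℝ) => qInt f x W θ ψ p.1 p.2 := by
  have hw : ∀ σ, Measurable fun p : Dis N P × (ℕ → ℝ) => cw f N x p.1.1.1 p.1.1.2 p.1.2 σ := fun σ =>
    (measurable_cw hf x σ).comp measurable_fst
  have hx := measurable_xiFld_pt f N P
  simp only [qInt, qRat]
  refine (measurable_repE hw fun r => ?_).div
    (((Finset.measurable_sum _ fun σ _ => (hw σ).mul (hW.comp (hx σ))).div
      (Finset.measurable_sum _ fun σ _ => hw σ)).pow_const 2)
  exact (Finset.measurable_prod _ fun l _ => (hθ.comp (hx _)).mul (hW.comp (hx _))).const_mul _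

/-- The linearised average as an average of insertions. -/
lemma qAvg_eq (hf : Pot f B) (α : ℝ) (x : Fin P → ℝ) {ψ : ℝ → ℝ} {C : ℝ} (hC : ∀ t, |ψ t| ≤ C)
    {θ : ℝ → ℝ} (hθm : Measurable θ) (hθ : ∀ y, |θ y| ≤ 1) {a : Bool → ℝ}
    (ha : ∀ y, Real.exp y * a true + Real.exp (-y) * a false = 2 * (θ y * Real.cosh y)) :
    qAvg f α N x (fun z z' => a z.2 * a z'.2 * ψ (oldR z z')) =
      ∫ ω, ∫ h, qInt f x Real.cosh θ ψ ω h ∂fieldLaw ∂disLaw (α * ((N : ℝ) + 2)) N P := by
  set lam := α * ((N : ℝ) + 2)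
  have hmc := Real.continuous_cosh.measurable
  have hm := measurable_qInt (N := N) hf x hmc hθm ψ
  have hmp := measurePreserving_shuffle (poiLaw lam) (patLaw (N + 1))
    (stdGaussian (PertSpace (N + 1) P)) fieldLaw
  have hi : Integrable (fun p : Dis N P × (ℕ → ℝ) => qInt f x Real.cosh θ ψ p.1 p.2)
      ((disLaw lam N P).prod fieldLaw) :=
    Integrable.of_bound hm.aestronglyMeasurable C (Eventually.of_forall fun p =>
      (Real.norm_eq_abs _).le.trans (abs_qRat_le (fun σ => cw_pos x _ _ _ σ) Real.one_le_cosh hθ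
        fun σ τ => hC _))
  have e0 : ∀ q : CavOm N P, pairE (qWt f x q) (fun z z' => a z.2 * a z'.2 * ψ (oldR z z')) =
      (fun p : Dis N P × (ℕ → ℝ) => qInt f x Real.cosh θ ψ p.1 p.2) (shuf q) := by
    intro q
    set w := cw f N x q.1.1 q.1.2.1 q.2 with hw
    set ξ := xiFld f N q.1.1 q.1.2.1 q.1.2.2 with hξ
    have hq : ∀ σ s, qWt f x q (σ, s) = w σ * Real.exp (sgn s * ξ σ) := fun σ s => rfl
    show _ = qRat w ξ Real.cosh θ (ovlF ψ)
    have hd : ∑ z, qWt f x q z = 2 * ∑ σ, w σ * Real.cosh (ξ σ) := by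
      rw [Fintype.sum_prod_type, Finset.mul_sum]
      refine Finset.sum_congr rfl fun σ _ => ?_
      simp only [Fintype.sum_bool, hq, sgn, if_true, Bool.false_eq_true, if_false, one_mul, neg_mul,
        Real.cosh_eq]
      ring
    have hn : ∑ z, ∑ z', qWt f x q z * qWt f x q z' * (a z.2 * a z'.2 * ψ (oldR z z')) =
        4 * ∑ σ, ∑ τ, w σ * w τ * (ovlF ψ σ τ * (θ (ξ σ) * Real.cosh (ξ σ) *
          (θ (ξ τ) * Real.cosh (ξ τ)))) := by
      simp only [Fintype.sum_prod_type, Fintype.sum_bool, hq, sgn, if_true, Bool.false_eq_true, if_false,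
        one_mul, neg_mul, oldR, Finset.mul_sum, ← Finset.sum_add_distrib]
      refine Finset.sum_congr rfl fun σ _ => Finset.sum_congr rfl fun τ _ => ?_
      have h1 := ha (ξ σ)
      have h2 := ha (ξ τ)
      simp only [ovlF]
      linear_combination (w σ * w τ * ψ ⟪cubeVec (N + 1) σ, cubeVec (N + 1) τ⟫ *
        (Real.exp (ξ τ) * a true + Real.exp (-ξ τ) * a false)) * h1 +
        (w σ * w τ * ψ ⟪cubeVec (N + 1) σ, cubeVec (N + 1) τ⟫ * (2 * (θ (ξ σ) * Real.cosh (ξ σ)))) * h2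
    have hpos : 0 < ∑ σ, w σ := Finset.sum_pos (fun σ _ => cw_pos x _ _ _ σ) Finset.univ_nonempty
    have hpos' : 0 < ∑ σ, w σ * Real.cosh (ξ σ) :=
      Finset.sum_pos (fun σ _ => mul_pos (cw_pos x _ _ _ σ) (Real.cosh_pos _)) Finset.univ_nonempty
    rw [pairE, hd, hn, qRat, repE_two, div_pow]
    simp only [Fin.prod_univ_two, Matrix.cons_val_zero, Matrix.cons_val_one, ← Finset.sum_div]
    field_simp
    ring
  have e1 : qAvg f α N x (fun z z' => a z.2 * a z'.2 * ψ (oldR z z')) =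
      ∫ q, (fun p : Dis N P × (ℕ → ℝ) => qInt f x Real.cosh θ ψ p.1 p.2) (shuf q)
        ∂((poiLaw lam).prod ((patLaw (N + 1)).prod fieldLaw)).prod
          (stdGaussian (PertSpace (N + 1) P)) := integral_congr_ae (Eventually.of_forall e0)
  have hms : Measurable fun q : (ℕ × ((ℕ → Sp (N + 1)) × (ℕ → ℝ))) × PertSpace (N + 1) P =>
      (fun p : Dis N P × (ℕ → ℝ) => qInt f x Real.cosh θ ψ p.1 p.2) (shuf q) :=
    hm.comp measurable_shuf
  rw [e1, ← hmp.map_eq, integral_map hmp.measurable.aemeasurable hms.aestronglyMeasurable,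
    ← integral_prod _ hi]
  rfl

/-- The cost of the truncation is uniform in the size of the system. -/
lemma exists_trunc_cost (hf : Pot f B) (hs : Smf f) {α : ℝ} (hα : 0 ≤ α) :
    ∃ C0, 0 ≤ C0 ∧ ∀ (N P : ℕ) (x : Fin P → ℝ) (θ : ℝ → ℝ), Measurable θ → (∀ y, |θ y| ≤ 1) →
      ∀ (ψ : ℝ → ℝ) (C : ℝ), (∀ t, |ψ t| ≤ C) → ∀ L, 0 < L →
      |(∫ ω, ∫ h, qInt f x Real.cosh θ ψ ω h ∂fieldLaw ∂disLaw (α * ((N : ℝ) + 2)) N P) -
        ∫ ω, ∫ h, qInt f x (coshT L) θ ψ ω h ∂fieldLaw ∂disLaw (α * ((N : ℝ) + 2)) N P| ≤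
          C0 * C / L := by
  obtain ⟨D, hD⟩ := hs.bdD_deriv.bdd
  set u := 2 * D ^ 2
  refine ⟨8 * Real.exp (α * (u * Real.exp u)), by positivity,
    fun N P x θ hθm hθ ψ C hC L hL => ?_⟩
  set lam := α * ((N : ℝ) + 2)
  have hl : 0 ≤ lam := by positivity
  have hC0 : 0 ≤ C := (abs_nonneg _).trans (hC 0)
  have hint : ∀ W : ℝ → ℝ, Measurable W → (∀ y, 1 ≤ W y) →
      Integrable (fun p : Dis N P × (ℕ → ℝ) => qInt f x W θ ψ p.1 p.2) ((disLaw lam N P).prod fieldLaw) :=
    fun W hWm hW => Integrable.of_bound (measurable_qInt hf x hWm hθm ψ).aestronglyMeasurable C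
      (Eventually.of_forall fun p => (Real.norm_eq_abs _).le.trans
        (abs_qRat_le (fun σ => cw_pos x _ _ _ σ) hW hθ fun σ τ => hC _))
  have i1 := hint Real.cosh Real.continuous_cosh.measurable Real.one_le_cosh
  have i2 := hint (coshT L) (sm_coshT L).bdD.cont.measurable (one_le_coshT L)
  rw [← integral_sub i1.integral_prod_left i2.integral_prod_left, ← Real.norm_eq_abs]
  set b := 2 * D ^ 2 * (1 / ((N : ℝ) + 2))
  obtain ⟨ip, ep⟩ := integral_poiLaw_exp hl b
  have iω : Integrable (fun ω : Dis N P => 8 * C / L * Real.exp (b * ω.1.1)) (disLaw lam N P) :=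
    ((ip.comp_fst (patLaw (N + 1))).comp_fst _).const_mul _
  refine (norm_integral_le_of_norm_le iω ?_).trans ?_
  · filter_upwards [i1.prod_right_ae, i2.prod_right_ae] with ω h1 h2
    rw [← integral_sub h1 h2]
    have hw : ∀ σ, 0 < cw f N x ω.1.1 ω.1.2 ω.2 σ := fun σ => cw_pos x _ _ _ σ
    have hc := fun σ => integral_cosh_xiFld hD ω.1.2 ω.1.1 σ
    have hig := fun σ => (hc σ).1.const_mul (cw f N x ω.1.1 ω.1.2 ω.2 σ)
    refine (norm_integral_le_of_norm_le
      (((integrable_finsetSum Finset.univ fun σ _ => hig σ).div_const _).const_mul (8 * C / L))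
      (Eventually.of_forall fun h => (Real.norm_eq_abs _).le.trans
        (qRat_trunc hw hθ (fun σ τ => hC _) hL))).trans ?_
    rw [integral_const_mul, integral_div, integral_finsetSum _ fun σ _ => hig σ]
    refine mul_le_mul_of_nonneg_left ?_ (by positivity)
    rw [div_le_iff₀ (Finset.sum_pos (fun σ _ => hw σ) Finset.univ_nonempty), Finset.mul_sum]
    refine Finset.sum_le_sum fun σ _ => ?_
    rw [integral_const_mul, mul_comm (Real.exp _)]
    exact mul_le_mul_of_nonneg_left (hc σ).2 (hw σ).le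
  · have e : ∫ ω, 8 * C / L * Real.exp (b * ω.1.1) ∂disLaw lam N P =
        8 * C / L * Real.exp (lam * (Real.exp b - 1)) := by
      rw [integral_const_mul, disLaw, integral_fun_fst (fun q : ℕ × (ℕ → Sp (N + 1)) => Real.exp (b * q.1)),
        integral_fun_fst (fun M : ℕ => Real.exp (b * M)), ep]
      simp
    rw [e, show 8 * Real.exp (α * (u * Real.exp u)) * C / L =
      8 * C / L * Real.exp (α * (u * Real.exp u)) by ring]
    refine mul_le_mul_of_nonneg_left (Real.exp_le_exp.2 ?_) (by positivity)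
    rw [mul_assoc]
    refine mul_le_mul_of_nonneg_left ?_ hα
    have hb0 : 0 ≤ b := by positivity
    have hbu : b ≤ u := mul_le_of_le_one_right (by positivity) (by
      rw [div_le_one (by positivity)]; linarith [Nat.cast_nonneg (α := ℝ) N])
    have h1 : Real.exp b - 1 ≤ b * Real.exp b := by
      have := mul_le_mul_of_nonneg_left (Real.add_one_le_exp (-b)) (Real.exp_pos b).le
      rw [← Real.exp_add, add_neg_cancel, Real.exp_zero] at this
      linarith
    refine (mul_le_mul_of_nonneg_left (h1.trans (mul_le_mul_of_nonneg_left (Real.exp_le_exp.2 hbu) hb0))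
      (by positivity)).trans (le_of_eq ?_)
    simp only [b, u]
    field_simp

/-- The truncated insertions as a series in the covariances of the fields. -/
lemma qTrunc_series (hf : Pot f B) (α : ℝ) (x : Fin P → ℝ) {L : ℝ} {θ : ℝ → ℝ}
    (hθc : Continuous θ) (hθ : ∀ y, |θ y| ≤ 1) {ψ : ℝ → ℝ} {C : ℝ}
    (hC : ∀ t, |ψ t| ≤ C) {G : ∀ k, Mat (2 + k) → ℝ}
    (hG : ∀ k R, (Matrix.of R).PosSemidef →
      G k R = GE R (ratioTerm (cmid L) (coshT L) fun _ : Fin 2 => θ)) :
    let S := pSys hf N (α * ((N : ℝ) + 2)) 0 x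
    ∫ ω, ∫ h, qInt f x (coshT L) θ ψ ω h ∂fieldLaw ∂disLaw (α * ((N : ℝ) + 2)) N P =
      ∑' k : ℕ, (negCoef 2 k : ℝ) * S.avgRep (2 + k) (fun ω r =>
        ψ (S.gram r (Fin.castAdd k 0) (Fin.castAdd k 1)) * G k (spinCov ω r)) := by
  intro S
  set c := cmid L
  set W := coshT L
  set ρ := spread L
  have hρ : ρ < 1 := spread_lt_one L
  have hρ0 : 0 ≤ ρ := spread_nonneg L
  have hW : ∀ y, |1 - W y / c| ≤ ρ := abs_one_sub_coshT L
  have hWc : Continuous W := (sm_coshT L).bdD.cont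
  have hc : 0 < c := cmid_pos L
  have hC0 : 0 ≤ C := (abs_nonneg _).trans (hC 0)
  set Z : ∀ k, Dis N P × (ℕ → ℝ) → (Fin (2 + k) → Fin (N + 1) → Bool) → ℝ := fun k p r =>
    ovlF ψ (r (Fin.castAdd k 0)) (r (Fin.castAdd k 1)) *
      ratioTerm c W (fun _ : Fin 2 => θ) fun l => xiFld f N p.1.1.1 p.1.1.2 p.2 (r l)
  set M := C * (∏ _l : Fin 2, 1 * (1 + ρ))
  have hZb : ∀ k p r, |Z k p r| ≤ M * ρ ^ k := fun k p r => by
    simp only [Z, M]
    rw [abs_mul, mul_assoc]
    exact mul_le_mul (hC _) (abs_ratioTerm_le (D := fun _ => 1) hW (fun l y => hθ y) _) (abs_nonneg _) hC0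
  set F : ℕ → Dis N P × (ℕ → ℝ) → ℝ := fun k p =>
    (negCoef 2 k : ℝ) * repE (cw f N x p.1.1.1 p.1.1.2 p.1.2) (Z k p)
  have hFm : ∀ k, Measurable (F k) := fun k => by
    refine (measurable_repE (fun σ => (measurable_cw hf x σ).comp measurable_fst) fun r => ?_).const_mul _
    exact ((measurable_ratioTerm hWc.measurable fun _ => hθc.measurable).comp
      (measurable_pi_lambda _ fun l => measurable_xiFld_pt f N P (r l))).const_mul _
  have hFb : ∀ k p, |F k p| ≤ (negCoef 2 k : ℝ) * (M * ρ ^ k) := fun k p => by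
    simp only [F]
    rw [abs_mul, Nat.abs_cast]
    exact mul_le_mul_of_nonneg_left (abs_repE_le (fun σ => cw_pos x _ _ _ σ) (hZb k p))
      (Nat.cast_nonneg' _)
  have hpt : ∀ p, HasSum (fun k => F k p) (qInt f x W θ ψ p.1 p.2) := by
    intro p
    set w := cw f N x p.1.1.1 p.1.1.2 p.1.2
    set ξ := xiFld f N p.1.1.1 p.1.1.2 p.2
    have hw : Wt w := wt_cw x _ _ _
    have := isProbabilityMeasure_gibbs (μ := cubeMeasure (N + 1)) hw
    set G0 := gibbs (cubeMeasure (N + 1)) w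
    set m := ∫ σ, (1 - W (ξ σ) / c) ∂G0
    have hmb : |m| ≤ ρ := by
      have := norm_integral_le_of_norm_le_const (μ := G0) (f := fun σ => 1 - W (ξ σ) / c) (C := ρ)
        (Eventually.of_forall fun σ => (Real.norm_eq_abs _).le.trans (hW _))
      simpa [Real.norm_eq_abs] using this
    have hI : (∑ σ, w σ * W (ξ σ)) / ∑ σ, w σ = c * (1 - m) := by
      simp only [m]
      rw [integral_sub (integrable_const _) Integrable.of_finite, integral_const, integral_div,
        probReal_univ, one_smul, integral_gibbs hw, integral_cube, integral_cube,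
        div_div_div_cancel_right₀ (by positivity)]
      field_simp
      ring
    set J := ∫ r, ovlF ψ (r 0) (r 1) * ∏ l, θ (ξ (r l)) * (W (ξ (r l)) / c)
      ∂Measure.pi fun _ : Fin 2 => G0 with hJ
    have hval : qRat w ξ W θ (ovlF ψ) = J * ((1 - m) ^ 2)⁻¹ := by
      rw [qRat, hI, mul_pow, ← div_div, ← div_eq_mul_inv, ← integral_pi_gibbs_cube hw, hJ,
        ← integral_div]
      congr 1
      refine integral_congr_ae (Eventually.of_forall fun r => ?_)
      simp only [Fin.prod_univ_two]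
      field_simp
    show HasSum _ (qRat w ξ W θ (ovlF ψ))
    rw [hval]
    refine ((hasSum_negCoef_q 2 (hmb.trans_lt hρ)).mul_left J).congr_fun fun k => ?_
    simp only [F, Z, ratioTerm]
    rw [← integral_pi_gibbs_cube hw,
      show m ^ k = ∫ y, ∏ l, (1 - W (ξ (y l)) / c) ∂Measure.pi fun _ : Fin k => G0 by
        rw [integral_fintype_prod_eq_pow (fun σ => 1 - W (ξ σ) / c), Fintype.card_fin],
      mul_left_comm J, hJ, ← integral_prod_mul, ← map_pi_split G0 2 k,
      integral_map (Measurable.aemeasurable (measurable_of_finite _))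
        (measurable_of_finite _).aestronglyMeasurable]
    congr 1
    refine integral_congr_ae (Eventually.of_forall fun r => ?_)
    simp only [Fin.prod_univ_two]
    ring
  have htot := hasSum_integral_bdd (μ := (disLaw (α * ((N : ℝ) + 2)) N P).prod fieldLaw) hFm hFb
    (summable_negCoef 2 hρ0 hρ M) hpt
  have hqi : Integrable (fun p : Dis N P × (ℕ → ℝ) => qInt f x W θ ψ p.1 p.2)
      ((disLaw (α * ((N : ℝ) + 2)) N P).prod fieldLaw) :=
    Integrable.of_bound (measurable_qInt hf x hWc.measurable hθc.measurable ψ).aestronglyMeasurable C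
      (Eventually.of_forall fun p => (Real.norm_eq_abs _).le.trans
        (abs_qRat_le (fun σ => cw_pos x _ _ _ σ) (one_le_coshT L) hθ fun σ τ => hC _))
  rw [← integral_prod _ hqi, ← htot.tsum_eq]
  refine tsum_congr fun k => ?_
  simp only [F]
  rw [integral_const_mul]
  congr 1
  have hZi : Integrable (fun p : Dis N P × (ℕ → ℝ) => repE (cw f N x p.1.1.1 p.1.1.2 p.1.2) (Z k p))
      ((disLaw (α * ((N : ℝ) + 2)) N P).prod fieldLaw) := Integrable.of_bound
    (measurable_repE (fun σ => (measurable_cw hf x σ).comp measurable_fst) fun r =>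
      ((measurable_ratioTerm hWc.measurable fun _ => hθc.measurable).comp
        (measurable_pi_lambda _ fun l => measurable_xiFld_pt f N P (r l))).const_mul _).aestronglyMeasurable
    (M * ρ ^ k) (Eventually.of_forall fun p => (Real.norm_eq_abs _).le.trans
      (abs_repE_le (fun σ => cw_pos x _ _ _ σ) (hZb k p)))
  rw [integral_prod _ hZi]
  refine integral_congr_ae (Eventually.of_forall fun ω => ?_)
  show ∫ h, repE (cw f N x ω.1.1 ω.1.2 ω.2) (Z k (ω, h)) ∂fieldLaw = _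
  refine Eq.trans ?_ (integral_pi_gibbs_cube (wt_cw x ω.1.1 ω.1.2 ω.2) _).symm
  set sq := Real.sqrt (1 / ((N : ℝ) + 2))
  set u : (Fin (N + 1) → Bool) → EuclideanSpace ℝ (Fin ω.1.1) := fun σ =>
    WithLp.toLp 2 fun a : Fin ω.1.1 => sq * deriv f (fld ω.1.2 a σ)
  have hterm : ∀ r : Fin (2 + k) → Fin (N + 1) → Bool,
      Integrable (fun h => Z k (ω, h) r) fieldLaw ∧ ∫ h, Z k (ω, h) r ∂fieldLaw =
        ψ (S.gram r (Fin.castAdd k 0) (Fin.castAdd k 1)) * G k (spinCov (x := x) (hf := hf)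
          (lam := α * ((N : ℝ) + 2)) ω r) := by
    intro r
    have hΘm : Measurable (ratioTerm (k := k) c W fun _ : Fin 2 => θ) :=
      measurable_ratioTerm hWc.measurable fun _ => hθc.measurable
    refine ⟨Integrable.of_bound ((hΘm.comp (measurable_pi_lambda _ fun l =>
      (measurable_xiFld_pt f N P (r l)).comp measurable_prodMk_left)).const_mul _).aestronglyMeasurable
        (M * ρ ^ k) (Eventually.of_forall fun h => (Real.norm_eq_abs _).le.trans (hZb k (ω, h) r)), ?_⟩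
    simp only [Z]
    rw [integral_const_mul]
    congr 1
    have e1 : ∀ (h : ℕ → ℝ) (σ : Fin (N + 1) → Bool), xiFld f N ω.1.1 ω.1.2 h σ =
        ⟪(WithLp.toLp 2 fun a : Fin ω.1.1 => h a : EuclideanSpace ℝ (Fin ω.1.1)), u σ⟫ := fun h σ => by
      simp only [u, xiFld, sq, PiLp.inner_apply, RCLike.inner_apply, conj_trivial]
      rw [Finset.mul_sum, ← Fin.sum_univ_eq_sum_range]
      exact Finset.sum_congr rfl fun a _ => by ring
    set Φ : EuclideanSpace ℝ (Fin ω.1.1) → ℝ := fun g =>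
      ratioTerm (k := k) c W (fun _ : Fin 2 => θ) fun l => ⟪g, u (r l)⟫
    have hΦm : Measurable Φ := hΘm.comp (measurable_pi_lambda _ fun l => measurable_id.inner measurable_const)
    simp only [e1]
    show ∫ h, Φ (WithLp.toLp 2 fun a : Fin ω.1.1 => h a) ∂fieldLaw = _
    rw [fieldLaw, ← integral_map (μ := Measure.infinitePi fun _ : ℕ => gaussianReal 0 1)
        (φ := fun h (a : Fin ω.1.1) => h a) (f := fun g => Φ (WithLp.toLp 2 g))
        (Measurable.aemeasurable (by fun_prop)) (hΦm.comp (by fun_prop)).aestronglyMeasurable,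
      map_first_patterns (γ := gaussianReal 0 1),
      ← integral_map (φ := WithLp.toLp 2) (f := Φ) (Measurable.aemeasurable (by fun_prop))
        hΦm.aestronglyMeasurable, map_pi_eq_stdGaussian, integral_inner_eq_GE (fun l => u (r l)) hΘm]
    have hQ : spinCov (x := x) (hf := hf) (lam := α * ((N : ℝ) + 2)) ω r =
        fun a b => ⟪u (r a), u (r b)⟫ := by
      funext a b
      simp only [spinCov, patSum, u, PiLp.inner_apply, RCLike.inner_apply, conj_trivial,
        Fin.prod_univ_two, Matrix.cons_val_zero, Matrix.cons_val_one, Finset.mul_sum]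
      rw [← Fin.sum_univ_eq_sum_range]
      refine Finset.sum_congr rfl fun i _ => ?_
      have hs2 : sq * sq = 1 / ((N : ℝ) + 2) := Real.mul_self_sqrt (by positivity)
      simp only [pat, fld]
      linear_combination -(deriv f ⟪ω.1.2 i, cubeVec (N + 1) (r a)⟫ *
        deriv f ⟪ω.1.2 i, cubeVec (N + 1) (r b)⟫) * hs2
    exact ((congrArg (G k) hQ).trans (hG k _ (Matrix.posSemidef_gram ℝ fun a => u (r a)))).symm
  simp only [repE]
  rw [integral_div, integral_finsetSum _ fun r _ => (hterm r).1.const_mul _]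
  congr 1
  refine Finset.sum_congr rfl fun r _ => ?_
  rw [integral_const_mul, (hterm r).2]

end Vale.Agent.P157F
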