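import Vale.Agent.P157.Low.SpinLimit

/-!
P157: terms of the series with a function of the overlaps inserted, and their values along the
levels of a discretisation.
-/

namespace Vale.Agent.P157F

open MeasureTheory ProbabilityTheory Filter Vale.Agent.P157 Vale.Agent.P157.Low
open scoped Topology

attribute [local instance] Arr.prob

variable {f : ℝ → ℝ} {B α : ℝ} {A : Arr} {Ns Ps : ℕ → ℕ} {xs : ∀ j, Fin (Ps j) → ℝ} {n : ℕ}

/-- Close matrices give close averages. -/
lemma abs_integral_mul_sub_le {X : Type} [MeasurableSpace X] (μ : Measure X) [IsProbabilityMeasure μ]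
    {G : Mat n → ℝ} (hG : Continuous G) (hGb : ∀ R, |G R| ≤ 1) {η C R0 v : ℝ} (hC0 : 0 ≤ C)
    (hC : ∀ z y : Mat n, (∀ a b, |y a b| ≤ R0) →
      |G z - G y| ≤ η + C * ∑ a, ∑ b, (z a b - y a b) ^ 2)
    {φ : X → ℝ} (hφ : Measurable φ) (hφb : ∀ x, |φ x| ≤ 1) {Z Y : X → Mat n} (hZ : Measurable Z)
    (hY : Measurable Y) (hYb : ∀ x a b, |Y x a b| ≤ R0)
    (hi : ∀ a b, Integrable (fun x => (Z x a b - Y x a b) ^ 2) μ)
    (hv : ∀ a b, ∫ x, (Z x a b - Y x a b) ^ 2 ∂μ ≤ v) :
    |(∫ x, φ x * G (Z x) ∂μ) - ∫ x, φ x * G (Y x) ∂μ| ≤ η + C * (n : ℝ) ^ 2 * v := by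
  have hb : ∀ (W : X → Mat n) x, ‖φ x * G (W x)‖ ≤ 1 := fun W x => by
    rw [Real.norm_eq_abs, abs_mul]
    exact mul_le_one₀ (hφb x) (abs_nonneg _) (hGb _)
  have i1 : Integrable (fun x => φ x * G (Z x)) μ := Integrable.of_bound
    (hφ.mul (hG.measurable.comp hZ)).aestronglyMeasurable 1 (Eventually.of_forall (hb Z))
  have i2 : Integrable (fun x => φ x * G (Y x)) μ := Integrable.of_bound
    (hφ.mul (hG.measurable.comp hY)).aestronglyMeasurable 1 (Eventually.of_forall (hb Y))
  have i5 := fun a => integrable_finsetSum Finset.univ fun b (_ : b ∈ Finset.univ) => hi a b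
  have i6 := integrable_finsetSum Finset.univ fun a (_ : a ∈ Finset.univ) => i5 a
  rw [← integral_sub i1 i2, ← Real.norm_eq_abs]
  refine (norm_integral_le_of_norm_le ((integrable_const η).add (i6.const_mul C))
    (Eventually.of_forall fun x => ?_)).trans ?_
  · rw [Real.norm_eq_abs, ← mul_sub, abs_mul]
    exact (mul_le_of_le_one_left (abs_nonneg _) (hφb x)).trans (hC _ _ (hYb x))
  · simp only [Pi.add_apply]
    rw [integral_add (integrable_const η) (i6.const_mul C), integral_const_mul,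
      integral_finsetSum _ fun a _ => i5 a,
      Finset.sum_congr rfl fun a _ => integral_finsetSum _ fun b _ => hi a b]
    simp only [integral_const, probReal_univ, smul_eq_mul, one_mul]
    refine (add_le_add_iff_left _).2 ((mul_le_mul_of_nonneg_left
      (Finset.sum_le_sum fun a _ => Finset.sum_le_sum fun b _ => hv a b) hC0).trans_eq ?_)
    simp [sq]
    ring

/-- Each term converges, with a function of the overlaps inserted. -/
lemma eventually_term_mul_close (hf : Pot f B) (hs : Smf f) (hα : 0 < α) (hN : Tendsto Ns atTop atTop)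
    (h : Conv (fun j => pSys hf (Ns j) (α * ((Ns j : ℝ) + 2)) 0 (xs j)) A) (D : ∀ K, Discr A (K + 2))
    {G Φ : Mat n → ℝ} (hG : Continuous G) (hGb : ∀ R, |G R| ≤ 1) (hΦ : Continuous Φ)
    (hΦb : ∀ R, |Φ R| ≤ 1) {δ : ℝ} (hδ : 0 < δ) :
    ∀ᶠ K in atTop, ∀ᶠ j in atTop,
      |(pSys hf (Ns j) (α * ((Ns j : ℝ) + 2)) 0 (xs j)).avgRep n (fun ω r =>
          Φ ((pSys hf (Ns j) (α * ((Ns j : ℝ) + 2)) 0 (xs j)).gram r) * G (spinCov ω r)) -
        ∫ R, Φ R * G ((D K).spinMat f α R) ∂A.law n| ≤ δ := by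
  obtain ⟨Dv, hD⟩ := hs.bdD_deriv.bdd
  obtain ⟨L, e, hL, he, hb⟩ := exists_entry_bounds hf hs hα hN h D hD
  obtain ⟨C, hC0, hC⟩ := exists_quad_modulus hG hGb (show 0 < δ / 5 by linarith) (α * Dv ^ 2)
  set κ := δ / (5 * (C * (n : ℝ) ^ 2 * (α ^ 2 * (L + 2 * Dv ^ 2 + 1) + 1) + 1))
  have hκ : 0 < κ := by positivity
  filter_upwards [he.eventually (gt_mem_nhds hκ)] with K hK
  have hrv : ∀ j, |(D K).rval f j| ≤ Dv ^ 2 := fun j => by
    obtain ⟨h1, h2⟩ := (D K).rval_mem hs hD j
    exact abs_le.2 ⟨by linarith [sq_nonneg Dv], h2.trans ((D K).rdiag_mem hs hD).2⟩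
  have hrd : |(D K).rdiag f| ≤ Dv ^ 2 :=
    abs_le.2 ⟨by linarith [((D K).rdiag_mem hs hD).1, sq_nonneg Dv], ((D K).rdiag_mem hs hD).2⟩
  obtain ⟨ψ, hψ, hψb, hψd⟩ := exists_continuous_near A (D K).measτ (fun j => (D K).rval f j) hrv hκ
  set F : Mat n → Mat n := psiMat (fun t => α * ψ t) (α * (D K).rdiag f)
  have hFc : Continuous F := continuous_psiMat (hψ.const_mul α) _
  have hFb : ∀ R a b, |F R a b| ≤ α * Dv ^ 2 := fun R a b => by
    simp only [F, psiMat]
    split_ifs <;> rw [abs_mul, abs_of_pos hα]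
    exacts [mul_le_mul_of_nonneg_left hrd hα.le, mul_le_mul_of_nonneg_left (hψb _) hα.le]
  have hMb : ∀ (R : Mat n) (a b : Fin n), |(D K).spinMat f α R a b| ≤ α * Dv ^ 2 := fun R a b => by
    simp only [Discr.spinMat]
    split_ifs <;> rw [abs_mul, abs_of_pos hα]
    exacts [mul_le_mul_of_nonneg_left hrd hα.le, mul_le_mul_of_nonneg_left (hrv _) hα.le]
  have hmM : Measurable fun R : Mat n => (D K).spinMat f α R := by
    refine measurable_pi_lambda _ fun a => measurable_pi_lambda _ fun b => ?_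
    simp only [Discr.spinMat]
    split_ifs
    · fun_prop
    · exact ((measurable_of_finite fun j => (D K).rval f j).comp
        ((D K).measτ.comp ((measurable_pi_apply b).comp (measurable_pi_apply a)))).const_mul α
  have hbd : ∀ (R : Mat n) a b, |(F R a b - (D K).spinMat f α R a b) ^ 2| ≤ (2 * (α * Dv ^ 2)) ^ 2 :=
    fun R a b => by
      rw [abs_pow]
      exact pow_le_pow_left₀ (abs_nonneg _) ((abs_sub _ _).trans (by linarith [hFb R a b, hMb R a b])) 2
  have i3 : ∀ a b, Integrable (fun R => (F R a b - (D K).spinMat f α R a b) ^ 2) (A.law n) := fun a b =>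
    Integrable.of_bound ((((measurable_pi_apply b).comp ((measurable_pi_apply a).comp hFc.measurable)).sub
      ((measurable_pi_apply b).comp ((measurable_pi_apply a).comp hmM))).pow_const 2).aestronglyMeasurable
      ((2 * (α * Dv ^ 2)) ^ 2) (Eventually.of_forall fun R => (Real.norm_eq_abs _).le.trans (hbd R a b))
  have hmid : |(∫ R, Φ R * G (F R) ∂A.law n) - ∫ R, Φ R * G ((D K).spinMat f α R) ∂A.law n| ≤
      δ / 5 + C * (n : ℝ) ^ 2 * (α ^ 2 * (2 * Dv ^ 2) * κ) := by
    refine abs_integral_mul_sub_le (A.law n) hG hGb hC0 hC hΦ.measurable hΦb hFc.measurable hmM hMb i3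
      fun a b => ?_
    by_cases hab : a = b
    · subst hab
      simp only [F, psiMat, Discr.spinMat, if_true, sub_self]
      simp only [ne_eq, OfNat.ofNat_ne_zero, not_false_eq_true, zero_pow, integral_zero]
      positivity
    · have hinj : Function.Injective ![a, b] := fun i k hik => by
        fin_cases i <;> fin_cases k <;> simp_all
      have hsm : Measurable fun R : Mat n => sub R ![a, b] := by unfold sub; fun_prop
      have hsm2 : Measurable fun R : Mat 2 => |ψ (R 0 1) - (D K).rval f ((D K).τ (R 0 1))| :=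
        ((hψ.measurable.comp (by fun_prop)).sub
          (((measurable_of_finite fun j => (D K).rval f j).comp (D K).measτ).comp (by fun_prop))).abs
      have hI : ∫ R, |ψ (R a b) - (D K).rval f ((D K).τ (R a b))| ∂A.law n ≤ κ := by
        rw [← A.marg ![a, b] hinj] at hψd
        rw [integral_map hsm.aemeasurable hsm2.aestronglyMeasurable] at hψd
        exact hψd
      have hI2 : Integrable (fun R => |ψ (R a b) - (D K).rval f ((D K).τ (R a b))|) (A.law n) :=
        Integrable.of_bound (hsm2.comp hsm).aestronglyMeasurable (2 * Dv ^ 2)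
          (Eventually.of_forall fun R => by
            rw [Real.norm_eq_abs, abs_abs]
            exact (abs_sub _ _).trans (by linarith [hψb (R a b), hrv ((D K).τ (R a b))]))
      refine (integral_mono (i3 a b) (hI2.const_mul (α ^ 2 * (2 * Dv ^ 2))) fun R => ?_).trans ?_
      · simp only [F, psiMat, Discr.spinMat, if_neg hab]
        rw [← mul_sub, mul_pow, mul_assoc (α ^ 2), ← sq_abs (ψ (R a b) - _), sq |_|]
        exact mul_le_mul_of_nonneg_left (mul_le_mul_of_nonneg_right
          ((abs_sub _ _).trans (by linarith [hψb (R a b), hrv ((D K).τ (R a b))])) (abs_nonneg _))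
          (sq_nonneg α)
      · rw [integral_const_mul]
        exact mul_le_mul_of_nonneg_left hI (by positivity)
  filter_upwards [hb K ψ hψ hψb κ hκ,
    (h n (fun R => Φ R * G (F R)) (hΦ.mul (hG.comp hFc)) ⟨1, fun R => by
      rw [abs_mul]; exact mul_le_one₀ (hΦb R) (abs_nonneg _) (hGb _)⟩).eventually
      (Metric.ball_mem_nhds _ (show 0 < δ / 5 by linarith))] with j hj hj'
  set S := pSys hf (Ns j) (α * ((Ns j : ℝ) + 2)) 0 (xs j)
  have hmS := S.measurable_gram n
  have hmΦ : Measurable fun p : S.Ω × (Fin n → S.X) => Φ (S.gram p.2) :=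
    hΦ.measurable.comp (hmS.comp measurable_snd)
  have hmY : Measurable fun p : S.Ω × (Fin n → S.X) => F (S.gram p.2) :=
    hFc.measurable.comp (hmS.comp measurable_snd)
  have hmZ : Measurable fun p : S.Ω × (Fin n → S.X) => spinCov p.1 p.2 :=
    measurable_spinCov hs.bdD_deriv.cont.measurable
  have iq : ∀ a b, Integrable (fun p : S.Ω × (Fin n → S.X) =>
      (spinCov p.1 p.2 a b - F (S.gram p.2) a b) ^ 2) (S.repLaw n) := fun a b =>
    S.integrable_repLaw_of_le ((integrable_cnt 2).const_mul ((Dv * Dv + α * Dv ^ 2) ^ 2))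
      (Θ := fun ω x => (spinCov ω x a b - F (S.gram x) a b) ^ 2)
      ((((measurable_pi_apply b).comp ((measurable_pi_apply a).comp hmZ)).sub
        ((measurable_pi_apply b).comp ((measurable_pi_apply a).comp hmY))).pow_const 2) fun ω x => by
      rw [abs_of_nonneg (sq_nonneg _)]
      refine sq_patSum_sub_le (fun y => ?_) (hFb _ a b) ω _
      rw [Fin.prod_univ_two, abs_mul]
      exact mul_le_mul (hD _) (hD _) (abs_nonneg _) ((abs_nonneg _).trans (hD 0))
  have hb1 : ∀ (W : Mat n) (x : Fin n → S.X), |Φ (S.gram x) * G W| ≤ 1 := fun W x => by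
    rw [abs_mul]; exact mul_le_one₀ (hΦb _) (abs_nonneg _) (hGb _)
  have hfin : |S.avgRep n (fun ω r => Φ (S.gram r) * G (spinCov ω r)) -
      S.expect (fun R => Φ R * G (F R))| ≤
      δ / 5 + C * (n : ℝ) ^ 2 * (α ^ 2 * (L + 1) * κ + κ) := by
    rw [Sys.expect, S.avgRep_eq (Θ := fun ω r => Φ (S.gram r) * G (spinCov ω r))
        (hmΦ.mul (hG.measurable.comp hmZ)) fun ω r => hb1 _ _,
      S.avgRep_eq (Θ := fun _ r => Φ (S.gram r) * G (F (S.gram r)))
        (hmΦ.mul (hG.measurable.comp hmY)) fun ω r => hb1 _ _]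
    refine abs_integral_mul_sub_le (S.repLaw n) hG hGb hC0 hC (φ := fun p => Φ (S.gram p.2))
      hmΦ (fun p => hΦb _) (Z := fun p => spinCov p.1 p.2) (Y := fun p => F (S.gram p.2)) hmZ hmY
      (fun p => hFb _) iq fun a b => ?_
    rw [← S.avgRep_eq_of_integrable (Θ := fun ω x => (spinCov ω x a b - F (S.gram x) a b) ^ 2) (iq a b)]
    refine (hj n a b).trans ?_
    rw [mul_assoc (α ^ 2)]
    refine (add_le_add_iff_right κ).2 (mul_le_mul_of_nonneg_left ?_ (sq_nonneg α))
    nlinarith [mul_le_mul_of_nonneg_left hψd hL]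
  rw [Real.dist_eq] at hj'
  have hk : C * (n : ℝ) ^ 2 * (α ^ 2 * (L + 2 * Dv ^ 2 + 1) + 1) * κ ≤ δ / 5 := by
    simp only [κ]
    rw [mul_div_assoc', div_le_div_iff₀ (by positivity) (by norm_num)]
    nlinarith
  calc |S.avgRep n (fun ω r => Φ (S.gram r) * G (spinCov ω r)) -
        ∫ R, Φ R * G ((D K).spinMat f α R) ∂A.law n|
      ≤ _ := (abs_sub_le _ _ _).trans (add_le_add hfin
        ((abs_sub_le _ (∫ R, Φ R * G (F R) ∂A.law n) _).trans (add_le_add hj'.le hmid)))
    _ ≤ δ := by nlinarith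

/-- The terms at the levels make the ratio series of the discretisation. -/
lemma sum_spinMat {K : ℕ} (D : Discr A (K + 2)) (hs : Smf f) (hα : 0 ≤ α) {L : ℝ} {θ : ℝ → ℝ}
    (hθc : Continuous θ) (hθb : ∀ y, |θ y| ≤ 1) {G : ∀ k, Mat (2 + k) → ℝ}
    (hG : ∀ k R, (Matrix.of R).PosSemidef →
      G k R = GE R (ratioTerm (cmid L) (coshT L) fun _ : Fin 2 => θ))
    (φ : LMat D.r 2 → ℝ) :
    ∑' k : ℕ, (negCoef 2 k : ℝ) * ∫ R, φ (lift D.τ (sub R (Fin.castAdd k))) *
        G k (D.spinMat f α R) ∂A.law (2 + k) =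
      D.C.ratio (incr fun j => α * D.rval f j) (cmid L)
        (Low.heat (coshT L) (α * (D.rdiag f - D.rval f (Fin.last D.r)))) φ
        (fun _ => quot (coshT L) θ (α * (D.rdiag f - D.rval f (Fin.last D.r)))) := by
  obtain ⟨Dv, hD⟩ := hs.bdD_deriv.bdd
  set s := α * (D.rdiag f - D.rval f (Fin.last D.r))
  have hs0 : 0 ≤ s := mul_nonneg hα (sub_nonneg.2 (D.rval_mem hs hD _).2)
  set d := incr fun j => α * D.rval f j
  have hd : ∀ j, 0 ≤ d j := Low.incr_nonneg
    (fun i j hij => mul_le_mul_of_nonneg_left ((conj_props hs (D.levelParam (by omega)) hD).1 hij) hα)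
    (mul_nonneg hα (D.rval_mem hs hD 0).1)
  set c := cmid L
  set W := coshT L
  have hWm : Measurable W := (sm_coshT L).bdD.cont.measurable
  have hW : ∀ y, |1 - W y / c| ≤ spread L := abs_one_sub_coshT L
  refine tsum_congr fun k => congrArg _ ?_
  set M : LMat D.r (2 + k) → Mat (2 + k) := fun E a b =>
    if a = b then α * D.rdiag f else α * D.rval f (E a b)
  have e : ∀ R : Mat (2 + k), φ (lift D.τ (sub R (Fin.castAdd k))) * G k (D.spinMat f α R) =
      (fun E => φ (sub E (Fin.castAdd k)) * G k (M E)) (lift D.τ R) := fun R => by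
    simp only [lift_sub D.τ R (Fin.castAdd_injective 2 k)]
    congr 2
    funext a b
    simp only [Discr.spinMat, M, lift]
    split_ifs <;> rfl
  simp only [e]
  rw [D.law (2 + k) fun E => φ (sub E (Fin.castAdd k)) * G k (M E)]
  refine Finset.sum_congr rfl fun E _ => ?_
  rcases eq_or_ne (D.C.P (2 + k) E) 0 with hE | hE
  · simp [hE]
  congr 2
  have hps := posSemidef_lcov hd (D.C.symm _ E hE) (D.C.diag _ E hE) (D.C.ultra _ E hE)
  have hM : M E = fun a b => lcov d E a b + if a = b then s else 0 := by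
    funext a b
    rw [lcov_incr]
    simp only [M, s]
    split_ifs with h
    · subst h
      rw [D.C.diag _ E hE]
      ring
    · ring
  have hfm : ∀ a, Measurable (fac c W (fun _ : Fin 2 => θ) k a) := fun a => by
    refine Fin.addCases (fun l => ?_) (fun l => ?_) a <;>
      simp only [fac, Fin.append_left, Fin.append_right]
    · exact hθc.measurable.mul (hWm.div_const c)
    · exact (hWm.div_const c).const_sub 1
  have hfb : ∀ a, ∃ M, ∀ y, |fac c W (fun _ : Fin 2 => θ) k a y| ≤ M := fun a => by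
    refine Fin.addCases (fun l => ⟨1 * (1 + spread L), fun y => ?_⟩) (fun l => ⟨spread L, fun y => ?_⟩) a <;>
      simp only [fac, Fin.append_left, Fin.append_right]
    · rw [abs_mul]
      exact mul_le_mul (hθb y) (abs_wt_le hW y) (abs_nonneg _) zero_le_one
    · exact hW y
  rw [hM, hG _ _ (posSemidef_add_diag hps hs0),
    show (ratioTerm c W fun _ : Fin 2 => θ : (Fin (2 + k) → ℝ) → ℝ) =
      fun x => ∏ a, fac c W (fun _ : Fin 2 => θ) k a (x a) from funext (ratioTerm_eq _),
    GE_add_diag hps hs0 _ hfm hfb]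
  congr 1
  funext x
  rw [ratioTerm_eq]
  refine Finset.prod_congr rfl fun a _ => ?_
  refine Fin.addCases (fun l => ?_) (fun l => ?_) a <;>
    simp only [fac, Fin.append_left, Fin.append_right, quot]
  · have hpos : 0 < Low.heat W s (x (Fin.castAdd k l)) :=
      pos_of_near (cmid_pos L) (spread_lt_one L)
        (fun y => by rw [← heat_res hWm hW]; exact abs_heat_le hW _ _) _
    rw [show (fun y => θ y * (W y / c)) = fun y => θ y * W y / c from
      funext fun y => (mul_div_assoc _ _ _).symm, heat_div]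
    field_simp
  · exact heat_res hWm hW _ _

end Vale.Agent.P157F
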