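import Vale.Agent.P157.Low.CavityPoint
import Vale.Agent.P157.Low.SpinLimit
import Vale.Agent.P166F.Ent

/-!
P157: a perturbation of the innermost potential moves the pairs of slopes little, whatever the
number of levels.
-/

namespace Vale.Agent.P157F

open MeasureTheory ProbabilityTheory Vale.Agent.P157 Vale.Agent.P157.Low Vale.Agent.P166F
open Vale.Agent.P166F.Chain

lemma lip_potStep {U : ℝ → ℝ} (hU : RSB.Lip 1 U) {n : ℝ} (hn : 0 ≤ n) (T : ℝ) :
    RSB.Lip 1 (potStep n T U) := by
  have e : lstep n T U = potStep n T U := by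
    funext y
    simp only [lstep, lmom, potStep, RSB.lexp]
    split_ifs <;> rfl
  exact e ▸ lip_lstep hU hn T

lemma abs_insStep_le {U G : ℝ → ℝ} (hU : RSB.Lip 1 U) (hG : ∀ y, |G y| ≤ 1) (n T y : ℝ) :
    |insStep n T U G y| ≤ 1 := by
  have h := abs_ltilt_le hU hG n T y
  rwa [ltilt_eq] at h

lemma measurable_insStep {U G : ℝ → ℝ} (hU : RSB.Lip 1 U) (hG : Measurable G) (n T : ℝ) :
    Measurable (insStep n T U G) := by
  have e : insStep n T U G = ltilt n T U G := funext fun y => (ltilt_eq n T U G y).symm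
  rw [e]
  exact measurable_ltilt hU hG n T

lemma cosh_four (y : ℝ) :
    Real.cosh (2 * y) ≤ Real.cosh (4 * y) ∧ Real.cosh (2 * y) ^ 2 ≤ Real.cosh (4 * y) := by
  have h1 := Real.one_le_cosh (2 * y)
  have e : Real.cosh (4 * y) = 2 * Real.cosh (2 * y) ^ 2 - 1 := by
    rw [show 4 * y = 2 * (2 * y) by ring, Real.cosh_two_mul, Real.sinh_sq]
    ring
  constructor <;> nlinarith

/-- Tilted moments of the hyperbolic cosine. -/
lemma cosh_moment {V : ℝ → ℝ} (hV : RSB.Lip 1 V) {n : ℝ} (hn0 : 0 ≤ n) (hn1 : n ≤ 1) {T : ℝ}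
    (hT : 0 ≤ T) {p : ℝ} (hp0 : 0 ≤ p) (hp : p ≤ 4) (y : ℝ) :
    Integrable (fun z => Real.exp (n * V (y + Real.sqrt T * z)) *
        Real.cosh (p * (y + Real.sqrt T * z))) (gaussianReal 0 1) ∧
      ∫ z, Real.exp (n * V (y + Real.sqrt T * z)) * Real.cosh (p * (y + Real.sqrt T * z))
          ∂gaussianReal 0 1 ≤
        Real.exp (12 * T) * Real.cosh (p * y) *
          ∫ z, Real.exp (n * V (y + Real.sqrt T * z)) ∂gaussianReal 0 1 := by
  set a := Real.sqrt T with ha
  set w : ℝ → ℝ := fun z => Real.exp (n * V (y + a * z))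
  have hwi : Integrable w (gaussianReal 0 1) := (wgt_step hV n y T).int
  have key : ∀ q : ℝ, |q| ≤ 4 →
      Integrable (fun z => w z * Real.exp (q * (y + a * z))) (gaussianReal 0 1) ∧
      ∫ z, w z * Real.exp (q * (y + a * z)) ∂gaussianReal 0 1 ≤
        Real.exp (12 * T) * Real.exp (q * y) * ∫ z, w z ∂gaussianReal 0 1 := by
    intro q hq
    have e : ∀ z, w z * Real.exp (q * (y + a * z)) =
        Real.exp (q * y) * (Real.exp (q * a * z) * w z) := fun z => by
      rw [mul_add, Real.exp_add]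
      ring_nf
    constructor
    · have hs : RSB.Lip 1 fun x => V (y + x) :=
        ⟨hV.meas.comp (measurable_const_add y), zero_le_one, fun x h => by
          have := hV.lip (y + x) h
          rwa [add_assoc] at this⟩
      have := int_exp_lin hs n a (q * a) (b := fun _ => 1) measurable_const (C := 1) (by simp)
      refine (this.const_mul (Real.exp (q * y))).congr (Filter.Eventually.of_forall fun z => ?_)
      show Real.exp (q * y) * (Real.exp (n * V (y + a * z) + q * a * z) * 1) =
        w z * Real.exp (q * (y + a * z))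
      rw [mul_one, Real.exp_add, e]
      ring
    · simp only [e]
      rw [integral_const_mul, gauss_tilt]
      have hshift : ∀ z, w (z + q * a) ≤ Real.exp (4 * T) * w z := fun z => by
        simp only [w, ← Real.exp_add, Real.exp_le_exp]
        have hl := hV.lip (y + a * z) (a * (q * a))
        rw [Real.norm_eq_abs, one_mul, show y + a * z + a * (q * a) = y + a * (z + q * a) by ring,
          show a * (q * a) = q * (a * a) by ring, ha, Real.mul_self_sqrt hT, abs_mul,
          abs_of_nonneg hT] at hl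
        have h1 := (abs_le.1 hl).2
        have h2 := mul_le_mul_of_nonneg_right hq hT
        nlinarith
      have hmono : ∫ z, w (z + q * a) ∂gaussianReal 0 1 ≤
          ∫ z, Real.exp (4 * T) * w z ∂gaussianReal 0 1 :=
        integral_mono_of_nonneg (Filter.Eventually.of_forall fun z => (Real.exp_pos _).le)
          (hwi.const_mul _) (Filter.Eventually.of_forall hshift)
      rw [integral_const_mul] at hmono
      have h8 : Real.exp ((q * a) ^ 2 / 2) ≤ Real.exp (8 * T) := by
        rw [Real.exp_le_exp, mul_pow, ha, Real.sq_sqrt hT, ← sq_abs]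
        nlinarith [pow_le_pow_left₀ (abs_nonneg q) hq 2]
      rw [show Real.exp (12 * T) * Real.exp (q * y) * ∫ z, w z ∂gaussianReal 0 1 =
        Real.exp (q * y) * (Real.exp (8 * T) * (Real.exp (4 * T) * ∫ z, w z ∂gaussianReal 0 1)) by
          rw [show (12 : ℝ) * T = 8 * T + 4 * T by ring, Real.exp_add]; ring]
      refine mul_le_mul_of_nonneg_left (mul_le_mul h8 hmono
        (integral_nonneg fun z => (Real.exp_pos _).le) (Real.exp_pos _).le) (Real.exp_pos _).le
  obtain ⟨i1, k1⟩ := key p (by rwa [abs_of_nonneg hp0])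
  obtain ⟨i2, k2⟩ := key (-p) (by rwa [abs_neg, abs_of_nonneg hp0])
  have ec : ∀ z, w z * Real.cosh (p * (y + a * z)) =
      1 / 2 * (w z * Real.exp (p * (y + a * z))) + 1 / 2 * (w z * Real.exp (-p * (y + a * z))) :=
    fun z => by rw [Real.cosh_eq]; ring_nf
  show Integrable (fun z => w z * _) _ ∧ ∫ z, w z * Real.cosh (p * (y + a * z)) ∂_ ≤ _
  simp only [ec]
  refine ⟨(i1.const_mul _).add (i2.const_mul _), ?_⟩
  rw [integral_add (i1.const_mul _) (i2.const_mul _), integral_const_mul, integral_const_mul]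
  refine (add_le_add (mul_le_mul_of_nonneg_left k1 (by norm_num))
    (mul_le_mul_of_nonneg_left k2 (by norm_num))).trans (le_of_eq ?_)
  rw [Real.cosh_eq]
  ring_nf

/-- One level: the gap of the potentials and the gap of the insertions, tilted. -/
lemma trunc_step {U V G G' : ℝ → ℝ} (hU : RSB.Lip 1 U) (hV : RSB.Lip 1 V) (hG : Measurable G)
    (hG' : Measurable G') (hGb : ∀ y, |G y| ≤ 1) (hGb' : ∀ y, |G' y| ≤ 1) {c K a M n T : ℝ}
    (hK : 0 ≤ K) (hT : 0 ≤ T) (hn0 : 0 ≤ n) (hnM : n ≤ M) (hM : M ≤ 1)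
    (hΔ : ∀ y, 0 ≤ U y + c - V y)
    (hP : ∀ y, Real.exp (U y + c - V y) - 1 ≤ K * Real.cosh (2 * y))
    (hX : ∀ y, |Real.exp (M * (U y + c - V y)) * G y - G' y| ≤ a * Real.cosh (4 * y)) (y : ℝ) :
    0 ≤ potStep n T U y + c - potStep n T V y ∧
      Real.exp (potStep n T U y + c - potStep n T V y) - 1 ≤
        Real.exp (12 * T) * K * Real.cosh (2 * y) ∧
      |Real.exp (n * (potStep n T U y + c - potStep n T V y)) * insStep n T U G y -
          insStep n T V G' y| ≤
        Real.exp (12 * T) * (a + (M - n) * (K * (1 + K))) * Real.cosh (4 * y) := by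
  have hn1 : n ≤ 1 := hnM.trans hM
  set g : ℝ → ℝ := fun z => y + Real.sqrt T * z
  set w : ℝ → ℝ := fun z => Real.exp (n * V (g z))
  set Δ : ℝ → ℝ := fun z => U (g z) + c - V (g z)
  have hgm : Measurable g := by fun_prop
  have hwi : Integrable w (gaussianReal 0 1) := (wgt_step hV n y T).int
  have hui : Integrable (fun z => Real.exp (n * U (g z))) (gaussianReal 0 1) := (wgt_step hU n y T).int
  set IV := ∫ z, w z ∂gaussianReal 0 1 with hIV
  set IU := ∫ z, Real.exp (n * U (g z)) ∂gaussianReal 0 1 with hIU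
  have hIV0 : 0 < IV := (wgt_step hV n y T).pos
  have hIU0 : 0 < IU := (wgt_step hU n y T).pos
  obtain ⟨i2, m2⟩ := cosh_moment hV hn0 hn1 hT (p := 2) (by norm_num) (by norm_num) y
  obtain ⟨i4, m4⟩ := cosh_moment hV hn0 hn1 hT (p := 4) (by norm_num) le_rfl y
  have hwU : ∀ z, w z * Real.exp (n * Δ z) = Real.exp (n * c) * Real.exp (n * U (g z)) := fun z => by
    simp only [w, Δ, ← Real.exp_add]
    ring_nf
  have hΔm : Measurable Δ := ((hU.meas.comp hgm).add_const c).sub (hV.meas.comp hgm)
  have hwm : Measurable w := ((hV.meas.comp hgm).const_mul n).exp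
  have iP : Integrable (fun z => w z * Real.exp (Δ z)) (gaussianReal 0 1) := by
    refine Integrable.mono' (hwi.add (i2.const_mul K)) (hwm.mul hΔm.exp).aestronglyMeasurable
      (Filter.Eventually.of_forall fun z => ?_)
    rw [Real.norm_eq_abs, abs_of_pos (mul_pos (Real.exp_pos _) (Real.exp_pos _))]
    show w z * Real.exp (Δ z) ≤ w z + K * (w z * Real.cosh (2 * g z))
    nlinarith [mul_le_mul_of_nonneg_left (hP (g z)) (Real.exp_pos (n * V (g z))).le]
  -- the tilted mean of the ratio of the weights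
  set b := Real.log ((∫ z, w z * Real.exp (Δ z) ∂gaussianReal 0 1) / IV)
  have hPI : IV ≤ ∫ z, w z * Real.exp (Δ z) ∂gaussianReal 0 1 :=
    integral_mono hwi iP fun z =>
      le_mul_of_one_le_right (Real.exp_pos _).le (Real.one_le_exp (hΔ _))
  have hb : Real.exp b = (∫ z, w z * Real.exp (Δ z) ∂gaussianReal 0 1) / IV :=
    Real.exp_log (div_pos (hIV0.trans_le hPI) hIV0)
  have hbK : Real.exp b - 1 ≤ Real.exp (12 * T) * K * Real.cosh (2 * y) := by
    have h : ∫ z, w z * Real.exp (Δ z) ∂gaussianReal 0 1 ≤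
        IV + K * ∫ z, w z * Real.cosh (2 * g z) ∂gaussianReal 0 1 := by
      refine (integral_mono iP (hwi.add (i2.const_mul K)) fun z => ?_).trans_eq
        ((integral_add hwi (i2.const_mul K)).trans (by rw [integral_const_mul]))
      show w z * Real.exp (Δ z) ≤ w z + K * (w z * Real.cosh (2 * g z))
      nlinarith [mul_le_mul_of_nonneg_left (hP (g z)) (Real.exp_pos (n * V (g z))).le]
    rw [hb, div_sub_one hIV0.ne', div_le_iff₀ hIV0]
    nlinarith [mul_le_mul_of_nonneg_left m2 hK]
  -- the potentials after the level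
  have hnew : 0 ≤ potStep n T U y + c - potStep n T V y ∧
      potStep n T U y + c - potStep n T V y ≤ b ∧
      Real.exp (n * (potStep n T U y + c - potStep n T V y)) = Real.exp (n * c) * IU / IV := by
    rcases eq_or_lt_of_le hn0 with h0 | h0
    · subst h0
      simp only [hIU, hIV, w, zero_mul, Real.exp_zero, integral_const, probReal_univ, one_smul,
        mul_one, div_one, potStep, if_true, Low.heat]
      have iΔ : Integrable Δ (gaussianReal 0 1) :=
        ((int_shift hU y _).add (integrable_const c)).sub (int_shift hV y _)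
      have e : ∫ z, Δ z ∂gaussianReal 0 1 = (∫ z, U (y + Real.sqrt T * z) ∂gaussianReal 0 1) + c -
          ∫ z, V (y + Real.sqrt T * z) ∂gaussianReal 0 1 := by
        simp only [Δ, g]
        rw [integral_sub (f := fun z => U (y + Real.sqrt T * z) + c)
            ((int_shift hU y _).add (integrable_const c)) (int_shift hV y _),
          integral_add (int_shift hU y _) (integrable_const c)]
        simp
      rw [← e]
      refine ⟨integral_nonneg fun z => hΔ _, ?_, trivial⟩
      have iE : Integrable (fun z => Real.exp (Δ z)) (gaussianReal 0 1) := by simpa [w] using iP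
      have i1 : Integrable (fun z => Real.exp (Δ z) / Real.exp b) (gaussianReal 0 1) := iE.div_const _
      refine (integral_mono (g := fun z => Real.exp (Δ z) / Real.exp b + (b - 1)) iΔ
        (i1.add (integrable_const (b - 1))) fun z => ?_).trans_eq ?_
      · show Δ z ≤ Real.exp (Δ z) / Real.exp b + (b - 1)
        rw [← Real.exp_sub]
        linarith [Real.add_one_le_exp (Δ z - b)]
      · have hX0 : 0 < ∫ z, Real.exp (Δ z) ∂gaussianReal 0 1 :=
          zero_lt_one.trans_le (by simpa [w, hIV] using hPI)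
        rw [integral_add i1 (integrable_const (b - 1)), integral_div, hb]
        simp only [w, hIV, zero_mul, Real.exp_zero, one_mul, integral_const, probReal_univ, one_smul,
          div_one]
        rw [div_self hX0.ne']
        ring
    · have hp : ∀ W : ℝ → ℝ, potStep n T W y =
          Real.log (∫ z, Real.exp (n * W (g z)) ∂gaussianReal 0 1) / n := fun W => by
        simp only [potStep, if_neg h0.ne', Low.heat, g]
      have he : Real.exp (n * (potStep n T U y + c - potStep n T V y)) =
          Real.exp (n * c) * IU / IV := by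
        rw [hp, hp, mul_sub, mul_add, mul_div_cancel₀ _ h0.ne', mul_div_cancel₀ _ h0.ne',
          Real.exp_sub, Real.exp_add, Real.exp_log hIU0, Real.exp_log hIV0, mul_comm IU]
      have e1 : Real.exp (n * c) * IU = ∫ z, w z * Real.exp (n * Δ z) ∂gaussianReal 0 1 := by
        simp only [hwU, integral_const_mul, hIU]
      have inΔ : Integrable (fun z => w z * Real.exp (n * Δ z)) (gaussianReal 0 1) := by
        simp only [hwU]
        exact hui.const_mul _
      refine ⟨?_, ?_, he⟩
      · refine (mul_nonneg_iff_of_pos_left h0).1 (Real.one_le_exp_iff.1 ?_)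
        rw [he, one_le_div hIV0, e1]
        exact integral_mono hwi inΔ fun z => le_mul_of_one_le_right (Real.exp_pos _).le
          (Real.one_le_exp (mul_nonneg hn0 (hΔ _)))
      · refine (mul_le_mul_iff_right₀ h0).1 (Real.exp_le_exp.1 ?_)
        rw [he, div_le_iff₀ hIV0, e1]
        have iw : Integrable (fun z => Real.exp (n * b) * (1 - n) * w z +
            Real.exp (n * b) * n / Real.exp b * (w z * Real.exp (Δ z))) (gaussianReal 0 1) :=
          (hwi.const_mul _).add (iP.const_mul _)
        refine (integral_mono inΔ iw fun z => ?_).trans_eq ?_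
        · show w z * Real.exp (n * Δ z) ≤ Real.exp (n * b) * (1 - n) * w z +
            Real.exp (n * b) * n / Real.exp b * (w z * Real.exp (Δ z))
          have hc := convexOn_exp.2 (Set.mem_univ (Δ z - b)) (Set.mem_univ (0 : ℝ)) hn0
            (sub_nonneg.2 hn1) (by ring)
          simp only [smul_eq_mul, mul_zero, add_zero, Real.exp_zero, mul_one] at hc
          have e : Real.exp (n * Δ z) = Real.exp (n * b) * Real.exp (n * (Δ z - b)) := by
            rw [← Real.exp_add]; ring_nf
          rw [e, show w z * (Real.exp (n * b) * Real.exp (n * (Δ z - b))) =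
              w z * Real.exp (n * b) * Real.exp (n * (Δ z - b)) by ring]
          refine (mul_le_mul_of_nonneg_left hc
            (mul_nonneg (Real.exp_pos _).le (Real.exp_pos _).le)).trans_eq ?_
          rw [Real.exp_sub]
          ring
        · rw [integral_add (hwi.const_mul _) (iP.const_mul _), integral_const_mul, integral_const_mul,
            hb]
          have := (hIV0.trans_le hPI).ne'
          field_simp
          ring
  obtain ⟨h1, h2, h3⟩ := hnew
  refine ⟨h1, (sub_le_sub_right (Real.exp_le_exp.2 h2) 1).trans hbK, ?_⟩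
  rw [h3]
  have iG : Integrable (fun z => Real.exp (n * U (g z)) * G (g z)) (gaussianReal 0 1) :=
    int_step hU hG hGb n y T
  have iG' : Integrable (fun z => w z * G' (g z)) (gaussianReal 0 1) := int_step hV hG' hGb' n y T
  have e : Real.exp (n * c) * IU / IV * insStep n T U G y - insStep n T V G' y =
      (∫ z, w z * (Real.exp (n * Δ z) * G (g z) - G' (g z)) ∂gaussianReal 0 1) / IV := by
    have : ∀ z, w z * (Real.exp (n * Δ z) * G (g z) - G' (g z)) =
        Real.exp (n * c) * (Real.exp (n * U (g z)) * G (g z)) - w z * G' (g z) := fun z => by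
      rw [mul_sub, ← mul_assoc, hwU, mul_assoc]
    simp only [this]
    rw [integral_sub (iG.const_mul _) iG', integral_const_mul, sub_div]
    congr 1
    simp only [insStep, Low.heat, hIU, g]
    have := hIU0.ne'
    simp only [hIU, g] at this
    field_simp
  rw [e, abs_div, abs_of_pos hIV0, div_le_iff₀ hIV0, ← Real.norm_eq_abs]
  refine (norm_integral_le_of_norm_le (i4.const_mul (a + (M - n) * (K * (1 + K))))
    (Filter.Eventually.of_forall fun z => ?_)).trans ?_
  · rw [Real.norm_eq_abs, abs_mul, abs_of_pos (Real.exp_pos _), mul_left_comm]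
    refine mul_le_mul_of_nonneg_left ?_ (Real.exp_pos _).le
    set t := g z
    set d := U t + c - V t with hd
    obtain ⟨c1, c2⟩ := cosh_four t
    have hMn : Real.exp (M * d) - Real.exp (n * d) ≤
        (M - n) * (K * (1 + K)) * Real.cosh (4 * t) := by
      have s1 : Real.exp (M * d) * ((n - M) * d + 1) ≤ Real.exp (n * d) := by
        refine (mul_le_mul_of_nonneg_left (Real.add_one_le_exp _) (Real.exp_pos _).le).trans_eq ?_
        rw [← Real.exp_add]; ring_nf
      have s2 : d ≤ Real.exp d - 1 := by linarith [Real.add_one_le_exp d]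
      have s3 : Real.exp (M * d) ≤ Real.exp d :=
        Real.exp_le_exp.2 (mul_le_of_le_one_left (hΔ t) hM)
      have s4 : Real.exp d * d ≤ (1 + K * Real.cosh (2 * t)) * (K * Real.cosh (2 * t)) :=
        mul_le_mul (by linarith [hP t]) (s2.trans (hP t)) (hΔ t) (by positivity)
      have s5 : (1 + K * Real.cosh (2 * t)) * (K * Real.cosh (2 * t)) ≤
          K * (1 + K) * Real.cosh (4 * t) := by
        nlinarith [mul_le_mul_of_nonneg_left c1 hK, mul_le_mul_of_nonneg_left c2 (mul_nonneg hK hK)]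
      have s6 := mul_le_mul_of_nonneg_right s3 (hΔ t)
      have s7 := mul_le_mul_of_nonneg_left (s6.trans (s4.trans s5)) (sub_nonneg.2 hnM)
      nlinarith
    have hmono : Real.exp (n * d) ≤ Real.exp (M * d) :=
      Real.exp_le_exp.2 (mul_le_mul_of_nonneg_right hnM (hΔ t))
    calc |Real.exp (n * d) * G t - G' t|
        ≤ |Real.exp (M * d) * G t - G' t| + |(Real.exp (M * d) - Real.exp (n * d)) * G t| := by
          refine le_trans (le_of_eq ?_) (abs_sub _ _)
          congr 1; ring
      _ ≤ a * Real.cosh (4 * t) + (M - n) * (K * (1 + K)) * Real.cosh (4 * t) := by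
          refine add_le_add (hX t) ?_
          rw [abs_mul, abs_of_nonneg (sub_nonneg.2 hmono)]
          exact (mul_le_of_le_one_right (sub_nonneg.2 hmono) (hGb t)).trans hMn
      _ = _ := by ring
  · rw [integral_const_mul]
    have ha0 : 0 ≤ a := by
      have := (abs_nonneg _).trans (hX 0)
      simpa using this
    have hc0 : 0 ≤ a + (M - n) * (K * (1 + K)) := by
      have := mul_nonneg (sub_nonneg.2 hnM) (mul_nonneg hK (by linarith : 0 ≤ 1 + K))
      linarith
    refine (mul_le_mul_of_nonneg_left m4 hc0).trans_eq ?_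
    ring

variable {r : ℕ}

/-- The variance of the `k` innermost levels. -/
def usedVar (d : Fin (r + 1) → ℝ) (k : ℕ) : ℝ := ∑ i : Fin (r + 1), if r < (i : ℕ) + k then d i else 0

/-- The exponent above `k` innermost levels, `M` for none. -/
def outExp (m : Fin (r + 1) → ℝ) (M : ℝ) (k : ℕ) : ℝ :=
  if h : 1 ≤ k ∧ k ≤ r + 1 then m ⟨r + 1 - k, by omega⟩ else M

lemma usedVar_succ (d : Fin (r + 1) → ℝ) {k : ℕ} (hk : k ≤ r) :
    usedVar d (k + 1) = usedVar d k + d ⟨r - k, by omega⟩ := by
  rw [usedVar, usedVar, ← sub_eq_iff_eq_add', ← Finset.sum_sub_distrib,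
    Finset.sum_eq_single (⟨r - k, by omega⟩ : Fin (r + 1))]
  · rw [if_pos (by simp only; omega), if_neg (by simp only; omega), sub_zero]
  · intro i _ hi
    have : (i : ℕ) ≠ r - k := fun e => hi (Fin.ext e)
    split_ifs <;> first | omega | simp
  · simp

lemma usedVar_le {d : Fin (r + 1) → ℝ} (hd : ∀ j, 0 ≤ d j) {V : ℝ} (hV : ∑ j, d j ≤ V) (k : ℕ) :
    0 ≤ usedVar d k ∧ usedVar d k ≤ V :=
  ⟨Finset.sum_nonneg fun i _ => by split_ifs <;> simp [hd i],
    le_trans (Finset.sum_le_sum fun i _ => by split_ifs <;> simp [hd i]) hV⟩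

/-- Perturbed potentials and insertions along the levels. -/
lemma trunc_iter {m d : Fin (r + 1) → ℝ} {u v θ θ' : ℝ → ℝ} {c K a M V : ℝ} (hmono : Monotone m)
    (hm0 : ∀ j, 0 ≤ m j) (hmM : ∀ j, m j ≤ M) (hM : M ≤ 1) (hd : ∀ j, 0 ≤ d j) (hV : ∑ j, d j ≤ V)
    (hu : RSB.Lip 1 u) (hv : RSB.Lip 1 v) (hθ : Measurable θ) (hθ' : Measurable θ')
    (hθb : ∀ y, |θ y| ≤ 1) (hθb' : ∀ y, |θ' y| ≤ 1) (hK : 0 ≤ K) (hΔ : ∀ y, 0 ≤ u y + c - v y)
    (hP : ∀ y, Real.exp (u y + c - v y) - 1 ≤ K * Real.cosh (2 * y))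
    (hX : ∀ y, |Real.exp (M * (u y + c - v y)) * θ y - θ' y| ≤ a * Real.cosh (4 * y)) :
    ∀ k, k ≤ r + 1 →
      (RSB.Lip 1 (potUp m d u k) ∧ RSB.Lip 1 (potUp m d v k) ∧ Measurable (insUp m d u θ k) ∧
        Measurable (insUp m d v θ' k) ∧ (∀ y, |insUp m d u θ k y| ≤ 1) ∧
        ∀ y, |insUp m d v θ' k y| ≤ 1) ∧
      (∀ y, 0 ≤ potUp m d u k y + c - potUp m d v k y) ∧
      (∀ y, Real.exp (potUp m d u k y + c - potUp m d v k y) - 1 ≤
        Real.exp (12 * usedVar d k) * K * Real.cosh (2 * y)) ∧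
      ∀ y, |Real.exp (outExp m M k * (potUp m d u k y + c - potUp m d v k y)) * insUp m d u θ k y -
          insUp m d v θ' k y| ≤
        Real.exp (12 * usedVar d k) * (a + (M - outExp m M k) *
          (Real.exp (12 * V) * K * (1 + Real.exp (12 * V) * K))) * Real.cosh (4 * y) := by
  intro k
  induction k with
  | zero =>
    intro _
    have e : usedVar d 0 = 0 := Finset.sum_eq_zero fun i _ => if_neg (by omega)
    have e' : outExp m M 0 = M := dif_neg (by omega)
    simp only [potUp, insUp, e, e', mul_zero, Real.exp_zero, one_mul, sub_self, zero_mul, add_zero]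
    exact ⟨⟨hu, hv, hθ, hθ', hθb, hθb'⟩, hΔ, hP, hX⟩
  | succ k ih =>
    intro hk1
    have hk : k ≤ r := by omega
    obtain ⟨⟨hU, hW, hG, hG', hGb, hGb'⟩, hΔk, hPk, hXk⟩ := ih (by omega)
    set j : Fin (r + 1) := ⟨r - k, by omega⟩
    have eu : ∀ w : ℝ → ℝ, potUp m d w (k + 1) = potStep (m j) (d j) (potUp m d w k) := fun w => by
      simp only [potUp, hk, dite_true, potStep, j]
    have ei : ∀ w φ : ℝ → ℝ, insUp m d w φ (k + 1) =
        insStep (m j) (d j) (potUp m d w k) (insUp m d w φ k) := fun w φ => by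
      funext y
      simp only [insUp, hk, dite_true, insStep, j]
    have eo : outExp m M (k + 1) = m j := by
      rw [outExp, dif_pos ⟨by omega, hk1⟩]
      exact congrArg m (Fin.ext (by simp only [j]; omega))
    have hjM : m j ≤ outExp m M k := by
      unfold outExp
      split_ifs with h
      · exact hmono (Fin.le_iff_val_le_val.2 (by simp only [j]; omega))
      · exact hmM j
    have hM1 : outExp m M k ≤ 1 := by
      unfold outExp
      split_ifs
      · exact (hmM _).trans hM
      · exact hM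
    have hs := usedVar_le hd hV k
    have hKk : 0 ≤ Real.exp (12 * usedVar d k) * K := by positivity
    have step := trunc_step hU hW hG hG' hGb hGb' hKk (hd j) (hm0 j) hjM hM1 hΔk hPk hXk
    simp only [eu, ei, eo, usedVar_succ d hk]
    refine ⟨⟨lip_potStep hU (hm0 j) _, lip_potStep hW (hm0 j) _, measurable_insStep hU hG _ _,
      measurable_insStep hW hG' _ _, abs_insStep_le hU hGb _ _, abs_insStep_le hW hGb' _ _⟩,
      fun y => (step y).1, fun y => (step y).2.1.trans_eq ?_, fun y => (step y).2.2.trans ?_⟩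
    · rw [mul_add, Real.exp_add]
      ring
    · refine mul_le_mul_of_nonneg_right ?_ (Real.cosh_pos _).le
      rw [mul_add 12, Real.exp_add, mul_comm (Real.exp (12 * usedVar d k)) (Real.exp (12 * d _))]
      conv_rhs => rw [mul_assoc]
      refine mul_le_mul_of_nonneg_left ?_ (Real.exp_pos _).le
      have hE : Real.exp (12 * usedVar d k) ≤ Real.exp (12 * V) :=
        Real.exp_le_exp.2 (by linarith [hs.2])
      have hE1 : 1 ≤ Real.exp (12 * usedVar d k) := Real.one_le_exp (by linarith [hs.1])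
      set Ek := Real.exp (12 * usedVar d k)
      set Q := Real.exp (12 * V) * K * (1 + Real.exp (12 * V) * K)
      have hQ : Ek * K * (1 + Ek * K) ≤ Q := by simp only [Q]; gcongr
      have hQ0 : 0 ≤ Q := by simp only [Q]; positivity
      nlinarith [mul_le_mul_of_nonneg_left hQ (sub_nonneg.2 hjM),
        le_mul_of_one_le_left (mul_nonneg (sub_nonneg.2 hjM) hQ0) hE1]

/-- The truncated cosine after one heat step against the cosine. -/
lemma trunc_bottom {L : ℝ} (hL0 : 0 < L) {s : ℝ} (hs : 0 ≤ s) :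
    (∀ y, 0 ≤ lcosh y + s / 2 - Real.log (Low.heat (coshT L) s y)) ∧
      (∀ y, Real.exp (lcosh y + s / 2 - Real.log (Low.heat (coshT L) s y)) - 1 ≤
        2 * Real.exp (2 * s) / L * Real.cosh (2 * y)) ∧
      (∀ y, |quot (coshT L) Real.tanh s y| ≤ 1) ∧
      ∀ y, |Real.exp (1 * (lcosh y + s / 2 - Real.log (Low.heat (coshT L) s y))) * Real.tanh y -
          quot (coshT L) Real.tanh s y| ≤ 2 * Real.exp (2 * s) / L * Real.cosh (4 * y) := by
  set u := lcosh
  set v : ℝ → ℝ := fun y => Real.log (Low.heat (coshT L) s y)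
  set θ' := quot (coshT L) Real.tanh s
  set K := 2 * Real.exp (2 * s) / L
  have hK0 : 0 ≤ K := by positivity
  set g : ℝ → ℝ → ℝ := fun y z => y + Real.sqrt s * z
  have hic : ∀ c y, Integrable (fun z => Real.cosh (c * g y z)) (gaussianReal 0 1) := fun c y => by
    refine ((((integrable_exp_mul_gaussianReal (c * Real.sqrt s)).const_mul (Real.exp (c * y) / 2))).add
      ((integrable_exp_mul_gaussianReal (-(c * Real.sqrt s))).const_mul (Real.exp (-(c * y)) / 2))).congr
      (Filter.Eventually.of_forall fun z => ?_)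
    simp only [Pi.add_apply, g]
    rw [Real.cosh_eq, div_mul_eq_mul_div, div_mul_eq_mul_div, ← Real.exp_add, ← Real.exp_add, ← add_div]
    ring_nf
  have hcT := (sm_coshT L).bdD.cont.measurable
  have hiT : ∀ y, Integrable (fun z => coshT L (g y z)) (gaussianReal 0 1) := fun y =>
    (hic 1 y).mono' (hcT.comp (by fun_prop)).aestronglyMeasurable
      (Filter.Eventually.of_forall fun z => by
        rw [Real.norm_eq_abs, abs_of_pos (zero_lt_one.trans_le (one_le_coshT _ _)), one_mul]
        exact coshT_le_cosh hL0 _)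
  have hT1 : ∀ y, 1 ≤ Low.heat (coshT L) s y := fun y => by
    refine le_trans (le_of_eq ?_)
      (integral_mono (integrable_const (1 : ℝ)) (hiT y) fun z => one_le_coshT _ _)
    simp
  have hheat : ∀ y, Low.heat Real.cosh s y = Real.exp (s / 2) * Real.cosh y := fun y => by
    have := integral_cosh_gauss 1 y hs
    simpa [Low.heat] using this
  have hgapi : ∀ y, Low.heat (coshT L) s y ≤ Real.exp (s / 2) * Real.cosh y ∧
      Real.exp (s / 2) * Real.cosh y - Low.heat (coshT L) s y ≤ K * Real.cosh (2 * y) := fun y => by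
    have i1 : Integrable (fun z => Real.cosh (g y z)) (gaussianReal 0 1) := by simpa using hic 1 y
    rw [← hheat y]
    refine ⟨integral_mono (hiT y) i1 fun z => coshT_le_cosh hL0 _, ?_⟩
    simp only [Low.heat]
    rw [← integral_sub i1 (hiT y)]
    refine (integral_mono (i1.sub (hiT y)) ((hic 2 y).const_mul (2 / L)) fun z => ?_).trans ?_
    · show Real.cosh (g y z) - coshT L (g y z) ≤ 2 / L * Real.cosh (2 * g y z)
      linarith [coshT_ge hL0 (g y z)]
    · rw [integral_const_mul]
      simp only [g, integral_cosh_gauss 2 y hs]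
      rw [← mul_assoc, show (2 : ℝ) ^ 2 * s / 2 = 2 * s by ring, div_mul_eq_mul_div]
  have hΔe : ∀ y, Real.exp (u y + s / 2 - v y) =
      Real.exp (s / 2) * Real.cosh y / Low.heat (coshT L) s y := fun y => by
    simp only [u, v, lcosh]
    rw [Real.exp_sub, Real.exp_add, Real.exp_log (Real.cosh_pos y),
      Real.exp_log (zero_lt_one.trans_le (hT1 y)), mul_comm]
  have hΔ : ∀ y, 0 ≤ u y + s / 2 - v y := fun y => by
    rw [← Real.one_le_exp_iff, hΔe, one_le_div (zero_lt_one.trans_le (hT1 y))]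
    exact (hgapi y).1
  have hP : ∀ y, Real.exp (u y + s / 2 - v y) - 1 ≤ K * Real.cosh (2 * y) := fun y => by
    rw [hΔe, div_sub_one (zero_lt_one.trans_le (hT1 y)).ne']
    exact (div_le_self (sub_nonneg.2 (hgapi y).1) (hT1 y)).trans (hgapi y).2
  have hθb' : ∀ y, |θ' y| ≤ 1 := fun y => by
    have hpos := zero_lt_one.trans_le (hT1 y)
    simp only [θ', quot, Low.heat, abs_div]
    rw [abs_of_pos (show 0 < ∫ z, coshT L (g y z) ∂gaussianReal 0 1 from hpos)]
    refine (div_le_one (show 0 < ∫ z, coshT L (g y z) ∂gaussianReal 0 1 from hpos)).2 ?_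
    rw [← Real.norm_eq_abs]
    refine norm_integral_le_of_norm_le (hiT y) (Filter.Eventually.of_forall fun z => ?_)
    rw [Real.norm_eq_abs, abs_mul, abs_of_pos (zero_lt_one.trans_le (one_le_coshT L (g y z)))]
    exact mul_le_of_le_one_left (zero_le_one.trans (one_le_coshT _ _)) (Real.abs_tanh_lt_one _).le
  have hX : ∀ y, |Real.exp (1 * (u y + s / 2 - v y)) * Real.tanh y - θ' y| ≤
      K * Real.cosh (4 * y) := fun y => by
    have hpos := zero_lt_one.trans_le (hT1 y)
    have isinh : Integrable (fun z => Real.sinh (g y z)) (gaussianReal 0 1) := by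
      refine (hic 1 y).mono' (by fun_prop) (Filter.Eventually.of_forall fun z => ?_)
      rw [Real.norm_eq_abs, one_mul, Real.abs_sinh]
      exact (Real.sinh_lt_cosh _).le.trans_eq (Real.cosh_abs _)
    have esinh : ∫ z, Real.sinh (g y z) ∂gaussianReal 0 1 = Real.exp (s / 2) * Real.sinh y := by
      simp only [g, Real.sinh_eq, integral_div, neg_add, Real.exp_add, ← neg_mul]
      rw [integral_sub ((integrable_exp_mul_gaussianReal _).const_mul _)
        ((integrable_exp_mul_gaussianReal _).const_mul _), integral_const_mul, integral_const_mul,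
        integral_exp_gauss, integral_exp_gauss, neg_sq, Real.sq_sqrt hs]
      ring
    have iT : Integrable (fun z => Real.tanh (g y z) * coshT L (g y z)) (gaussianReal 0 1) :=
      (hiT y).bdd_mul (by exact (measurable_tanh.comp (by fun_prop)).aestronglyMeasurable)
        (c := 1) (Filter.Eventually.of_forall fun z =>
          (Real.norm_eq_abs _).le.trans (Real.abs_tanh_lt_one _).le)
    have e : Real.exp (1 * (u y + s / 2 - v y)) * Real.tanh y - θ' y =
        (∫ z, Real.tanh (g y z) * (Real.cosh (g y z) - coshT L (g y z)) ∂gaussianReal 0 1) /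
          Low.heat (coshT L) s y := by
      have : ∀ z, Real.tanh (g y z) * (Real.cosh (g y z) - coshT L (g y z)) =
          Real.sinh (g y z) - Real.tanh (g y z) * coshT L (g y z) := fun z => by
        rw [mul_sub, Real.tanh_eq_sinh_div_cosh, div_mul_cancel₀ _ (Real.cosh_pos _).ne']
      simp only [this]
      rw [one_mul, hΔe, integral_sub isinh iT, esinh, sub_div]
      congr 1
      rw [Real.tanh_eq_sinh_div_cosh]
      field_simp [(Real.cosh_pos y).ne', hpos.ne']
    rw [e, abs_div, abs_of_pos hpos]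
    refine (div_le_self (abs_nonneg _) (hT1 y)).trans ?_
    rw [← Real.norm_eq_abs]
    have i1 : Integrable (fun z => Real.cosh (g y z)) (gaussianReal 0 1) := by simpa using hic 1 y
    refine (norm_integral_le_of_norm_le (i1.sub (hiT y))
      (Filter.Eventually.of_forall fun z => ?_)).trans ?_
    · rw [Real.norm_eq_abs, abs_mul, abs_of_nonneg (sub_nonneg.2 (coshT_le_cosh hL0 _))]
      exact mul_le_of_le_one_left (sub_nonneg.2 (coshT_le_cosh hL0 _)) (Real.abs_tanh_lt_one _).le
    · simp only [Pi.sub_apply]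
      rw [integral_sub i1 (hiT y)]
      have := (hgapi y).2
      rw [← hheat y] at this
      exact this.trans (mul_le_mul_of_nonneg_left (cosh_four y).1 hK0)
  exact ⟨hΔ, hP, hθb', hX⟩

/-- The gap of pairs of insertions under a small gap at the bottom. -/
lemma pairRoot_gap {m d : Fin (r + 1) → ℝ} {u v θ θ' : ℝ → ℝ} {c K V : ℝ} (hmono : Monotone m)
    (hm : ∀ j, 0 ≤ m j ∧ m j ≤ 1) (h0 : m 0 = 0) (hd : ∀ j, 0 ≤ d j) (hdV : ∑ j, d j ≤ V)
    (hu : RSB.Lip 1 u) (hv : RSB.Lip 1 v) (hθm : Measurable θ) (hθm' : Measurable θ')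
    (hθb : ∀ y, |θ y| ≤ 1) (hθb' : ∀ y, |θ' y| ≤ 1) (hK : 0 ≤ K)
    (hKs : K * Real.exp (12 * V) ^ 2 ≤ 1) (hΔ : ∀ y, 0 ≤ u y + c - v y)
    (hP : ∀ y, Real.exp (u y + c - v y) - 1 ≤ K * Real.cosh (2 * y))
    (hX : ∀ y, |Real.exp (1 * (u y + c - v y)) * θ y - θ' y| ≤ K * Real.cosh (4 * y))
    (l : Fin (r + 1)) :
    |pairRoot m d u θ θ l| ≤ 1 ∧ |pairRoot m d v θ' θ' l| ≤ 1 ∧
      |pairRoot m d u θ θ l - pairRoot m d v θ' θ' l| ≤ 11 * Real.exp (12 * V) ^ 4 * K := by
  set j0 := r - (l : ℕ) with hj0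
  set E := Real.exp (12 * V) with hE
  obtain ⟨⟨hU, hW, hG, hG', hGb, hGb'⟩, hΔk, hPk, hXk⟩ :=
    trunc_iter hmono (fun j => (hm j).1) (fun j => (hm j).2) le_rfl hd hdV hu hv hθm hθm' hθb hθb' hK
      hΔ hP hX j0 (by omega)
  set M := outExp m 1 j0 with hMd
  have hM01 : 0 ≤ M ∧ M ≤ 1 := by
    simp only [hMd, outExp]
    split_ifs <;> first | exact hm _ | exact ⟨zero_le_one, le_rfl⟩
  set m' : Fin ((l : ℕ) + 1) → ℝ := fun i => m ⟨i, by omega⟩
  set d' : Fin ((l : ℕ) + 1) → ℝ := fun i => d ⟨i, by omega⟩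
  set U := potUp m d u j0
  set W := potUp m d v j0
  set G := insUp m d u θ j0
  set G' := insUp m d v θ' j0
  have hmM : ∀ i, m' i ≤ M := fun i => by
    simp only [hMd, outExp, m']
    split_ifs with h
    · exact hmono (Fin.le_iff_val_le_val.2 (by simp only [hj0] at h ⊢; omega))
    · exact (hm _).2
  have hd'V : ∑ i, d' i ≤ V := by
    refine le_trans ?_ hdV
    have hi : Function.Injective fun i : Fin ((l : ℕ) + 1) => (⟨i, by omega⟩ : Fin (r + 1)) :=
      fun a b h => Fin.ext (by simpa [Fin.ext_iff] using h)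
    refine le_trans (le_of_eq (Finset.sum_image (f := d) fun a _ b _ h => hi h).symm) ?_
    exact Finset.sum_le_sum_of_subset_of_nonneg (Finset.subset_univ _) fun j _ _ => hd j
  obtain ⟨hs0, hs1⟩ := usedVar_le hd hdV j0
  have hE1 : 1 ≤ E := Real.one_le_exp (by linarith)
  have hE0 : 0 ≤ E := zero_le_one.trans hE1
  have hEK : E * K ≤ 1 := by nlinarith
  have hEk : Real.exp (12 * usedVar d j0) ≤ E := Real.exp_le_exp.2 (by linarith)
  set K1 := E * K with hK1
  have hK10 : 0 ≤ K1 := mul_nonneg hE0 hK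
  have ha1 : ∀ y, |Real.exp (M * (U y + c - W y)) * G y - G' y| ≤
      3 * E ^ 2 * K * Real.cosh (4 * y) := fun y => by
    refine (hXk y).trans (mul_le_mul_of_nonneg_right ?_ (Real.cosh_pos _).le)
    have h1 : (1 - M) * (K1 * (1 + K1)) ≤ 2 * (E * K) :=
      (mul_le_of_le_one_left (by positivity) (by linarith)).trans (by rw [hK1]; nlinarith)
    have h2 : K ≤ E * K := le_mul_of_one_le_left hK hE1
    refine (mul_le_mul hEk (add_le_add h2 h1) (by
      have : 0 ≤ (1 - M) * (K1 * (1 + K1)) := mul_nonneg (by linarith) (by positivity)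
      linarith) hE0).trans_eq (by ring)
  have hP1 : ∀ y, Real.exp (U y + c - W y) - 1 ≤ K1 * Real.cosh (2 * y) := fun y =>
    (hPk y).trans (mul_le_mul_of_nonneg_right (mul_le_mul_of_nonneg_right hEk hK) (Real.cosh_pos _).le)
  have hXη : ∀ y, |Real.exp (M * (U y + c - W y)) * (G y * G y) - G' y * G' y| ≤
      7 * E ^ 2 * K * Real.cosh (4 * y) := fun y => by
    set P := Real.exp (M * (U y + c - W y))
    have hP0 : 1 ≤ P := Real.one_le_exp (mul_nonneg hM01.1 (hΔk y))
    have hPK : P - 1 ≤ K1 * Real.cosh (4 * y) :=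
      ((sub_le_sub_right (Real.exp_le_exp.2 (mul_le_of_le_one_left (hΔk y) hM01.2)) 1).trans
        (hP1 y)).trans (mul_le_mul_of_nonneg_left (cosh_four y).1 hK10)
    have hC := Real.cosh_pos (4 * y)
    have h1 : |G y + G' y| * |P * G y - G' y| ≤ 2 * (3 * E ^ 2 * K * Real.cosh (4 * y)) :=
      mul_le_mul ((abs_add_le _ _).trans (by linarith [hGb y, hGb' y])) (ha1 y) (abs_nonneg _)
        zero_le_two
    have h2 : |G' y| * (|P - 1| * |G y|) ≤ 1 * (K1 * Real.cosh (4 * y) * 1) :=
      mul_le_mul (hGb' y) (mul_le_mul ((abs_of_nonneg (sub_nonneg.2 hP0)).trans_le hPK) (hGb y)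
        (abs_nonneg _) (mul_nonneg hK10 hC.le)) (by positivity) zero_le_one
    calc |P * (G y * G y) - G' y * G' y|
        = |(G y + G' y) * (P * G y - G' y) - G' y * ((P - 1) * G y)| := by congr 1; ring
      _ ≤ |G y + G' y| * |P * G y - G' y| + |G' y| * (|P - 1| * |G y|) := by
          rw [← abs_mul, ← abs_mul, ← abs_mul]; exact abs_sub _ _
      _ ≤ 2 * (3 * E ^ 2 * K * Real.cosh (4 * y)) + 1 * (K1 * Real.cosh (4 * y) * 1) := add_le_add h1 h2
      _ ≤ _ := by
          have : K1 ≤ E ^ 2 * K := by rw [hK1]; nlinarith [mul_nonneg hE0 hK]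
          nlinarith [mul_le_mul_of_nonneg_right this hC.le]
  have hsq : ∀ {H : ℝ → ℝ}, (∀ y, |H y| ≤ 1) → ∀ y, |H y * H y| ≤ 1 := fun hH y => by
    rw [abs_mul]; exact mul_le_one₀ (hH y) (abs_nonneg _) (hH y)
  obtain ⟨⟨-, -, -, -, hRb, hRb'⟩, -, -, hXf⟩ :=
    trunc_iter (m := m') (d := d') (fun a b h => hmono h) (fun i => (hm _).1) hmM hM01.2 (fun i => hd _)
      hd'V hU hW (hG.mul hG) (hG'.mul hG') (hsq hGb) (hsq hGb') hK10 hΔk hP1 hXη ((l : ℕ) + 1) le_rfl
  have hexp : outExp m' M ((l : ℕ) + 1) = 0 := by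
    rw [outExp, dif_pos ⟨by omega, le_rfl⟩]
    simp only [m']
    rw [← h0]
    exact congrArg m (Fin.ext (by simp))
  have hfin := hXf 0
  rw [hexp, zero_mul, Real.exp_zero, one_mul, mul_zero, Real.cosh_zero, mul_one, sub_zero] at hfin
  refine ⟨hRb 0, hRb' 0, hfin.trans ?_⟩
  have h1 : Real.exp (12 * usedVar d' ((l : ℕ) + 1)) ≤ E :=
    Real.exp_le_exp.2 (by linarith [(usedVar_le (fun i => hd _) hd'V ((l : ℕ) + 1)).2])
  have h2 : M * (E * K1 * (1 + E * K1)) ≤ 2 * E ^ 2 * K :=
    (mul_le_of_le_one_left (by positivity) hM01.2).trans (by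
      rw [hK1]; nlinarith [mul_nonneg (pow_nonneg hE0 2) hK])
  refine (mul_le_mul h1 (show 7 * E ^ 2 * K + M * (E * K1 * (1 + E * K1)) ≤ 9 * E ^ 2 * K by linarith)
    (by have := mul_nonneg hM01.1 (by positivity : 0 ≤ E * K1 * (1 + E * K1)); positivity) hE0).trans ?_
  have h34 : E ^ 3 ≤ E ^ 4 := pow_le_pow_right₀ hE1 (by norm_num)
  nlinarith [mul_le_mul_of_nonneg_right h34 hK, mul_nonneg (pow_nonneg hE0 4) hK]

/-- The pairs of truncated slopes approach the squared slopes, uniformly in the levels. -/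
theorem exists_pairRoot_close (V : ℝ) {η : ℝ} (hη : 0 < η) :
    ∃ L0, 0 < L0 ∧ ∀ L, L0 ≤ L → ∀ (r : ℕ) (m p : Fin (r + 1) → ℝ) (s : ℝ), Monotone m →
      (∀ j, 0 ≤ m j ∧ m j ≤ 1) → m 0 = 0 → Monotone p → 0 ≤ p 0 → p (Fin.last r) ≤ V →
      0 ≤ s → s ≤ V → ∀ l,
        |pairRoot m (incr p) (fun y => Real.log (Low.heat (coshT L) s y))
            (quot (coshT L) Real.tanh s) (quot (coshT L) Real.tanh s) l| ≤ 1 ∧
        |slopeSq m p l| ≤ 1 ∧
        |pairRoot m (incr p) (fun y => Real.log (Low.heat (coshT L) s y))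
            (quot (coshT L) Real.tanh s) (quot (coshT L) Real.tanh s) l - slopeSq m p l| ≤ η := by
  set E := Real.exp (12 * |V|)
  set C := 2 * Real.exp (2 * |V|)
  set L0 := C * (11 * E ^ 4 / η + E ^ 2) + 1
  refine ⟨L0, by positivity, fun L hL r m p s hmono hm h0 hp hp0 hpV hs hsV l => ?_⟩
  have hL0 : 0 < L := lt_of_lt_of_le (by positivity) hL
  obtain ⟨hΔ, hP, hθb', hX⟩ := trunc_bottom hL0 hs
  have hK : 2 * Real.exp (2 * s) / L ≤ C / L := div_le_div_of_nonneg_right
    (mul_le_mul_of_nonneg_left (Real.exp_le_exp.2 (by linarith [le_abs_self V])) zero_le_two) hL0.le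
  have hd : ∀ j, 0 ≤ incr p j := Low.incr_nonneg hp hp0
  have hdV : ∑ j, incr p j ≤ |V| := by
    refine le_trans (le_of_eq ?_) (hpV.trans (le_abs_self V))
    rw [← Low.sum_incr p (Fin.last r)]
    exact Finset.sum_congr rfl fun j _ => by rw [if_pos (Fin.le_last j)]
  have hCE : C / L * E ^ 2 ≤ 1 := by
    rw [div_mul_eq_mul_div, div_le_one hL0]
    have : 0 ≤ C * (11 * E ^ 4 / η) := by positivity
    simp only [L0] at hL
    linarith
  have hθ'm : Measurable (quot (coshT L) Real.tanh s) :=
    (sm_quot (weight_coshT L) (show BdD 3 Real.tanh by simpa using bdD_tanh 1 3) s).bdD.cont.measurable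
  obtain ⟨b1, b2, b3⟩ := pairRoot_gap (u := lcosh) hmono hm h0 hd hdV lip_logCosh
    (logHeat_coshT hL0 s) measurable_tanh hθ'm (fun y => (Real.abs_tanh_lt_one y).le) hθb'
    (by positivity : 0 ≤ 2 * Real.exp (2 * s) / L)
    ((mul_le_mul_of_nonneg_right hK (by positivity)).trans hCE) hΔ hP hX l
  rw [P166F.pairRoot_eq] at b1 b3
  refine ⟨b2, b1, (abs_sub_comm _ _).trans_le (b3.trans ?_)⟩
  refine (mul_le_mul_of_nonneg_left hK (by positivity)).trans ?_
  rw [mul_div_assoc', div_le_iff₀ hL0]
  calc 11 * E ^ 4 * C = η * (C * (11 * E ^ 4 / η)) := by field_simp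
    _ ≤ η * L := mul_le_mul_of_nonneg_left (by
        have : 0 ≤ C * E ^ 2 := by positivity
        simp only [L0] at hL
        linarith) hη.le

end Vale.Agent.P157F
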