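import Vale.Agent.P157F.Low.Defs
import Vale.Agent.P157F.Low.QSeries
import Vale.Agent.P157F.Low.QTerm
import Vale.Agent.P157F.Low.QTrunc

/-!
P157: limits of the linearised averages of two replicas.
-/

namespace Vale.Agent.P157F

open MeasureTheory Filter Vale.Agent.P157 Vale.Agent.P157.Low Vale.Agent.P166F
open scoped Topology

attribute [local instance] Arr.prob

variable {f : ℝ → ℝ} {B α : ℝ} {A : Arr} {Ns : ℕ → ℕ}

/-- Series that are close in their first terms are close. -/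
lemma abs_tsum_sub_le {c g a b : ℕ → ℝ} (hc : ∀ k, 0 ≤ c k) (hsum : Summable fun k => c k * g k)
    (ha : ∀ k, |a k| ≤ g k) (hb : ∀ k, |b k| ≤ g k) {m : ℕ} {δ e : ℝ}
    (hm : ∀ k ∈ Finset.range m, |a k - b k| ≤ δ) (htail : ∑' k, 2 * (c (k + m) * g (k + m)) ≤ e) :
    |∑' k, c k * a k - ∑' k, c k * b k| ≤ (∑ k ∈ Finset.range m, c k) * δ + e := by
  have hbd : ∀ u : ℕ → ℝ, (∀ k, |u k| ≤ g k) → Summable fun k => c k * u k := fun u hu =>
    Summable.of_norm_bounded hsum fun k => by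
      rw [Real.norm_eq_abs, abs_mul, abs_of_nonneg (hc k)]
      exact mul_le_mul_of_nonneg_left (hu k) (hc k)
  have sa := hbd a ha
  have sb := hbd b hb
  rw [← sa.tsum_sub sb, ← (sa.sub sb).sum_add_tsum_nat_add m]
  refine (abs_add_le _ _).trans (add_le_add ?_ ?_)
  · rw [Finset.sum_mul]
    refine (Finset.abs_sum_le_sum_abs _ _).trans (Finset.sum_le_sum fun k hk => ?_)
    rw [← mul_sub, abs_mul, abs_of_nonneg (hc k)]
    exact mul_le_mul_of_nonneg_left (hm k hk) (hc k)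
  · refine ((Real.norm_eq_abs _).symm.le.trans (tsum_of_norm_bounded
      ((summable_nat_add_iff m).2 (hsum.mul_left 2)).hasSum fun k => ?_)).trans htail
    rw [Real.norm_eq_abs, ← mul_sub, abs_mul, abs_of_nonneg (hc _)]
    refine (mul_le_mul_of_nonneg_left ((abs_sub _ _).trans (add_le_add (ha _) (hb _))) (hc _)).trans_eq ?_
    ring

/-- The limit terms make the value at the levels, up to the modulus of the inserted function. -/
lemma tsum_levels_close {K : ℕ} (D : Discr A (K + 2)) (hs : Smf f) (hα : 0 < α) {L : ℝ} {θ : ℝ → ℝ}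
    (hθc : Continuous θ) (hθ : ∀ y, |θ y| ≤ 1) {G : ∀ k, Mat (2 + k) → ℝ}
    (hGc : ∀ k, Continuous (G k)) (hG4 : ∀ k R, |G k R| ≤ 4 * spread L ^ k)
    (hG : ∀ k R, (Matrix.of R).PosSemidef →
      G k R = GE R (ratioTerm (cmid L) (coshT L) fun _ : Fin 2 => θ))
    {ψ : ℝ → ℝ} (hψ : Continuous ψ) {C : ℝ} (hC : ∀ t, |ψ t| ≤ C) {ε : ℝ} (hε : 0 ≤ ε)
    (hclose : ∀ (n : ℕ) (a b : Fin n), a ≠ b →
      ∀ᵐ R ∂A.law n, |ψ (R a b) - ψ (D.q (D.τ (R a b)))| ≤ ε)
    (v : Fin (D.r + 1) → ℝ) (hv : ∀ l, |v l| ≤ 1)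
    (hid : ∀ φ : LMat D.r 2 → ℝ, D.C.ratio (incr fun j => α * D.rval f j) (cmid L)
        (Low.heat (coshT L) (α * (D.rdiag f - D.rval f (Fin.last D.r)))) φ
        (fun _ => quot (coshT L) θ (α * (D.rdiag f - D.rval f (Fin.last D.r)))) =
      ∑ E, D.C.P 2 E * (φ E * v (E 0 1))) :
    |∑' k, (negCoef 2 k : ℝ) * (∫ R, ψ (R (Fin.castAdd k 0) (Fin.castAdd k 1)) * G k (D.spinMat f α R)
        ∂A.law (2 + k)) - ∫ R, ψ (R 0 1) * v (D.τ (R 0 1)) ∂A.law 2| ≤
      ε * ∑' k, (negCoef 2 k : ℝ) * (4 * spread L ^ k) + ε := by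
  set ρ := spread L
  have hρ0 : 0 ≤ ρ := spread_nonneg L
  have hC0 : 0 ≤ C := (abs_nonneg _).trans (hC 0)
  have hs4 : Summable fun k => (negCoef 2 k : ℝ) * (4 * ρ ^ k) :=
    summable_negCoef 2 hρ0 (spread_lt_one L) 4
  set φ : LMat D.r 2 → ℝ := fun E => ψ (D.q (E 0 1))
  set b := fun k => ∫ R, ψ (R (Fin.castAdd k 0) (Fin.castAdd k 1)) * G k (D.spinMat f α R) ∂A.law (2 + k)
  set b' := fun k => ∫ R, φ (lift D.τ (sub R (Fin.castAdd k))) * G k (D.spinMat f α R) ∂A.law (2 + k)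
  have hsum' : ∑' k, (negCoef 2 k : ℝ) * b' k =
      ∫ R, ψ (D.q (D.τ (R 0 1))) * v (D.τ (R 0 1)) ∂A.law 2 := by
    rw [sum_spinMat D hs hα.le hθc hθ hG φ, hid φ, ← D.law 2 fun E => φ E * v (E 0 1)]
    simp [φ, lift]
  have hCG : ∀ k t R, |ψ t * G k R| ≤ C * (4 * ρ ^ k) := fun k t R => by
    rw [abs_mul]; exact mul_le_mul (hC _) (hG4 k R) (abs_nonneg _) hC0
  have hmM : ∀ n, Measurable fun R : Mat n => D.spinMat f α R := fun n => by
    refine measurable_pi_lambda _ fun a => measurable_pi_lambda _ fun b => ?_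
    simp only [Discr.spinMat]
    split_ifs
    · fun_prop
    · exact ((measurable_of_finite fun j => D.rval f j).comp
        (D.measτ.comp ((measurable_pi_apply b).comp (measurable_pi_apply a)))).const_mul α
  have key : ∀ k, |b k - b' k| ≤ ε * (4 * ρ ^ k) ∧ |b k| ≤ C * (4 * ρ ^ k) ∧
      |b' k| ≤ C * (4 * ρ ^ k) := fun k => by
    have hne : Fin.castAdd k (0 : Fin 2) ≠ Fin.castAdd k 1 := fun e => by
      have := congrArg Fin.val e
      simp at this
    have hGm : Measurable fun R : Mat (2 + k) => G k (D.spinMat f α R) :=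
      (hGc k).measurable.comp (hmM _)
    have hφm : Measurable fun R : Mat (2 + k) => φ (lift D.τ (sub R (Fin.castAdd k))) :=
      (measurable_of_finite φ).comp ((measurable_lift D.measτ).comp (by unfold sub; fun_prop))
    have hn : ∀ (g : Mat (2 + k) → ℝ) (M : ℝ), (∀ R, |g R| ≤ M) → |∫ R, g R ∂A.law (2 + k)| ≤ M :=
      fun g M hg => (Real.norm_eq_abs _).symm.le.trans ((norm_integral_le_of_norm_le_const
        (Eventually.of_forall fun R => (Real.norm_eq_abs _).le.trans (hg R))).trans_eq (by simp))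
    refine ⟨?_, hn _ _ fun R => hCG k _ _, hn _ _ fun R => hCG k _ _⟩
    simp only [b, b']
    have i1 : Integrable (fun R : Mat (2 + k) => ψ (R (Fin.castAdd k 0) (Fin.castAdd k 1)) *
        G k (D.spinMat f α R)) (A.law (2 + k)) :=
      Integrable.of_bound ((hψ.measurable.comp (by fun_prop)).mul hGm).aestronglyMeasurable
        (C * (4 * ρ ^ k)) (Eventually.of_forall fun R => (Real.norm_eq_abs _).le.trans (hCG k _ _))
    have i2 : Integrable (fun R : Mat (2 + k) => φ (lift D.τ (sub R (Fin.castAdd k))) *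
        G k (D.spinMat f α R)) (A.law (2 + k)) :=
      Integrable.of_bound (hφm.mul hGm).aestronglyMeasurable (C * (4 * ρ ^ k))
        (Eventually.of_forall fun R => (Real.norm_eq_abs _).le.trans (hCG k _ _))
    rw [← integral_sub i1 i2, ← Real.norm_eq_abs]
    refine (norm_integral_le_of_norm_le_const (C := ε * (4 * ρ ^ k)) ((hclose _ _ _ hne).mono fun R hR => ?_)).trans_eq (by simp)
    rw [Real.norm_eq_abs, ← sub_mul, abs_mul]
    refine mul_le_mul ?_ (hG4 k _) (abs_nonneg _) hε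
    simpa [φ, lift, sub] using hR
  have hlast : |∑' k, (negCoef 2 k : ℝ) * b' k - ∫ R, ψ (R 0 1) * v (D.τ (R 0 1)) ∂A.law 2| ≤ ε := by
    have hvm : Measurable fun R : Mat 2 => v (D.τ (R 0 1)) :=
      (measurable_of_finite v).comp (D.measτ.comp (by fun_prop))
    have hqm : Measurable fun R : Mat 2 => ψ (D.q (D.τ (R 0 1))) :=
      hψ.measurable.comp ((measurable_of_finite D.q).comp (D.measτ.comp (by fun_prop)))
    have hbd : ∀ t (R : Mat 2), ‖ψ t * v (D.τ (R 0 1))‖ ≤ C := fun t R => by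
      rw [Real.norm_eq_abs, abs_mul]
      exact (mul_le_mul (hC t) (hv _) (abs_nonneg _) hC0).trans_eq (mul_one C)
    have i1 : Integrable (fun R : Mat 2 => ψ (D.q (D.τ (R 0 1))) * v (D.τ (R 0 1))) (A.law 2) :=
      Integrable.of_bound (hqm.mul hvm).aestronglyMeasurable C (Eventually.of_forall fun R => hbd _ R)
    have i2 : Integrable (fun R : Mat 2 => ψ (R 0 1) * v (D.τ (R 0 1))) (A.law 2) :=
      Integrable.of_bound ((hψ.measurable.comp (by fun_prop)).mul hvm).aestronglyMeasurable C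
        (Eventually.of_forall fun R => hbd _ R)
    rw [hsum', ← integral_sub i1 i2, ← Real.norm_eq_abs]
    refine (norm_integral_le_of_norm_le_const (C := ε)
      ((hclose 2 0 1 (by decide)).mono fun R hR => ?_)).trans_eq (by simp)
    rw [Real.norm_eq_abs, ← sub_mul, abs_mul, abs_sub_comm]
    exact (mul_le_mul hR (hv _) (abs_nonneg _) hε).trans_eq (mul_one ε)
  have hbd : ∀ (u : ℕ → ℝ) (M : ℝ), (∀ k, |u k| ≤ M * (4 * ρ ^ k)) → ∀ k,
      ‖(negCoef 2 k : ℝ) * u k‖ ≤ M * ((negCoef 2 k : ℝ) * (4 * ρ ^ k)) := fun u M hu k => by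
    rw [Real.norm_eq_abs, abs_mul, Nat.abs_cast]
    exact (mul_le_mul_of_nonneg_left (hu k) (Nat.cast_nonneg' _)).trans_eq (by ring)
  have sb : Summable fun k => (negCoef 2 k : ℝ) * b k :=
    Summable.of_norm_bounded (hs4.mul_left C) (hbd b C fun k => (key k).2.1)
  have sb' : Summable fun k => (negCoef 2 k : ℝ) * b' k :=
    Summable.of_norm_bounded (hs4.mul_left C) (hbd b' C fun k => (key k).2.2)
  refine (abs_sub_le _ (∑' k, (negCoef 2 k : ℝ) * b' k) _).trans (add_le_add ?_ hlast)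
  rw [← sb.tsum_sub sb', ← Real.norm_eq_abs]
  refine tsum_of_norm_bounded (hs4.hasSum.mul_left ε) fun k => ?_
  rw [← mul_sub]
  exact hbd (fun k => b k - b' k) ε (fun k => (key k).1) k

/-- One term of the series. -/
lemma eventually_head_close (hf : Pot f B) (hs : Smf f) (hα : 0 < α) (hN : Tendsto Ns atTop atTop)
    {Ps : ℕ → ℕ} {xs : ∀ j, Fin (Ps j) → ℝ}
    (h : Conv (fun j => pSys hf (Ns j) (α * ((Ns j : ℝ) + 2)) 0 (xs j)) A)
    (D : ∀ K, Discr A (K + 2)) {k : ℕ} {G : Mat (2 + k) → ℝ} (hG : Continuous G)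
    (hGb : ∀ R, |G R| ≤ 4) {ψ : ℝ → ℝ} (hψ : Continuous ψ) {C : ℝ} (hC : ∀ t, |ψ t| ≤ C)
    {δ : ℝ} (hδ : 0 < δ) :
    ∀ᶠ K in atTop, ∀ᶠ j in atTop,
      |(pSys hf (Ns j) (α * ((Ns j : ℝ) + 2)) 0 (xs j)).avgRep (2 + k) (fun ω r =>
          ψ ((pSys hf (Ns j) (α * ((Ns j : ℝ) + 2)) 0 (xs j)).gram r (Fin.castAdd k 0) (Fin.castAdd k 1)) *
            G (spinCov ω r)) -
        ∫ R, ψ (R (Fin.castAdd k 0) (Fin.castAdd k 1)) * G ((D K).spinMat f α R) ∂A.law (2 + k)| ≤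
          4 * (C + 1) * δ := by
  have hC0 : 0 ≤ C := (abs_nonneg _).trans (hC 0)
  filter_upwards [eventually_term_mul_close hf hs hα hN h D (G := fun R => G R / 4)
    (Φ := fun R : Mat (2 + k) => ψ (R (Fin.castAdd k 0) (Fin.castAdd k 1)) / (C + 1)) (hG.div_const 4)
    (fun R => by
      rw [abs_div, abs_of_pos (show (0 : ℝ) < 4 by norm_num), div_le_one (by norm_num)]
      exact hGb R)
    ((hψ.comp (by fun_prop)).div_const _) (fun R => by
      rw [abs_div, abs_of_pos (show (0 : ℝ) < C + 1 by linarith), div_le_one (by linarith)]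
      linarith [hC (R (Fin.castAdd k 0) (Fin.castAdd k 1))]) hδ] with K hK
  filter_upwards [hK] with j hj
  simp only [div_mul_div_comm, Sys.avgRep, integral_div] at hj
  rw [← sub_div, abs_div, abs_of_pos (show (0 : ℝ) < (C + 1) * 4 by positivity),
    div_le_iff₀ (by positivity)] at hj
  exact hj.trans_eq (by ring)

/-- The truncated insertions tend to the values at the levels. -/
lemma eventually_qInt_close (hf : Pot f B) (hs : Smf f) (hα : 0 < α) (hN : Tendsto Ns atTop atTop)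
    {Ps : ℕ → ℕ} {xs : ∀ j, Fin (Ps j) → ℝ}
    (h : Conv (fun j => pSys hf (Ns j) (α * ((Ns j : ℝ) + 2)) 0 (xs j)) A)
    (D : ∀ K, Discr A (K + 2)) {L : ℝ} {θ : ℝ → ℝ} (hθc : Continuous θ) (hθ : ∀ y, |θ y| ≤ 1)
    {ψ : ℝ → ℝ} (hψ : Continuous ψ) {C : ℝ} (hC : ∀ t, |ψ t| ≤ C)
    (v : ∀ K, Fin ((D K).r + 1) → ℝ) (hv : ∀ K l, |v K l| ≤ 1)
    (hid : ∀ K (φ : LMat (D K).r 2 → ℝ), (D K).C.ratio (incr fun j => α * (D K).rval f j) (cmid L)
        (Low.heat (coshT L) (α * ((D K).rdiag f - (D K).rval f (Fin.last (D K).r)))) φ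
        (fun _ => quot (coshT L) θ (α * ((D K).rdiag f - (D K).rval f (Fin.last (D K).r)))) =
      ∑ E, (D K).C.P 2 E * (φ E * v K (E 0 1)))
    {η : ℝ} (hη : 0 < η) :
    ∀ᶠ K in atTop, ∀ᶠ j in atTop,
      |(∫ ω, ∫ g, qInt f (xs j) (coshT L) θ ψ ω g ∂fieldLaw
          ∂disLaw (α * ((Ns j : ℝ) + 2)) (Ns j) (Ps j)) -
        ∫ R, ψ (R 0 1) * v K ((D K).τ (R 0 1)) ∂A.law 2| ≤ η := by
  set ρ := spread L
  have hρ0 : 0 ≤ ρ := spread_nonneg L
  have hρ1 : ρ < 1 := spread_lt_one L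
  have hC0 : 0 ≤ C := (abs_nonneg _).trans (hC 0)
  obtain ⟨G, hGc, hGb, hG⟩ := exists_ext_GE (sm_coshT L).bdD.cont (abs_one_sub_coshT L)
    (θ := fun _ : Fin 2 => θ) (fun _ => hθc) (C := 1) (fun _ y => hθ y)
  have hG4 : ∀ k R, |G k R| ≤ 4 * ρ ^ k := fun k R => (hGb k R).trans
    (mul_le_mul_of_nonneg_right (by nlinarith) (pow_nonneg hρ0 k))
  have hρk : ∀ k, ρ ^ k ≤ 1 := fun k => pow_le_one₀ hρ0 hρ1.le
  set c := fun k : ℕ => (negCoef 2 k : ℝ)
  have hs4 : Summable fun k => c k * (4 * ρ ^ k) := summable_negCoef 2 hρ0 hρ1 4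
  have hsC : Summable fun k => c k * (C * (4 * ρ ^ k)) :=
    (hs4.mul_left C).congr fun k => by ring
  set T0 := ∑' k, c k * (4 * ρ ^ k)
  have hT0 : 0 ≤ T0 := tsum_nonneg fun k => by positivity
  obtain ⟨m, hm⟩ := ((tendsto_sum_nat_add fun k : ℕ => 2 * (c k * (C * (4 * ρ ^ k)))).eventually
    (gt_mem_nhds (show (0 : ℝ) < η / 4 by linarith))).exists
  set ε := η / (4 * (T0 + 1))
  have hε : 0 < ε := by positivity
  obtain ⟨δ, hδ, hδψ⟩ := Metric.uniformContinuousOn_iff.1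
    ((isCompact_Icc (a := (-2 : ℝ)) (b := 2)).uniformContinuousOn_of_continuous hψ.continuousOn) ε hε
  set N0 := ∑ k ∈ Finset.range m, c k
  have hN0 : 0 ≤ N0 := Finset.sum_nonneg fun k _ => Nat.cast_nonneg' _
  set δ1 := η / (4 * (4 * (C + 1)) * (N0 + 1))
  have hev : ∀ᶠ K in atTop, ∀ k ∈ Finset.range m, ∀ᶠ j in atTop,
      |(pSys hf (Ns j) (α * ((Ns j : ℝ) + 2)) 0 (xs j)).avgRep (2 + k) (fun ω r =>
          ψ ((pSys hf (Ns j) (α * ((Ns j : ℝ) + 2)) 0 (xs j)).gram r (Fin.castAdd k 0) (Fin.castAdd k 1)) *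
            G k (spinCov ω r)) -
        ∫ R, ψ (R (Fin.castAdd k 0) (Fin.castAdd k 1)) * G k ((D K).spinMat f α R) ∂A.law (2 + k)| ≤
          4 * (C + 1) * δ1 :=
    (Finset.range m).eventually_all.2 fun k _ => eventually_head_close hf hs hα hN h D (hGc k)
      (fun R => (hG4 k R).trans (mul_le_of_le_one_right (by norm_num) (hρk k))) hψ hC (by positivity)
  have hlim : Tendsto (fun K : ℕ => (2 : ℝ) / ((K + 2 : ℕ) : ℝ)) atTop (𝓝 0) :=
    (tendsto_const_div_atTop_nhds_zero_nat (2 : ℝ)).comp (tendsto_add_atTop_nat 2)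
  filter_upwards [hev, hlim.eventually (gt_mem_nhds hδ)] with K hK hKδ
  have hclose : ∀ (n : ℕ) (a b : Fin n), a ≠ b →
      ∀ᵐ R ∂A.law n, |ψ (R a b) - ψ ((D K).q ((D K).τ (R a b)))| ≤ ε := by
    intro n a b hab
    filter_upwards [(D K).close_pair hab, A.bdd n] with R hR hRb
    have hq := (D K).rangeq ((D K).τ (R a b))
    have : (0 : ℝ) ≤ 1 / ((K + 2 : ℕ) : ℝ) := by positivity
    have h1 := hδψ (R a b) ⟨by linarith [(abs_le.1 (hRb a b)).1], by linarith [(abs_le.1 (hRb a b)).2]⟩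
      ((D K).q ((D K).τ (R a b))) ⟨by linarith [hq.1], by linarith [hq.2]⟩
      (by rw [Real.dist_eq, abs_sub_comm]; exact hR.trans_lt hKδ)
    exact (Real.dist_eq _ _ ▸ h1).le
  have hlev := tsum_levels_close (D K) hs hα hθc hθ hGc hG4 (fun k R hR => hG k R hR) hψ hC hε.le
    hclose (v K) (hv K) (hid K)
  filter_upwards [(Finset.range m).eventually_all.2 hK] with j hj
  rw [qTrunc_series hf α (xs j) hθc hθ hC (fun k R hR => hG k R hR)]
  set S := pSys hf (Ns j) (α * ((Ns j : ℝ) + 2)) 0 (xs j)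
  have hCG : ∀ k t R, |ψ t * G k R| ≤ C * (4 * ρ ^ k) := fun k t R => by
    rw [abs_mul]; exact mul_le_mul (hC _) (hG4 k R) (abs_nonneg _) hC0
  have h1 := abs_tsum_sub_le (c := c) (g := fun k => C * (4 * ρ ^ k))
    (a := fun k => S.avgRep (2 + k) (fun ω r =>
      ψ (S.gram r (Fin.castAdd k 0) (Fin.castAdd k 1)) * G k (spinCov ω r)))
    (b := fun k => ∫ R, ψ (R (Fin.castAdd k 0) (Fin.castAdd k 1)) * G k ((D K).spinMat f α R)
      ∂A.law (2 + k))
    (fun k => Nat.cast_nonneg' _) hsC (fun k => abs_avgRep_le S fun ω r => hCG k _ _)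
    (fun k => (Real.norm_eq_abs _).symm.le.trans ((norm_integral_le_of_norm_le_const
      (Eventually.of_forall fun R => (Real.norm_eq_abs _).le.trans (hCG k _ _))).trans_eq (by simp)))
    (m := m) (δ := 4 * (C + 1) * δ1) (fun k hk => ?_) hm.le
  · refine (abs_sub_le _ _ _).trans ((add_le_add h1 hlev).trans ?_)
    have e1 : N0 * (4 * (C + 1) * δ1) ≤ η / 4 := by
      simp only [δ1]
      rw [mul_div_assoc', mul_div_assoc', div_le_div_iff₀ (by positivity) (by norm_num)]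
      nlinarith [mul_nonneg hη.le hC0]
    have e2 : ε * T0 + ε ≤ η / 4 := by
      simp only [ε]
      rw [← mul_add_one, div_mul_eq_mul_div, div_le_div_iff₀ (by positivity) (by norm_num)]
      nlinarith
    show N0 * _ + η / 4 + (ε * T0 + ε) ≤ η
    linarith
  · exact hj k hk

/-- With the new spins inserted the limit is the squared slope at the level of the overlap. -/
theorem eventually_q_spin (hf : Pot f B) (hs : Smf f) (hα : 0 < α) (hN : Tendsto Ns atTop atTop)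
    (Ps : ℕ → ℕ) (xs : ∀ j, Fin (Ps j) → ℝ)
    (h : Conv (fun j => pSys hf (Ns j) (α * ((Ns j : ℝ) + 2)) 0 (xs j)) A)
    (D : ∀ K, Discr A (K + 2)) {ψ : ℝ → ℝ} (hψ : Continuous ψ) {C : ℝ} (hC : ∀ t, |ψ t| ≤ C)
    {η : ℝ} (hη : 0 < η) :
    ∀ᶠ K in atTop, ∀ᶠ j in atTop,
      |qAvg f α (Ns j) (xs j) (fun z z' => sgn z.2 * sgn z'.2 * ψ (oldR z z')) -
        ∫ R, ψ (R 0 1) *
          slopeSq (D K).C.cdf (fun l => α * (D K).rval f l) ((D K).τ (R 0 1)) ∂A.law 2| ≤ η := by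
  obtain ⟨Dv, hD⟩ := hs.bdD_deriv.bdd
  have hC0 : 0 ≤ C := (abs_nonneg _).trans (hC 0)
  obtain ⟨C0, hC00, hcost⟩ := exists_trunc_cost hf hs hα.le
  set ε := η / (4 * (C + 1))
  obtain ⟨L0, hL0, hL⟩ := exists_pairRoot_close (α * Dv ^ 2) (show 0 < ε by positivity)
  set L := max L0 (4 * (C0 * C) / η + 1)
  have hLpos : 0 < L := hL0.trans_le (le_max_left _ _)
  have hLcost : C0 * C / L ≤ η / 4 := by
    rw [div_le_iff₀ hLpos]
    have : 4 * (C0 * C) / η ≤ L := (le_add_of_nonneg_right zero_le_one).trans (le_max_right _ _)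
    rw [div_le_iff₀ hη] at this
    linarith
  set d := fun K => fun j => α * (D K).rval f j
  set s := fun K => α * ((D K).rdiag f - (D K).rval f (Fin.last (D K).r))
  set v := fun K => pairRoot (D K).C.cdf (incr (d K)) (fun y => Real.log (Low.heat (coshT L) (s K) y))
    (quot (coshT L) Real.tanh (s K)) (quot (coshT L) Real.tanh (s K))
  have hmono : ∀ K, Monotone (d K) := fun K i j hij =>
    mul_le_mul_of_nonneg_left ((conj_props hs ((D K).levelParam (by omega)) hD).1 hij) hα.le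
  have hd0 : ∀ K, 0 ≤ d K 0 := fun K => mul_nonneg hα.le ((D K).rval_mem hs hD 0).1
  have hs0 : ∀ K, 0 ≤ s K := fun K =>
    mul_nonneg hα.le (sub_nonneg.2 ((D K).rval_mem hs hD _).2)
  have hgap : ∀ K l, |v K l| ≤ 1 ∧ |slopeSq (D K).C.cdf (d K) l| ≤ 1 ∧
      |v K l - slopeSq (D K).C.cdf (d K) l| ≤ ε := fun K =>
    hL L (le_max_left _ _) _ _ (d K) (s K) (D K).C.cdf_mono
      (fun j => ⟨(D K).C.cdf_nonneg j, (D K).C.cdf_le_one j⟩) (D K).C.cdf_zero (hmono K) (hd0 K)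
      (mul_le_mul_of_nonneg_left (((D K).rval_mem hs hD _).2.trans ((D K).rdiag_mem hs hD).2) hα.le)
      (hs0 K) (mul_le_mul_of_nonneg_left
        ((sub_le_self _ ((D K).rval_mem hs hD _).1).trans ((D K).rdiag_mem hs hD).2) hα.le)
  have htanh : BdD 3 Real.tanh := by simpa using bdD_tanh 1 3
  have hid : ∀ K (φ : LMat (D K).r 2 → ℝ), (D K).C.ratio (incr (d K)) (cmid L)
      (Low.heat (coshT L) (s K)) φ (fun _ => quot (coshT L) Real.tanh (s K)) =
      ∑ E, (D K).C.P 2 E * (φ E * v K (E 0 1)) := fun K φ => by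
    have hη' := sm_quot (weight_coshT L) htanh (s K)
    refine Eq.trans (congrArg ((D K).C.ratio (incr (d K)) (cmid L) (Low.heat (coshT L) (s K)) φ) ?_)
      ((D K).C.ratio_pair (Low.incr_nonneg (hmono K) (hd0 K)) ((weight_coshT L).heat (s K)) hη' hη' φ
        (show (0 : Fin 2) ≠ 1 by decide))
    funext a
    fin_cases a <;> simp
  filter_upwards [eventually_qInt_close hf hs hα hN h D htanh.cont
    (fun y => (Real.abs_tanh_lt_one y).le) hψ hC v (fun K l => (hgap K l).1) hid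
    (show 0 < η / 4 by linarith)] with K hK
  filter_upwards [hK] with j hj
  have hq : qAvg f α (Ns j) (xs j) (fun z z' => sgn z.2 * sgn z'.2 * ψ (oldR z z')) =
      ∫ ω, ∫ g, qInt f (xs j) Real.cosh Real.tanh ψ ω g ∂fieldLaw
        ∂disLaw (α * ((Ns j : ℝ) + 2)) (Ns j) (Ps j) :=
    qAvg_eq hf α (xs j) hC htanh.cont.measurable (fun y => (Real.abs_tanh_lt_one y).le) fun y => by
      rw [Real.tanh_eq_sinh_div_cosh, div_mul_cancel₀ _ (Real.cosh_pos y).ne', Real.sinh_eq]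
      simp only [sgn, if_true, Bool.false_eq_true, if_false]
      ring
  have hswap : |(∫ R, ψ (R 0 1) * v K ((D K).τ (R 0 1)) ∂A.law 2) -
      ∫ R, ψ (R 0 1) * slopeSq (D K).C.cdf (d K) ((D K).τ (R 0 1)) ∂A.law 2| ≤ C * ε := by
    have hm : ∀ g : Fin ((D K).r + 1) → ℝ, (∀ l, |g l| ≤ 1) →
        Integrable (fun R : Mat 2 => ψ (R 0 1) * g ((D K).τ (R 0 1))) (A.law 2) := fun g hg =>
      Integrable.of_bound ((hψ.measurable.comp (by fun_prop)).mul
        ((measurable_of_finite g).comp ((D K).measτ.comp (by fun_prop)))).aestronglyMeasurable C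
        (Eventually.of_forall fun R => by
          rw [Real.norm_eq_abs, abs_mul]
          exact (mul_le_mul (hC _) (hg _) (abs_nonneg _) hC0).trans_eq (mul_one C))
    rw [← integral_sub (hm _ fun l => (hgap K l).1) (hm _ fun l => (hgap K l).2.1), ← Real.norm_eq_abs]
    refine (norm_integral_le_of_norm_le_const (C := C * ε)
      (Eventually.of_forall fun R => ?_)).trans_eq (by simp)
    rw [Real.norm_eq_abs, ← mul_sub, abs_mul]
    exact mul_le_mul (hC _) (hgap K _).2.2 (abs_nonneg _) hC0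
  have hCε : C * ε ≤ η / 4 := by
    simp only [ε]
    rw [mul_div_assoc', div_le_div_iff₀ (by positivity) (by norm_num)]
    nlinarith
  rw [hq]
  refine (abs_sub_le _ _ _).trans ((add_le_add ((hcost _ _ (xs j) Real.tanh htanh.cont.measurable
    (fun y => (Real.abs_tanh_lt_one y).le) ψ C hC L hLpos).trans hLcost)
    ((abs_sub_le _ _ _).trans (add_le_add hj (hswap.trans hCε)))).trans ?_)
  linarith

/-- The law of the old overlap is that of the array. -/
theorem tendsto_q_overlap (hf : Pot f B) (hs : Smf f) (hα : 0 < α) (hN : Tendsto Ns atTop atTop)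
    (Ps : ℕ → ℕ) (xs : ∀ j, Fin (Ps j) → ℝ)
    (h : Conv (fun j => pSys hf (Ns j) (α * ((Ns j : ℝ) + 2)) 0 (xs j)) A)
    {ψ : ℝ → ℝ} (hψ : Continuous ψ) {C : ℝ} (hC : ∀ t, |ψ t| ≤ C) :
    Tendsto (fun j => qAvg f α (Ns j) (xs j) (fun z z' => ψ (oldR z z'))) atTop
      (𝓝 (∫ R, ψ (R 0 1) ∂A.law 2)) := by
  obtain ⟨Dv, hD⟩ := hs.bdD_deriv.bdd
  have hC0 : 0 ≤ C := (abs_nonneg _).trans (hC 0)
  obtain ⟨C0, hC00, hcost⟩ := exists_trunc_cost hf hs hα.le
  set D : ∀ K, Discr A (K + 2) := fun K => (A.exists_discr (Nat.le_add_left 2 K)).some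
  refine Metric.tendsto_nhds.2 fun η hη => ?_
  set L := 4 * (C0 * C) / η + 1
  have hLpos : 0 < L := by positivity
  have hLcost : C0 * C / L ≤ η / 4 := by
    rw [div_le_iff₀ hLpos]
    have e : η / 4 * L = C0 * C + η / 4 := by simp only [L]; field_simp
    linarith
  have hid : ∀ K (φ : LMat (D K).r 2 → ℝ), (D K).C.ratio (incr fun j => α * (D K).rval f j) (cmid L)
      (Low.heat (coshT L) (α * ((D K).rdiag f - (D K).rval f (Fin.last (D K).r)))) φ
      (fun _ => quot (coshT L) (fun _ => 1) (α * ((D K).rdiag f - (D K).rval f (Fin.last (D K).r)))) =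
      ∑ E, (D K).C.P 2 E * (φ E * (1 : ℝ)) := fun K φ => by
    simp only [mul_one, quot_one (weight_coshT L)]
    exact (D K).C.ratio_one (Low.incr_nonneg (fun i j hij =>
      mul_le_mul_of_nonneg_left ((conj_props hs ((D K).levelParam (by omega)) hD).1 hij) hα.le)
      (mul_nonneg hα.le ((D K).rval_mem hs hD 0).1)) ((weight_coshT L).heat _) φ
  obtain ⟨K, hK⟩ := (eventually_qInt_close hf hs hα hN h D continuous_const (fun _ => by simp) hψ hC
    (fun K _ => 1) (fun _ _ => by simp) hid (show 0 < η / 4 by linarith)).exists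
  filter_upwards [hK] with j hj
  have hq : qAvg f α (Ns j) (xs j) (fun z z' => ψ (oldR z z')) =
      ∫ ω, ∫ g, qInt f (xs j) Real.cosh (fun _ => 1) ψ ω g ∂fieldLaw
        ∂disLaw (α * ((Ns j : ℝ) + 2)) (Ns j) (Ps j) := by
    have e := qAvg_eq (N := Ns j) hf α (xs j) (θ := fun _ => 1) (a := fun _ => 1) hC measurable_const
      (fun _ => by simp) fun y => by rw [Real.cosh_eq]; ring
    simpa only [one_mul] using e
  simp only [mul_one] at hj
  rw [Real.dist_eq, hq]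
  refine lt_of_le_of_lt ((abs_sub_le _ _ _).trans (add_le_add ((hcost _ _ (xs j) (fun _ => 1)
    measurable_const (fun _ => by simp) ψ C hC L hLpos).trans hLcost) hj)) ?_
  linarith

end Vale.Agent.P157F
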