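import Vale.Agent.P157F.Low.SymBase
import Vale.Agent.P157.Low.Telescope

/-!
P157: the system with one more spin and a field along all spins, against the same with a field
along the old spins.
-/

namespace Vale.Agent.P157F

open MeasureTheory ProbabilityTheory
open scoped RealInnerProductSpace
open Vale.Agent.P157 (cubeVec norm_cubeVec Pot)
open Vale.Agent.P157.Low (Sp PertSpace pertVec patW initVec norm_initVec oldIdx oldIdx_injective cmul
  norm_cmul_sq_add inner_cmul)

variable {N P M : ℕ}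

lemma norm_pertVec_sq (x : Fin P → ℝ) (u : Sp N) (hu : ‖u‖ = 1) : ‖pertVec x u‖ ^ 2 = ∑ q, x q ^ 2 := by
  have h1 : ∑ i, u i ^ 2 = 1 := by rw [← EuclideanSpace.real_norm_sq_eq, hu, one_pow]
  rw [EuclideanSpace.real_norm_sq_eq, Fintype.sum_sigma]
  refine Finset.sum_congr rfl fun q _ => ?_
  simp only [pertVec, mul_pow, ← Finset.mul_sum, ← Finset.prod_pow]
  rw [← Fintype.prod_sum (fun (_ : Fin ((q : ℕ) + 1)) j => u j ^ 2)]
  simp [h1]

/-- The share of the old coordinates in a vector of the larger cube. -/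
noncomputable def oldShare (n : ℕ) : ℝ := Real.sqrt ((n : ℝ) / (n + 1))

lemma oldShare_sq (n : ℕ) : oldShare n ^ 2 = (n : ℝ) / (n + 1) := Real.sq_sqrt (by positivity)

lemma oldShare_mem (n : ℕ) : 0 ≤ oldShare n ∧ oldShare n ≤ 1 :=
  ⟨Real.sqrt_nonneg _, Real.sqrt_le_one.2 ((div_le_one (by positivity)).2 (by linarith))⟩

/-- The coefficients with the shares of the old coordinates. -/
noncomputable def shrunk (n : ℕ) (c : Fin P → ℝ) : Fin P → ℝ :=
  fun p => c p * oldShare n ^ ((p : ℕ) + 1)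

lemma sum_sq_shrunk_ge (n : ℕ) (c : Fin P → ℝ) :
    ∑ p, c p ^ 2 - ∑ p, shrunk n c p ^ 2 ≤ (P : ℝ) / ((n : ℝ) + 1) * ∑ p, c p ^ 2 := by
  rw [← Finset.sum_sub_distrib, Finset.mul_sum]
  refine Finset.sum_le_sum fun p _ => ?_
  have hq : 1 - (oldShare n ^ ((p : ℕ) + 1)) ^ 2 ≤ (P : ℝ) / ((n : ℝ) + 1) := by
    rw [← pow_mul, mul_comm, pow_mul, oldShare_sq]
    have h := one_add_mul_le_pow (a := -(1 / ((n : ℝ) + 1))) (by
      have : 1 / ((n : ℝ) + 1) ≤ 1 := by rw [div_le_one (by positivity)]; linarith [Nat.cast_nonneg (α := ℝ) n]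
      linarith) ((p : ℕ) + 1)
    rw [show 1 + -(1 / ((n : ℝ) + 1)) = (n : ℝ) / (n + 1) by field_simp; ring] at h
    have hp : (((p : ℕ) + 1 : ℕ) : ℝ) ≤ (P : ℝ) := by exact_mod_cast Nat.succ_le_of_lt p.2
    have h2 : (((p : ℕ) + 1 : ℕ) : ℝ) * (1 / ((n : ℝ) + 1)) ≤ (P : ℝ) / ((n : ℝ) + 1) := by
      rw [mul_one_div]; exact div_le_div_of_nonneg_right hp (by positivity)
    linarith
  have := mul_le_mul_of_nonneg_right hq (sq_nonneg (c p))
  simp only [shrunk, mul_pow]
  linarith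

/-- Mean pair average of the patterns on the larger cube with a field along features `v`. -/
noncomputable def sysAvg {m : ℕ} (f : ℝ → ℝ) (v : (Fin (N + 2) → Bool) → Sp m) (c : Fin P → ℝ)
    (Θ : (Fin (N + 2) → Bool) → (Fin (N + 2) → Bool) → ℝ) (M : ℕ) : ℝ :=
  ∫ g : Fin M → Sp (N + 2), fieldAvg (patW f (N + 2) g) (fun τ => pertVec c (v τ)) Θ
    ∂Measure.pi fun _ => stdGaussian (Sp (N + 2))

variable {f : ℝ → ℝ} {B : ℝ} {Θ : (Fin (N + 2) → Bool) → (Fin (N + 2) → Bool) → ℝ} {C : ℝ}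

lemma patW_pos (n : ℕ) (g : Fin M → Sp n) (τ : Fin n → Bool) : 0 < patW f n g τ := Real.exp_pos _

lemma measurable_patW_left (hf : Pot f B) (n : ℕ) (τ : Fin n → Bool) :
    Measurable fun g : Fin M → Sp n => patW f n g τ :=
  (Finset.measurable_fun_sum _ fun a _ => hf.meas.comp
    ((measurable_pi_apply a).inner measurable_const)).exp

lemma integrable_sys (hf : Pot f B) {m : ℕ} (v : (Fin (N + 2) → Bool) → Sp m) (c : Fin P → ℝ)
    (hC : ∀ x y, |Θ x y| ≤ C) :
    Integrable (fun g : Fin M → Sp (N + 2) => fieldAvg (patW f (N + 2) g) (fun τ => pertVec c (v τ)) Θ)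
      (Measure.pi fun _ => stdGaussian (Sp (N + 2))) := by
  refine (integrable_const C).mono' ?_ (Filter.Eventually.of_forall fun g => ?_)
  · exact ((measurable_pairAvg_field (W := fun g : Fin M → Sp (N + 2) => patW f (N + 2) g)
      (measurable_patW_left hf _) (fun τ => pertVec c (v τ)) Θ).stronglyMeasurable.integral_prod_right'
      (ν := stdGaussian (PertSpace m P))).aestronglyMeasurable
  · rw [Real.norm_eq_abs]
    exact abs_fieldAvg_le (fun τ => patW_pos _ g τ) _ hC

lemma abs_sysAvg_le {m : ℕ} (v : (Fin (N + 2) → Bool) → Sp m) (c : Fin P → ℝ)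
    (hC : ∀ x y, |Θ x y| ≤ C) : |sysAvg f v c Θ M| ≤ C := by
  have h := norm_integral_le_of_norm_le_const (μ := Measure.pi fun _ : Fin M => stdGaussian (Sp (N + 2)))
    (C := C) (f := fun g => fieldAvg (patW f (N + 2) g) (fun τ => pertVec c (v τ)) Θ)
    (Filter.Eventually.of_forall fun g => by
      rw [Real.norm_eq_abs]; exact abs_fieldAvg_le (fun τ => patW_pos _ g τ) _ hC)
  simpa [sysAvg] using h

/-- The field along the new spin is negligible when the coefficients are small against the size. -/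
theorem abs_sysAvg_init_sub_le (hf : Pot f B) (c : Fin P → ℝ) (hC : ∀ x y, |Θ x y| ≤ C) {σ : ℝ}
    (hσ0 : 0 ≤ σ) (hσ : (P : ℝ) / ((N : ℝ) + 2) * ∑ p, c p ^ 2 ≤ σ ^ 2) {t : ℝ} (ht : 0 < t) :
    |sysAvg f (initVec (N + 1)) c Θ M - sysAvg f (cubeVec (N + 2)) c Θ M| ≤
      2 * (C * ((Real.exp (8 * σ ^ 2) - 1) / t + t * Real.exp (8 * σ ^ 2))) := by
  classical
  set n := N + 1 with hn
  have hn0 : 0 < n := Nat.succ_pos N
  have hn1 : ((n : ℕ) : ℝ) + 1 = (N : ℝ) + 2 := by rw [hn]; push_cast; ring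
  set W := fun τ : Fin (n + 1) → Bool => pertVec (shrunk n c) (initVec n τ) with hW
  set e := oldIdx n P with hedef
  have he : Function.Injective e := oldIdx_injective n P
  set a := Function.extend e (fun _ => (1 : ℝ)) 0 with ha
  set b := fun i => 1 - a i with hb
  have hab : ∀ i, a i ^ 2 + b i ^ 2 = 1 := fun i => by
    by_cases hi : ∃ j, e j = i
    · obtain ⟨j, rfl⟩ := hi
      simp [hb, ha, he.extend_apply]
    · simp [hb, ha, Function.extend_apply' _ _ _ hi]
  set a₂ := fun i : (p : Fin P) × (Fin ((p : ℕ) + 1) → Fin n) => oldShare n ^ ((i.1 : ℕ) + 1) with ha₂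
  set b₂ := fun i => Real.sqrt (1 - a₂ i ^ 2) with hb₂
  have hab₂ : ∀ i, a₂ i ^ 2 + b₂ i ^ 2 = 1 := fun i => by
    simp only [hb₂]
    rw [Real.sq_sqrt (sub_nonneg.2 (pow_le_one₀ (pow_nonneg (oldShare_mem n).1 _)
      (pow_le_one₀ (oldShare_mem n).1 (oldShare_mem n).2)))]
    ring
  set ψ := fun t : PertSpace n P => (WithLp.toLp 2 (Function.extend e (fun i => t i) 0) : PertSpace (n + 1) P)
    with hψ
  set φ := fun g : PertSpace (n + 1) P => (WithLp.toLp 2 (fun i => g (e i)) : PertSpace n P) with hφdef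
  have hsum : ∀ (u : ((p : Fin P) × (Fin ((p : ℕ) + 1) → Fin (n + 1))) → ℝ)
      (t : PertSpace n P), ∑ i, u i * Function.extend e (fun i => t i) 0 i = ∑ j, u (e j) * t j :=
    fun u t => (Fintype.sum_of_injective e he _ _ (fun i hi => by
      rw [Function.extend_apply' _ _ _ (by simpa [Set.mem_range] using hi)]; simp)
      (fun j => by rw [he.extend_apply])).symm
  have hφ : ∀ g t, ⟪φ g, t⟫ = ⟪g, ψ t⟫ := fun g t => by
    simp only [φ, ψ, PiLp.inner_apply, RCLike.inner_apply, conj_trivial]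
    refine Eq.trans ?_ ((Finset.sum_congr rfl fun i _ => mul_comm _ _).trans (hsum (fun i => g i) t)).symm
    exact Finset.sum_congr rfl fun j _ => mul_comm _ _
  have hψn : ∀ t, ‖ψ t‖ = ‖t‖ := fun t => by
    refine (pow_left_inj₀ (norm_nonneg _) (norm_nonneg _) two_ne_zero).1 ?_
    simp only [EuclideanSpace.real_norm_sq_eq, ψ]
    simp only [pow_two]
    rw [hsum (fun i => Function.extend e (fun i => t i) 0 i) t]
    simp [he.extend_apply]
  have hφm : Measurable φ := (WithLp.measurable_toLp _ _).comp (by fun_prop)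
  have hUV : ∀ τ, cmul a (pertVec c (cubeVec (n + 1) τ)) = ψ (W τ) := fun τ => by
    ext i
    by_cases hi : ∃ j, e j = i
    · obtain ⟨j, rfl⟩ := hi
      simp only [cmul, ψ, ha, he.extend_apply, one_mul]
      have hr : ∀ k, cubeVec (n + 1) τ (Fin.castSucc k) = oldShare n * initVec n τ k := fun k => by
        have h1 : Real.sqrt (n : ℝ) ≠ 0 := Real.sqrt_ne_zero'.2 (by exact_mod_cast hn0)
        rw [oldShare, Real.sqrt_div (Nat.cast_nonneg n)]
        simp [cubeVec, initVec, Fin.init]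
        field_simp
      simp [W, e, shrunk, pertVec, oldIdx, hr, Finset.prod_mul_distrib, mul_assoc]
    · simp only [cmul, ψ, ha, Function.extend_apply' _ _ _ hi]
      simp
  have hUW : ∀ τ, cmul a₂ (pertVec c (initVec n τ)) = W τ := fun τ => by
    ext i
    simp only [cmul, W, pertVec, shrunk, ha₂]
    ring
  have hdiff : ∑ p, c p ^ 2 - ∑ p, shrunk n c p ^ 2 ≤ σ ^ 2 :=
    (sum_sq_shrunk_ge n c).trans (by rw [hn1]; exact hσ)
  have hs1 : ∀ τ, ‖cmul b (pertVec c (cubeVec (n + 1) τ))‖ ≤ σ := fun τ => by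
    have h := norm_cmul_sq_add hab (pertVec c (cubeVec (n + 1) τ))
    rw [hUV, hψn, norm_pertVec_sq _ _ (norm_cubeVec (Nat.succ_pos n) τ),
      norm_pertVec_sq _ _ (norm_initVec hn0 τ)] at h
    exact (pow_le_pow_iff_left₀ (norm_nonneg _) hσ0 two_ne_zero).1 (by linarith)
  have hs2 : ∀ τ, ‖cmul b₂ (pertVec c (initVec n τ))‖ ≤ σ := fun τ => by
    have h := norm_cmul_sq_add hab₂ (pertVec c (initVec n τ))
    rw [hUW, norm_pertVec_sq _ _ (norm_initVec hn0 τ), norm_pertVec_sq _ _ (norm_initVec hn0 τ)] at h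
    exact (pow_le_pow_iff_left₀ (norm_nonneg _) hσ0 two_ne_zero).1 (by linarith)
  set ε := C * ((Real.exp (8 * σ ^ 2) - 1) / t + t * Real.exp (8 * σ ^ 2))
  have key : ∀ g : Fin M → Sp (N + 2),
      |fieldAvg (patW f (N + 2) g) (fun τ => pertVec c (initVec n τ)) Θ -
        fieldAvg (patW f (N + 2) g) (fun τ => pertVec c (cubeVec (n + 1) τ)) Θ| ≤ 2 * ε := fun g => by
    have h1 := abs_fieldAvg_split (fun τ => patW_pos (f := f) _ g τ) hC hab
      (U := fun τ => pertVec c (cubeVec (n + 1) τ)) hs1 ht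
    have h2 := abs_fieldAvg_split (fun τ => patW_pos (f := f) _ g τ) hC hab₂
      (U := fun τ => pertVec c (initVec n τ)) hs2 ht
    simp only [hUV] at h1
    simp only [hUW] at h2
    rw [← fieldAvg_transport (fun τ => patW_pos (f := f) _ g τ) hC hφm hφ hψn W] at h1
    have h3 := abs_sub_le (fieldAvg (patW f (N + 2) g) (fun τ => pertVec c (initVec n τ)) Θ)
      (fieldAvg (patW f (N + 2) g) W Θ)
      (fieldAvg (patW f (N + 2) g) (fun τ => pertVec c (cubeVec (n + 1) τ)) Θ)
    rw [abs_sub_comm] at h1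
    linarith
  rw [sysAvg, sysAvg, ← integral_sub (integrable_sys hf _ c hC) (integrable_sys hf _ c hC)]
  have h := norm_integral_le_of_norm_le_const (μ := Measure.pi fun _ : Fin M => stdGaussian (Sp (N + 2)))
    (C := 2 * ε) (f := fun g => fieldAvg (patW f (N + 2) g) (fun τ => pertVec c (initVec n τ)) Θ -
      fieldAvg (patW f (N + 2) g) (fun τ => pertVec c (cubeVec (n + 1) τ)) Θ)
    (Filter.Eventually.of_forall fun g => by rw [Real.norm_eq_abs]; exact key g)
  simpa using h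

end Vale.Agent.P157F
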