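import Vale.Agent.P157F.Low.Defs
import Vale.Agent.P157F.Low.SymShift

/-!
P157: exchangeability of the coordinates: the new spin carries the overlap.
-/

namespace Vale.Agent.P157F

open MeasureTheory ProbabilityTheory Filter Vale.Agent.P157 Vale.Agent.P157.Low
open scoped Topology RealInnerProductSpace

variable {N P M : ℕ} {f : ℝ → ℝ} {B C : ℝ}

/-- Configurations of the cavity as configurations of the larger cube. -/
def cfgEquiv (N : ℕ) : Cfg N ≃ (Fin (N + 2) → Bool) :=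
  (Equiv.prodComm _ _).trans (Fin.snocEquiv fun _ : Fin (N + 2) => Bool)

lemma cfgEquiv_apply (z : Cfg N) : cfgEquiv N z = Fin.snoc (α := fun _ => Bool) z.1 z.2 := rfl

/-- The overlap of two configurations of the larger cube. -/
noncomputable def fullR (τ τ' : Fin (N + 2) → Bool) : ℝ := ⟪cubeVec (N + 2) τ, cubeVec (N + 2) τ'⟫

lemma abs_fullR_le (τ τ' : Fin (N + 2) → Bool) : |fullR τ τ'| ≤ 1 := by
  refine (abs_real_inner_le_norm _ _).trans ?_
  rw [norm_cubeVec (Nat.succ_pos _), norm_cubeVec (Nat.succ_pos _), one_mul]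

lemma sgn_eq (b : Bool) : Vale.Agent.P157.sgn b = sgn b := rfl

lemma abs_sgn (b : Bool) : |sgn b| = 1 := by cases b <;> simp [sgn]

lemma abs_fullR_sub_oldR (z z' : Cfg N) :
    |fullR (cfgEquiv N z) (cfgEquiv N z') - oldR z z'| ≤ 2 / ((N : ℝ) + 2) := by
  have h : fullR (cfgEquiv N z) (cfgEquiv N z') =
      (((N : ℝ) + 1) * oldR z z' + sgn z.2 * sgn z'.2) / ((N : ℝ) + 2) := by
    simp only [fullR, oldR, inner_cubeVec, Fin.sum_univ_castSucc (n := N + 1), cfgEquiv_apply,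
      Fin.snoc_castSucc, Fin.snoc_last, sgn_eq]
    push_cast
    field_simp
  have h1 : |oldR z z'| ≤ 1 := by
    refine (abs_real_inner_le_norm _ _).trans ?_
    rw [norm_cubeVec (Nat.succ_pos _), norm_cubeVec (Nat.succ_pos _), one_mul]
  have h2 : |sgn z.2 * sgn z'.2| = 1 := by rw [abs_mul, abs_sgn, abs_sgn, one_mul]
  rw [h, show (((N : ℝ) + 1) * oldR z z' + sgn z.2 * sgn z'.2) / ((N : ℝ) + 2) - oldR z z' =
    (sgn z.2 * sgn z'.2 - oldR z z') / ((N : ℝ) + 2) by field_simp; ring, abs_div,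
    abs_of_pos (show (0 : ℝ) < (N : ℝ) + 2 by positivity)]
  exact div_le_div_of_nonneg_right ((abs_sub _ _).trans (by linarith)) (by positivity)

lemma measurable_cavW' (hf : Pot f B) (x : Fin P → ℝ) (z : Cfg N) :
    Measurable fun q : CavOm N P => cavW f N x q z := by
  unfold cavW
  have hsum : Measurable fun q : ℕ × ((ℕ → Sp (N + 1)) × (ℕ → ℝ)) => ∑ a ∈ Finset.range q.1,
      f (Real.sqrt (1 - 1 / ((N : ℝ) + 2)) * ⟪q.2.1 a, cubeVec (N + 1) z.1⟫ +
        Real.sqrt (1 / ((N : ℝ) + 2)) * (q.2.2 a * if z.2 then 1 else -1)) :=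
    measurable_from_prod_countable_right fun M => by
      have := hf.meas
      exact Finset.measurable_sum (Finset.range M) fun a _ => by fun_prop
  exact (hsum.comp measurable_fst).exp.mul (((measurable_snd.inner measurable_const).const_mul _).exp)

lemma pairE_eq (w : Cfg N → ℝ) (Θ : Cfg N → Cfg N → ℝ) : pairE w Θ = pairAvg w Θ := rfl

lemma cavW_pos (x : Fin P → ℝ) (q : CavOm N P) (z : Cfg N) : 0 < cavW f N x q z :=
  mul_pos (Real.exp_pos _) (Real.exp_pos _)

lemma integrable_pairE_cavW (hf : Pot f B) (x : Fin P → ℝ) {Θ : Cfg N → Cfg N → ℝ}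
    (hC : ∀ z z', |Θ z z'| ≤ C) (μ : Measure (CavOm N P)) [IsFiniteMeasure μ] :
    Integrable (fun q => pairE (cavW f N x q) Θ) μ := by
  refine (integrable_const C).mono' ?_ (Eventually.of_forall fun q => ?_)
  · exact ((Finset.measurable_fun_sum _ fun z _ => Finset.measurable_fun_sum _ fun z' _ =>
      ((measurable_cavW' hf x z).mul (measurable_cavW' hf x z')).mul_const _).div
      ((Finset.measurable_fun_sum _ fun z _ => measurable_cavW' hf x z).pow_const _)).aestronglyMeasurable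
  · rw [Real.norm_eq_abs, pairE_eq]
    exact abs_pairAvg_le (fun z => cavW_pos x q z) hC

lemma abs_cavAvg_sub_le (hf : Pot f B) (α : ℝ) (x : Fin P → ℝ) {Θ Θ' : Cfg N → Cfg N → ℝ} {C' e : ℝ}
    (hC : ∀ z z', |Θ z z'| ≤ C) (hC' : ∀ z z', |Θ' z z'| ≤ C') (he : ∀ z z', |Θ z z' - Θ' z z'| ≤ e) :
    |cavAvg f α N x Θ - cavAvg f α N x Θ'| ≤ e := by
  rw [cavAvg, cavAvg, ← integral_sub (integrable_pairE_cavW hf x hC _) (integrable_pairE_cavW hf x hC' _)]
  have h := norm_integral_le_of_norm_le_const (μ := cavLaw α N P) (C := e)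
    (f := fun q => pairE (cavW f N x q) Θ - pairE (cavW f N x q) Θ')
    (Eventually.of_forall fun q => by
      rw [Real.norm_eq_abs, pairE_eq, pairE_eq]; exact abs_pairAvg_sub_le (fun z => cavW_pos x q z) he)
  simpa using h

/-- The cavity system is the larger cube with the field along the old spins. -/
lemma cavAvg_eq_sys (hf : Pot f B) (α : ℝ) (x : Fin P → ℝ)
    (Θ : (Fin (N + 2) → Bool) → (Fin (N + 2) → Bool) → ℝ) (hC : ∀ τ τ', |Θ τ τ'| ≤ C) :
    cavAvg f α N x (fun z z' => Θ (cfgEquiv N z) (cfgEquiv N z')) =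
      ∫ M, sysAvg f (initVec (N + 1)) (strength N • x) Θ M ∂poiLaw (α * ((N : ℝ) + 2)) := by
  set c := strength N • x with hc
  set Θc := fun z z' : Cfg N => Θ (cfgEquiv N z) (cfgEquiv N z')
  set γJ := stdGaussian (PertSpace (N + 1) P)
  set pf := (patLaw (N + 1)).prod fieldLaw
  set lam := α * ((N : ℝ) + 2)
  have hpt : ∀ (M : ℕ) (p : (ℕ → Sp (N + 1)) × (ℕ → ℝ)) (J : PertSpace (N + 1) P),
      pairE (cavW f N x ((M, p), J)) Θc = pairAvg (fun τ =>
        patW f (N + 2) (fun a : Fin M => snocPat (p.1 a, p.2 a)) τ *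
          Real.exp ⟪J, pertVec c (initVec (N + 1) τ)⟫) Θ := by
    intro M p J
    rw [pairE_eq, ← pairAvg_comp (cfgEquiv N) _ Θ]
    congr 1
    funext z
    have e1 : (((N + 1 : ℕ) : ℝ) / (((N + 1 : ℕ) : ℝ) + 1)) = 1 - 1 / ((N : ℝ) + 2) := by
      push_cast
      field_simp
      ring
    have e2 : (Real.sqrt (((N + 1 : ℕ) : ℝ) + 1))⁻¹ = Real.sqrt (1 / ((N : ℝ) + 2)) := by
      rw [← Real.sqrt_inv, one_div]
      push_cast
      ring_nf
    rw [cfgEquiv_apply, patW, cavW, hc, pertVec_smul, real_inner_smul_right, initVec, Fin.init_snoc]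
    congr 2
    rw [← Fin.sum_univ_eq_sum_range]
    refine Finset.sum_congr rfl fun a _ => congrArg f ?_
    rw [inner_snocPat _ _ (Nat.succ_pos N), e1, e2, Vale.Agent.P157.sgn]
  have hi : Integrable (fun q => pairE (cavW f N x q) Θc) (((poiLaw lam).prod pf).prod γJ) :=
    integrable_pairE_cavW hf x (fun z z' => hC _ _) _
  refine (integral_prod (fun q => pairE (cavW f N x q) Θc) hi).trans ?_
  rw [integral_prod _ hi.integral_prod_left]
  refine integral_congr_ae (Eventually.of_forall fun M => ?_)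
  have hmp : MeasurePreserving
      (fun p : (ℕ → Sp (N + 1)) × (ℕ → ℝ) => fun a : Fin M => snocPat (p.1 a, p.2 a)) pf
      (Measure.pi fun _ : Fin M => stdGaussian (Sp (N + 2))) := by
    have h1 : MeasurePreserving
        (fun p : (ℕ → Sp (N + 1)) × (ℕ → ℝ) => ((fun a : Fin M => p.1 a), (fun a : Fin M => p.2 a))) pf
        ((Measure.pi fun _ : Fin M => stdGaussian (Sp (N + 1))).prod
          (Measure.pi fun _ : Fin M => gaussianReal 0 1)) :=
      MeasurePreserving.prod ⟨by fun_prop, map_first_patterns M⟩ ⟨by fun_prop, map_first_patterns M⟩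
    have h2 := (measurePreserving_arrowProdEquivProdArrow (Sp (N + 1)) ℝ (Fin M)
      (fun _ => stdGaussian (Sp (N + 1))) (fun _ => gaussianReal 0 1)).symm _
    have h3 := measurePreserving_pi (fun _ : Fin M => (stdGaussian (Sp (N + 1))).prod (gaussianReal 0 1))
      (fun _ : Fin M => stdGaussian (Sp (N + 2))) fun _ => measurePreserving_snocPat (n := N + 1)
    exact h3.comp (h2.comp h1)
  have hie := integrable_sys (M := M) hf (initVec (N + 1)) c hC
  rw [sysAvg]
  conv_rhs => rw [← hmp.map_eq]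
  rw [integral_map hmp.measurable.aemeasurable (by rw [hmp.map_eq]; exact hie.aestronglyMeasurable)]
  exact integral_congr_ae (Eventually.of_forall fun p =>
    integral_congr_ae (Eventually.of_forall fun J => hpt M p J))

/-- Permuting the coordinates does not change the averages. -/
lemma sysAvg_perm (hf : Pot f B) (c : Fin P → ℝ) (π : Equiv.Perm (Fin (N + 2)))
    {Θ : (Fin (N + 2) → Bool) → (Fin (N + 2) → Bool) → ℝ} (hC : ∀ τ τ', |Θ τ τ'| ≤ C) :
    sysAvg f (cubeVec (N + 2)) c (fun τ τ' => Θ (τ ∘ π) (τ' ∘ π)) M =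
      sysAvg f (cubeVec (N + 2)) c Θ M := by
  set eτ : (Fin (N + 2) → Bool) ≃ (Fin (N + 2) → Bool) :=
    ⟨fun τ => τ ∘ π, fun τ => τ ∘ π.symm, fun τ => by ext i; simp, fun τ => by ext i; simp⟩
  set φ : Sp (N + 2) → Sp (N + 2) := fun g => WithLp.toLp 2 fun i => g (π i) with hφdef
  set ψ : Sp (N + 2) → Sp (N + 2) := fun g => WithLp.toLp 2 fun i => g (π.symm i) with hψdef
  have hφm : Measurable φ := by simp only [hφdef]; fun_prop
  have hφ : ∀ g t, ⟪φ g, t⟫ = ⟪g, ψ t⟫ := fun g t => by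
    simp only [φ, ψ, PiLp.inner_apply, RCLike.inner_apply, conj_trivial]
    exact Fintype.sum_equiv π _ _ fun i => by simp
  have hψn : ∀ t, ‖ψ t‖ = ‖t‖ := fun t => by
    refine (pow_left_inj₀ (norm_nonneg _) (norm_nonneg _) two_ne_zero).1 ?_
    simp only [EuclideanSpace.real_norm_sq_eq, ψ]
    exact π.symm.sum_comp fun i => t i ^ 2
  have hψm : Measurable ψ := by simp only [hψdef]; fun_prop
  have hψ : ∀ g t, ⟪ψ g, t⟫ = ⟪g, φ t⟫ := fun g t => by
    rw [real_inner_comm, ← hφ, real_inner_comm]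
  have hφn : ∀ t, ‖φ t‖ = ‖t‖ := fun t => by
    refine (pow_left_inj₀ (norm_nonneg _) (norm_nonneg _) two_ne_zero).1 ?_
    simp only [EuclideanSpace.real_norm_sq_eq, φ]
    exact Equiv.sum_comp π fun i => t i ^ 2
  have hmp := measurePreserving_stdGaussian hψm φ hψ hφn
  have hcube : ∀ τ, cubeVec (N + 2) (τ ∘ π) = φ (cubeVec (N + 2) τ) := fun τ => by
    ext i
    simp [φ, cubeVec]
  -- the field
  set E : ((p : Fin P) × (Fin ((p : ℕ) + 1) → Fin (N + 2))) ≃
      ((p : Fin P) × (Fin ((p : ℕ) + 1) → Fin (N + 2))) :=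
    Equiv.sigmaCongrRight fun _ => Equiv.arrowCongr (Equiv.refl _) π
  set φJ : PertSpace (N + 2) P → PertSpace (N + 2) P := fun J => WithLp.toLp 2 fun i => J (E.symm i)
    with hφJdef
  set ψJ : PertSpace (N + 2) P → PertSpace (N + 2) P := fun J => WithLp.toLp 2 fun i => J (E i) with hψJdef
  have hφJm : Measurable φJ := by simp only [hφJdef]; fun_prop
  have hφJ : ∀ g t, ⟪φJ g, t⟫ = ⟪g, ψJ t⟫ := fun g t => by
    simp only [φJ, ψJ, PiLp.inner_apply, RCLike.inner_apply, conj_trivial]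
    exact Fintype.sum_equiv E.symm _ _ fun i => by simp
  have hψJn : ∀ t, ‖ψJ t‖ = ‖t‖ := fun t => by
    refine (pow_left_inj₀ (norm_nonneg _) (norm_nonneg _) two_ne_zero).1 ?_
    simp only [EuclideanSpace.real_norm_sq_eq, ψJ]
    exact E.sum_comp fun i => t i ^ 2
  have hpert : ∀ τ, pertVec c (cubeVec (N + 2) (τ ∘ π)) = ψJ (pertVec c (cubeVec (N + 2) τ)) := fun τ => by
    ext i
    simp [ψJ, E, pertVec, cubeVec, Equiv.sigmaCongrRight]
    rfl
  rw [sysAvg, sysAvg]
  set μ := Measure.pi fun _ : Fin M => stdGaussian (Sp (N + 2))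
  have hpi : MeasurePreserving (fun g : Fin M → Sp (N + 2) => fun a => ψ (g a)) μ μ :=
    measurePreserving_pi _ _ fun _ => hmp
  conv_lhs => rw [← hpi.map_eq]
  rw [integral_map hpi.measurable.aemeasurable (by
    rw [hpi.map_eq]; exact (integrable_sys hf _ c (fun τ τ' => hC _ _)).aestronglyMeasurable)]
  refine integral_congr_ae (Eventually.of_forall fun g => ?_)
  beta_reduce
  have hw : ∀ τ, patW f (N + 2) (fun a => ψ (g a)) τ = patW f (N + 2) g (eτ τ) := fun τ => by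
    show _ = patW f (N + 2) g (τ ∘ π)
    simp only [patW]
    congr 1
    refine Finset.sum_congr rfl fun a _ => congrArg f ?_
    rw [hcube, hψ]
  rw [fieldAvg_transport (fun τ => patW_pos (f := f) _ _ τ) (fun τ τ' => hC _ _) hφJm hφJ hψJn
    (fun τ => pertVec c (cubeVec (N + 2) τ))]
  simp only [← hpert, hw]
  refine integral_congr_ae (Eventually.of_forall fun J => ?_)
  exact pairAvg_comp eτ (fun τ => patW f (N + 2) g τ * Real.exp ⟪J, pertVec c (cubeVec (N + 2) τ)⟫) Θ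

lemma sysAvg_sum (hf : Pot f B) {m : ℕ} (v : (Fin (N + 2) → Bool) → Sp m) (c : Fin P → ℝ) {ι : Type}
    [Fintype ι] (Θ : ι → (Fin (N + 2) → Bool) → (Fin (N + 2) → Bool) → ℝ)
    (hC : ∀ i τ τ', |Θ i τ τ'| ≤ C) :
    sysAvg f v c (fun τ τ' => ∑ i, Θ i τ τ') M = ∑ i, sysAvg f v c (Θ i) M := by
  have hfield : ∀ g : Fin M → Sp (N + 2),
      fieldAvg (patW f (N + 2) g) (fun τ => pertVec c (v τ)) (fun τ τ' => ∑ i, Θ i τ τ') =
        ∑ i, fieldAvg (patW f (N + 2) g) (fun τ => pertVec c (v τ)) (Θ i) := fun g => by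
    simp only [fieldAvg]
    rw [← integral_finsetSum _ fun i _ => integrable_pairAvg_field (fun τ => patW_pos _ g τ) _ (hC i)]
    refine integral_congr_ae (Eventually.of_forall fun J => ?_)
    simp only [pairAvg, ← Finset.sum_div, Finset.mul_sum]
    congr 1
    rw [Finset.sum_comm (γ := ι)]
    exact Finset.sum_congr rfl fun τ _ => Finset.sum_comm
  simp only [sysAvg, hfield]
  exact integral_finsetSum _ fun i _ => integrable_sys hf v c (hC i)

lemma sysAvg_mul_left (v : (Fin (N + 2) → Bool) → Sp M) (c : Fin P → ℝ) (K : ℕ) (a : ℝ)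
    (Θ : (Fin (N + 2) → Bool) → (Fin (N + 2) → Bool) → ℝ) :
    sysAvg f v c (fun τ τ' => a * Θ τ τ') K = a * sysAvg f v c Θ K := by
  simp only [sysAvg, fieldAvg, ← integral_const_mul]
  refine integral_congr_ae (Eventually.of_forall fun g => integral_congr_ae (Eventually.of_forall fun J => ?_))
  simp only [pairAvg, mul_div_assoc', Finset.mul_sum]
  congr 1
  exact Finset.sum_congr rfl fun τ _ => Finset.sum_congr rfl fun τ' _ => by ring

/-- In the symmetric system the last spins carry the overlap. -/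
lemma sysAvg_sym (hf : Pot f B) (c : Fin P → ℝ) {ψ : ℝ → ℝ} (hC : ∀ t, |ψ t| ≤ C) :
    sysAvg f (cubeVec (N + 2)) c
        (fun τ τ' => sgn (τ (Fin.last (N + 1))) * sgn (τ' (Fin.last (N + 1))) * ψ (fullR τ τ')) M =
      sysAvg f (cubeVec (N + 2)) c (fun τ τ' => fullR τ τ' * ψ (fullR τ τ')) M := by
  set Θ := fun (i : Fin (N + 2)) (τ τ' : Fin (N + 2) → Bool) =>
    sgn (τ i) * sgn (τ' i) * ψ (fullR τ τ') with hΘ
  have hb : ∀ i τ τ', |Θ i τ τ'| ≤ C := fun i τ τ' => by
    simp only [hΘ]; rw [abs_mul, abs_mul, abs_sgn, abs_sgn, one_mul, one_mul]; exact hC _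
  have hsym : ∀ i, sysAvg f (cubeVec (N + 2)) c (Θ i) M =
      sysAvg f (cubeVec (N + 2)) c (Θ (Fin.last (N + 1))) M := fun i => by
    rw [← sysAvg_perm hf c (Equiv.swap i (Fin.last (N + 1))) (hb (Fin.last (N + 1)))]
    congr 1
    funext τ τ'
    simp only [hΘ, Function.comp_apply, Equiv.swap_apply_right, fullR, inner_cubeVec]
    congr 3
    exact (Equiv.sum_comp (Equiv.swap i (Fin.last (N + 1)))
      fun j => Vale.Agent.P157.sgn (τ j) * Vale.Agent.P157.sgn (τ' j)).symm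
  have e : (fun τ τ' : Fin (N + 2) → Bool => fullR τ τ' * ψ (fullR τ τ')) =
      fun τ τ' => 1 / ((N : ℝ) + 2) * ∑ i, Θ i τ τ' := funext fun τ => funext fun τ' => by
    simp only [hΘ, ← Finset.sum_mul]
    rw [← mul_assoc]
    congr 1
    simp only [fullR, inner_cubeVec, sgn_eq]
    push_cast
    ring
  rw [e, sysAvg_mul_left, sysAvg_sum hf _ c Θ hb]
  simp only [hsym, Finset.sum_const, Finset.card_univ, Fintype.card_fin, nsmul_eq_mul]
  push_cast
  field_simp
  rfl

/-- A function of the old overlap times the product of the new spins has the average of its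
product with the overlap. -/
theorem tendsto_cav_sym {f : ℝ → ℝ} {B : ℝ} (hf : Pot f B) (hfc : Continuous f) {α : ℝ} (hα : 0 ≤ α)
    {Ns : ℕ → ℕ} (hN : Tendsto Ns atTop atTop) (Ps : ℕ → ℕ) (xs : ∀ j, Fin (Ps j) → ℝ)
    (hxs : ∀ j, xs j ∈ box (Ps j))
    (hgrow : Tendsto (fun j => ((Ps j : ℝ) + 1) ^ 2 * strength (Ns j) ^ 2 / ((Ns j : ℝ) + 1)) atTop (𝓝 0))
    {ψ : ℝ → ℝ} (hψ : Continuous ψ) {C : ℝ} (hC : ∀ t, |ψ t| ≤ C) :
    Tendsto (fun j =>
      cavAvg f α (Ns j) (xs j) (fun z z' => sgn z.2 * sgn z'.2 * ψ (oldR z z')) -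
        cavAvg f α (Ns j) (xs j) (fun z z' => oldR z z' * ψ (oldR z z'))) atTop (𝓝 0) := by
  have hC0 : 0 ≤ C := (abs_nonneg _).trans (hC 0)
  rw [Metric.tendsto_atTop]
  intro η hη
  set t := η / (16 * (C + 1)) with ht
  have ht0 : 0 < t := by positivity
  set σ := fun j => Real.sqrt (4 * (((Ps j : ℝ) + 1) ^ 2 * strength (Ns j) ^ 2 / ((Ns j : ℝ) + 1)))
  have hσt : Tendsto (fun j => C * ((Real.exp (8 * σ j ^ 2) - 1) / t + t * Real.exp (8 * σ j ^ 2)))
      atTop (𝓝 (C * t)) := by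
    have h1 : Tendsto (fun j => 8 * σ j ^ 2) atTop (𝓝 0) := by
      have e : ∀ j, σ j ^ 2 = 4 * (((Ps j : ℝ) + 1) ^ 2 * strength (Ns j) ^ 2 / ((Ns j : ℝ) + 1)) :=
        fun j => Real.sq_sqrt (by positivity)
      simp only [e]
      simpa using (hgrow.const_mul 4).const_mul 8
    have h2 := (Real.continuous_exp.tendsto 0).comp h1
    rw [Real.exp_zero] at h2
    simpa using (((h2.sub_const 1).div_const t).add (h2.const_mul t)).const_mul C
  have hCt : C * t < η / 8 := by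
    rw [ht, mul_div_assoc', div_lt_div_iff₀ (by positivity) (by norm_num)]
    nlinarith [mul_nonneg hC0 hη.le]
  obtain ⟨δ, hδ, huc⟩ := Metric.uniformContinuousOn_iff.1
    ((isCompact_Icc (a := (-1 : ℝ)) (b := 1)).uniformContinuousOn_of_continuous hψ.continuousOn)
    (η / 8) (by positivity)
  obtain ⟨δ', hδ', huc'⟩ := Metric.uniformContinuousOn_iff.1
    ((isCompact_Icc (a := (-1 : ℝ)) (b := 1)).uniformContinuousOn_of_continuous
      (continuous_id.mul hψ).continuousOn) (η / 8) (by positivity)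
  have hgap : Tendsto (fun j => 2 / ((Ns j : ℝ) + 2)) atTop (𝓝 0) :=
    Tendsto.div_atTop tendsto_const_nhds
      (tendsto_atTop_add_const_right _ 2 (tendsto_natCast_atTop_atTop.comp hN))
  obtain ⟨J, hJ⟩ := eventually_atTop.1 ((hσt.eventually (gt_mem_nhds hCt)).and
    (hgap.eventually (gt_mem_nhds (lt_min hδ hδ'))))
  refine ⟨J, fun j hj => ?_⟩
  obtain ⟨hε, hg⟩ := hJ j hj
  rw [Real.dist_eq, sub_zero]
  set N := Ns j
  set P := Ps j
  set x := xs j
  set c := strength N • x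
  set Θ1 := fun τ τ' : Fin (N + 2) → Bool =>
    sgn (τ (Fin.last (N + 1))) * sgn (τ' (Fin.last (N + 1))) * ψ (fullR τ τ')
  set Θ2 := fun τ τ' : Fin (N + 2) → Bool => fullR τ τ' * ψ (fullR τ τ')
  have hb1 : ∀ τ τ', |Θ1 τ τ'| ≤ C := fun τ τ' => by
    simp only [Θ1]; rw [abs_mul, abs_mul, abs_sgn, abs_sgn, one_mul, one_mul]; exact hC _
  have hb2 : ∀ τ τ', |Θ2 τ τ'| ≤ C := fun τ τ' => by
    simp only [Θ2]; rw [abs_mul]
    exact (mul_le_mul (abs_fullR_le τ τ') (hC _) (abs_nonneg _) zero_le_one).trans_eq (one_mul C)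
  have hcσ : (P : ℝ) / ((N : ℝ) + 2) * ∑ p, c p ^ 2 ≤ σ j ^ 2 := by
    simp only [σ]
    rw [Real.sq_sqrt (by positivity)]
    have h1 : ∑ p, c p ^ 2 ≤ (P : ℝ) * (4 * strength N ^ 2) := by
      refine (Finset.sum_le_sum fun p _ => ?_).trans_eq (by
        rw [Finset.sum_const, Finset.card_univ, Fintype.card_fin, nsmul_eq_mul])
      have h2 := hxs j p (Set.mem_univ p)
      simp only [c, Pi.smul_apply, smul_eq_mul, mul_pow]
      have h3 : x p ^ 2 ≤ 4 := by nlinarith [h2.1, h2.2]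
      nlinarith [mul_le_mul_of_nonneg_left h3 (sq_nonneg (strength N))]
    calc (P : ℝ) / ((N : ℝ) + 2) * ∑ p, c p ^ 2
        ≤ (P : ℝ) / ((N : ℝ) + 2) * ((P : ℝ) * (4 * strength N ^ 2)) :=
          mul_le_mul_of_nonneg_left h1 (by positivity)
      _ = 4 * ((P : ℝ) ^ 2 * strength N ^ 2 / ((N : ℝ) + 2)) := by ring
      _ ≤ _ := by
          gcongr <;> linarith
  have hshift : ∀ Θ : (Fin (N + 2) → Bool) → (Fin (N + 2) → Bool) → ℝ, (∀ τ τ', |Θ τ τ'| ≤ C) →
      |cavAvg f α N x (fun z z' => Θ (cfgEquiv N z) (cfgEquiv N z')) -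
        ∫ M, sysAvg f (cubeVec (N + 2)) c Θ M ∂poiLaw (α * ((N : ℝ) + 2))| ≤ 2 * (η / 8) := fun Θ hΘ => by
    have hint : ∀ v : (Fin (N + 2) → Bool) → Sp (N + 1), Integrable (fun M => sysAvg f v c Θ M)
        (poiLaw (α * ((N : ℝ) + 2))) := fun v =>
      (integrable_const C).mono' measurable_from_top.aestronglyMeasurable
        (Eventually.of_forall fun M => (Real.norm_eq_abs _).trans_le (abs_sysAvg_le v c hΘ))
    have hint2 : Integrable (fun M => sysAvg f (cubeVec (N + 2)) c Θ M) (poiLaw (α * ((N : ℝ) + 2))) :=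
      (integrable_const C).mono' measurable_from_top.aestronglyMeasurable
        (Eventually.of_forall fun M => (Real.norm_eq_abs _).trans_le (abs_sysAvg_le _ c hΘ))
    rw [cavAvg_eq_sys hf α x Θ hΘ, ← integral_sub (hint _) hint2]
    have h := norm_integral_le_of_norm_le_const (μ := poiLaw (α * ((N : ℝ) + 2))) (C := 2 * (η / 8))
      (f := fun M => sysAvg f (initVec (N + 1)) c Θ M - sysAvg f (cubeVec (N + 2)) c Θ M)
      (Eventually.of_forall fun M => by
        rw [Real.norm_eq_abs]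
        exact (abs_sysAvg_init_sub_le hf c hΘ (Real.sqrt_nonneg _) hcσ ht0).trans (by linarith))
    simpa using h
  have s1 := hshift Θ1 hb1
  have s2 := hshift Θ2 hb2
  have hs : (fun M => sysAvg f (cubeVec (N + 2)) c Θ1 M) = fun M => sysAvg f (cubeVec (N + 2)) c Θ2 M :=
    funext fun M => sysAvg_sym hf c hC
  rw [hs] at s1
  have hold : ∀ z z' : Cfg N, |oldR z z'| ≤ 1 := fun z z' => by
    refine (abs_real_inner_le_norm _ _).trans ?_
    rw [norm_cubeVec (Nat.succ_pos _), norm_cubeVec (Nat.succ_pos _), one_mul]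
  have hclose : ∀ z z' : Cfg N, |ψ (oldR z z') - ψ (fullR (cfgEquiv N z) (cfgEquiv N z'))| ≤ η / 8 ∧
      |oldR z z' * ψ (oldR z z') -
        fullR (cfgEquiv N z) (cfgEquiv N z') * ψ (fullR (cfgEquiv N z) (cfgEquiv N z'))| ≤ η / 8 :=
    fun z z' => by
    have hd : dist (oldR z z') (fullR (cfgEquiv N z) (cfgEquiv N z')) < min δ δ' := by
      rw [Real.dist_eq, abs_sub_comm]
      exact (abs_fullR_sub_oldR z z').trans_lt hg
    have m1 := abs_le.1 (hold z z')
    have m2 := abs_le.1 (abs_fullR_le (cfgEquiv N z) (cfgEquiv N z'))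
    exact ⟨(huc _ ⟨m1.1, m1.2⟩ _ ⟨m2.1, m2.2⟩ (hd.trans_le (min_le_left _ _))).le,
      (huc' _ ⟨m1.1, m1.2⟩ _ ⟨m2.1, m2.2⟩ (hd.trans_le (min_le_right _ _))).le⟩
  have a1 : |cavAvg f α N x (fun z z' => sgn z.2 * sgn z'.2 * ψ (oldR z z')) -
      cavAvg f α N x (fun z z' => Θ1 (cfgEquiv N z) (cfgEquiv N z'))| ≤ η / 8 := by
    refine abs_cavAvg_sub_le hf α x (C := C) (C' := C) (fun z z' => ?_) (fun z z' => hb1 _ _) fun z z' => ?_
    · rw [abs_mul, abs_mul, abs_sgn, abs_sgn, one_mul, one_mul]; exact hC _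
    · simp only [Θ1, cfgEquiv_apply, Fin.snoc_last]
      rw [← mul_sub, abs_mul, abs_mul, abs_sgn, abs_sgn, one_mul, one_mul]
      exact (hclose z z').1
  have a2 : |cavAvg f α N x (fun z z' => oldR z z' * ψ (oldR z z')) -
      cavAvg f α N x (fun z z' => Θ2 (cfgEquiv N z) (cfgEquiv N z'))| ≤ η / 8 := by
    refine abs_cavAvg_sub_le hf α x (C := C) (C' := C) (fun z z' => ?_) (fun z z' => hb2 _ _)
      fun z z' => (hclose z z').2
    rw [abs_mul]
    exact (mul_le_mul (hold z z') (hC _) (abs_nonneg _) zero_le_one).trans_eq (one_mul C)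
  rw [abs_le] at s1 s2 a1 a2
  rw [abs_lt]
  constructor <;> linarith [s1.1, s1.2, s2.1, s2.2, a1.1, a1.2, a2.1, a2.2]

end Vale.Agent.P157F
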