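import Vale.Agent.P157.Low.TelescopeBase

/-!
P157: pair averages in a Gaussian field: an independent part of small variance moves them little.
-/

namespace Vale.Agent.P157F

open MeasureTheory ProbabilityTheory
open scoped RealInnerProductSpace
open Vale.Agent.P157.Low (cmul inner_cmul measurable_cmul measurePreserving_cmul_add)

variable {X Y : Type} [Fintype X] [Fintype Y] {E F : Type} [NormedAddCommGroup E] [InnerProductSpace ℝ E]
  [FiniteDimensional ℝ E] [MeasurableSpace E] [BorelSpace E] [NormedAddCommGroup F]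
  [InnerProductSpace ℝ F] [FiniteDimensional ℝ F] [MeasurableSpace F] [BorelSpace F]

/-- Average over pairs at given weights. -/
noncomputable def pairAvg (w : X → ℝ) (Θ : X → X → ℝ) : ℝ :=
  (∑ z, ∑ z', w z * w z' * Θ z z') / (∑ z, w z) ^ 2

/-- Mean pair average with a Gaussian field along `U` in the exponent. -/
noncomputable def fieldAvg (w : X → ℝ) (U : X → E) (Θ : X → X → ℝ) : ℝ :=
  ∫ h, pairAvg (fun x => w x * Real.exp ⟪h, U x⟫) Θ ∂stdGaussian E

variable {w : X → ℝ} {Θ Θ' : X → X → ℝ} {C : ℝ}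

lemma abs_pairAvg_le [Nonempty X] (hw : ∀ x, 0 < w x) (hC : ∀ x y, |Θ x y| ≤ C) :
    |pairAvg w Θ| ≤ C := by
  have hS : 0 < ∑ z, w z := Finset.sum_pos (fun x _ => hw x) Finset.univ_nonempty
  rw [pairAvg, abs_div, abs_of_pos (pow_pos hS 2), div_le_iff₀ (pow_pos hS 2)]
  refine (Finset.abs_sum_le_sum_abs _ _).trans ?_
  rw [sq, Finset.sum_mul_sum, Finset.mul_sum]
  refine Finset.sum_le_sum fun z _ => (Finset.abs_sum_le_sum_abs _ _).trans ?_
  rw [Finset.mul_sum]
  refine Finset.sum_le_sum fun z' _ => ?_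
  rw [abs_mul, abs_of_pos (mul_pos (hw z) (hw z')), mul_comm C]
  exact mul_le_mul_of_nonneg_left (hC z z') (mul_pos (hw z) (hw z')).le

lemma abs_pairAvg_sub_le [Nonempty X] (hw : ∀ x, 0 < w x) {e : ℝ} (he : ∀ x y, |Θ x y - Θ' x y| ≤ e) :
    |pairAvg w Θ - pairAvg w Θ'| ≤ e := by
  have h : pairAvg w Θ - pairAvg w Θ' = pairAvg w fun x y => Θ x y - Θ' x y := by
    simp only [pairAvg, ← sub_div, ← Finset.sum_sub_distrib, ← mul_sub]
  rw [h]
  exact abs_pairAvg_le hw he

lemma pairAvg_comp (e : X ≃ Y) (w : Y → ℝ) (Θ : Y → Y → ℝ) :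
    pairAvg (fun x => w (e x)) (fun x y => Θ (e x) (e y)) = pairAvg w Θ := by
  simp only [pairAvg]
  rw [e.sum_comp w, ← e.sum_comp fun z => ∑ z', w z * w z' * Θ z z']
  congr 1
  exact Finset.sum_congr rfl fun x _ => e.sum_comp fun z' => w (e x) * w z' * Θ (e x) z'

omit [FiniteDimensional ℝ E] in
lemma measurable_pairAvg_field {K : Type} [MeasurableSpace K] {W : K → X → ℝ}
    (hW : ∀ x, Measurable fun k => W k x) (U : X → E) (Θ : X → X → ℝ) :
    Measurable fun p : K × E => pairAvg (fun x => W p.1 x * Real.exp ⟪p.2, U x⟫) Θ := by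
  have h : ∀ x, Measurable fun p : K × E => W p.1 x * Real.exp ⟪p.2, U x⟫ := fun x =>
    ((hW x).comp measurable_fst).mul (Continuous.measurable (by fun_prop : Continuous fun q : E =>
      Real.exp ⟪q, U x⟫) |>.comp measurable_snd)
  exact (Finset.measurable_fun_sum _ fun x _ => Finset.measurable_fun_sum _ fun y _ =>
    ((h x).mul (h y)).mul_const _).div ((Finset.measurable_fun_sum _ fun x _ => h x).pow_const _)

lemma integrable_pairAvg_field [Nonempty X] (hw : ∀ x, 0 < w x) (U : X → E) (hC : ∀ x y, |Θ x y| ≤ C) :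
    Integrable (fun h : E => pairAvg (fun x => w x * Real.exp ⟪h, U x⟫) Θ) (stdGaussian E) := by
  refine (integrable_const C).mono' ?_ (Filter.Eventually.of_forall fun h => ?_)
  · exact ((measurable_pairAvg_field (K := Unit) (W := fun _ x => w x) (fun x => measurable_const) U Θ).comp
      ((measurable_const (a := ())).prodMk measurable_id)).aestronglyMeasurable
  · rw [Real.norm_eq_abs]
    exact abs_pairAvg_le (fun x => mul_pos (hw x) (Real.exp_pos _)) hC

lemma abs_fieldAvg_le [Nonempty X] (hw : ∀ x, 0 < w x) (U : X → E) (hC : ∀ x y, |Θ x y| ≤ C) :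
    |fieldAvg w U Θ| ≤ C := by
  have h := norm_integral_le_of_norm_le_const (μ := stdGaussian E) (C := C)
    (f := fun h => pairAvg (fun x => w x * Real.exp ⟪h, U x⟫) Θ) (Filter.Eventually.of_forall fun h => by
      rw [Real.norm_eq_abs]; exact abs_pairAvg_le (fun x => mul_pos (hw x) (Real.exp_pos _)) hC)
  simpa [fieldAvg] using h

lemma integrable_exp_inner_std (u : E) : Integrable (fun g => Real.exp ⟪g, u⟫) (stdGaussian E) :=
  Integrable.of_integral_ne_zero (by
    rw [Vale.Agent.P157.Low.integral_exp_inner]; exact (Real.exp_pos _).ne')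

/-- A weighted average moves little in a small Gaussian field. -/
lemma abs_integral_tilt_sub_le {q φ : Y → ℝ} [Nonempty Y] (hq : ∀ y, 0 < q y) (hC : ∀ y, |φ y| ≤ C)
    {U : Y → E} {σ : ℝ} (hU : ∀ y, ‖U y‖ ≤ σ) {t : ℝ} (ht : 0 < t) :
    |(∫ h, (∑ y, q y * Real.exp ⟪h, U y⟫ * φ y) / ∑ y, q y * Real.exp ⟪h, U y⟫ ∂stdGaussian E) -
      (∑ y, q y * φ y) / ∑ y, q y| ≤
      C * ((Real.exp (2 * σ ^ 2) - 1) / t + t * Real.exp (2 * σ ^ 2)) := by
  have hS : 0 < ∑ y, q y := Finset.sum_pos (fun y _ => hq y) Finset.univ_nonempty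
  have hC0 : 0 ≤ C := (abs_nonneg _).trans (hC (Classical.arbitrary Y))
  set p : Y → ℝ := fun y => q y / ∑ y, q y with hp
  have hp0 : ∀ y, 0 < p y := fun y => div_pos (hq y) hS
  have hp1 : ∑ y, p y = 1 := by simp only [hp, ← Finset.sum_div, div_self hS.ne']
  set A := (∑ y, q y * φ y) / ∑ y, q y with hA
  have hA' : A = ∑ y, p y * φ y := by simp only [hA, hp, Finset.sum_div, div_mul_eq_mul_div]
  have hAC : |A| ≤ C := by
    rw [hA']
    refine (Finset.abs_sum_le_sum_abs _ _).trans ((Finset.sum_le_sum fun y _ => ?_).trans_eq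
      (by rw [← Finset.sum_mul, hp1, one_mul]))
    rw [abs_mul, abs_of_pos (hp0 y)]
    exact mul_le_mul_of_nonneg_left (hC y) (hp0 y).le
  set e : E → Y → ℝ := fun h y => Real.exp ⟪h, U y⟫ with he
  have he0 : ∀ h y, 0 < e h y := fun h y => Real.exp_pos _
  set T : E → ℝ := fun h => (∑ y, q y * e h y * φ y) / ∑ y, q y * e h y with hT
  set G : E → ℝ := fun h => C * (∑ y, p y * (e h y - 1) ^ 2) / t + C * t * ∑ y, p y * ((e h y)⁻¹) ^ 2
    with hG
  have hpt : ∀ h, |T h - A| ≤ G h := fun h => by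
    set Z := ∑ y, p y * e h y with hZ
    have hZ0 : 0 < Z := Finset.sum_pos (fun y _ => mul_pos (hp0 y) (he0 h y)) Finset.univ_nonempty
    have eT : T h = (∑ y, p y * e h y * φ y) / Z := by
      simp only [hT, hZ, hp, div_mul_eq_mul_div, ← Finset.sum_div]
      rw [div_div_div_cancel_right₀ hS.ne']
    have ed : T h - A = (∑ y, p y * (e h y - 1) * (φ y - A)) / Z := by
      rw [eT, div_sub' hZ0.ne']
      congr 1
      simp only [mul_sub, sub_mul, mul_one, one_mul, Finset.sum_sub_distrib, ← Finset.sum_mul, hp1,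
        ← hA', hZ]
      ring
    have hnum : |∑ y, p y * (e h y - 1) * (φ y - A)| ≤ 2 * C * ∑ y, p y * |e h y - 1| := by
      rw [Finset.mul_sum]
      refine (Finset.abs_sum_le_sum_abs _ _).trans (Finset.sum_le_sum fun y _ => ?_)
      rw [abs_mul, abs_mul, abs_of_pos (hp0 y)]
      calc p y * |e h y - 1| * |φ y - A| ≤ p y * |e h y - 1| * (2 * C) :=
            mul_le_mul_of_nonneg_left ((abs_sub _ _).trans (by linarith [hC y]))
              (mul_nonneg (hp0 y).le (abs_nonneg _))
        _ = _ := by ring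
    have hinv : Z⁻¹ ≤ ∑ y, p y * (e h y)⁻¹ := by
      rw [inv_le_iff_one_le_mul₀ hZ0]
      have hcs := Finset.sum_sq_le_sum_mul_sum_of_sq_le_mul Finset.univ
        (r := p) (f := fun y => p y * (e h y)⁻¹) (g := fun y => p y * e h y)
        (fun y _ => (mul_pos (hp0 y) (inv_pos.2 (he0 h y))).le)
        (fun y _ => (mul_pos (hp0 y) (he0 h y)).le) (fun y _ => by
          have := (he0 h y).ne'; exact le_of_eq (by field_simp))
      rw [hp1, one_pow] at hcs
      exact hcs
    rw [ed, abs_div, abs_of_pos hZ0, div_eq_mul_inv]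
    refine (mul_le_mul hnum hinv (inv_nonneg.2 hZ0.le)
      (mul_nonneg (by positivity) (Finset.sum_nonneg fun y _ => mul_nonneg (hp0 y).le (abs_nonneg _)))).trans ?_
    rw [mul_assoc, Finset.sum_mul_sum]
    calc 2 * C * ∑ y, ∑ z, p y * |e h y - 1| * (p z * (e h z)⁻¹)
        ≤ 2 * C * ∑ y, ∑ z, p y * p z * ((e h y - 1) ^ 2 / (2 * t) + t * ((e h z)⁻¹) ^ 2 / 2) := by
          refine mul_le_mul_of_nonneg_left (Finset.sum_le_sum fun y _ => Finset.sum_le_sum fun z _ => ?_)
            (by positivity)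
          rw [mul_mul_mul_comm]
          refine mul_le_mul_of_nonneg_left ?_ (mul_pos (hp0 y) (hp0 z)).le
          rw [div_add_div _ _ (by positivity) two_ne_zero, le_div_iff₀ (by positivity), ← sq_abs (e h y - 1)]
          nlinarith [sq_nonneg (|e h y - 1| - t * (e h z)⁻¹)]
      _ = G h := by
          have e3 : ∀ a b : Y → ℝ, ∑ y, ∑ z, p y * p z * (a y + b z) =
              (∑ y, p y * a y) + ∑ z, p z * b z := fun a b => by
            have e4 : ∀ y, ∑ z, p y * p z * (a y + b z) = p y * a y + p y * ∑ z, p z * b z := fun y => by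
              rw [Finset.sum_congr rfl fun z _ => show p y * p z * (a y + b z) =
                p y * a y * p z + p y * (p z * b z) by ring, Finset.sum_add_distrib, ← Finset.mul_sum,
                ← Finset.mul_sum, hp1, mul_one]
            rw [Finset.sum_congr rfl fun y _ => e4 y, Finset.sum_add_distrib, ← Finset.sum_mul, hp1, one_mul]
          rw [e3]
          simp only [hG, mul_div_assoc', ← Finset.sum_div]
          simp only [mul_left_comm (p _) t, ← Finset.mul_sum]
          field_simp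
  have hi1 : ∀ y, Integrable (fun h => (e h y - 1) ^ 2) (stdGaussian E) ∧
      ∫ h, (e h y - 1) ^ 2 ∂stdGaussian E ≤ Real.exp (2 * σ ^ 2) - 1 := fun y => by
    have h2 : (fun h : E => (e h y - 1) ^ 2) = fun h =>
        (Real.exp ⟪h, (2 : ℝ) • U y⟫ - 2 * Real.exp ⟪h, U y⟫) + 1 := funext fun h => by
      simp only [he, real_inner_smul_right, two_mul, Real.exp_add]; ring
    rw [h2]
    have i1 : Integrable (fun h : E => Real.exp ⟪h, (2 : ℝ) • U y⟫ - 2 * Real.exp ⟪h, U y⟫) (stdGaussian E) :=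
      (integrable_exp_inner_std _).sub ((integrable_exp_inner_std _).const_mul 2)
    refine ⟨i1.add (integrable_const 1), ?_⟩
    have h3 := pow_le_pow_left₀ (norm_nonneg (U y)) (hU y) 2
    rw [integral_add i1 (integrable_const 1), integral_sub (integrable_exp_inner_std _)
      ((integrable_exp_inner_std _).const_mul 2), integral_const_mul,
      Vale.Agent.P157.Low.integral_exp_inner, Vale.Agent.P157.Low.integral_exp_inner, integral_const,
      probReal_univ, one_smul, norm_smul, Real.norm_eq_abs, abs_two]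
    have h4 : Real.exp ((2 * ‖U y‖) ^ 2 / 2) ≤ Real.exp (2 * σ ^ 2) := Real.exp_le_exp.2 (by nlinarith)
    have h5 : 1 ≤ Real.exp (‖U y‖ ^ 2 / 2) := Real.one_le_exp (by positivity)
    linarith
  have hi2 : ∀ y, Integrable (fun h => ((e h y)⁻¹) ^ 2) (stdGaussian E) ∧
      ∫ h, ((e h y)⁻¹) ^ 2 ∂stdGaussian E ≤ Real.exp (2 * σ ^ 2) := fun y => by
    have h2 : (fun h : E => ((e h y)⁻¹) ^ 2) = fun h => Real.exp ⟪h, (-2 : ℝ) • U y⟫ := funext fun h => by
      simp only [he, ← Real.exp_neg, sq, ← Real.exp_add, real_inner_smul_right]; ring_nf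
    rw [h2]
    refine ⟨integrable_exp_inner_std _, ?_⟩
    rw [Vale.Agent.P157.Low.integral_exp_inner, norm_smul, Real.norm_eq_abs, abs_neg, abs_two]
    exact Real.exp_le_exp.2 (by nlinarith [pow_le_pow_left₀ (norm_nonneg (U y)) (hU y) 2])
  have hj1 : Integrable (fun h => ∑ y, p y * (e h y - 1) ^ 2) (stdGaussian E) :=
    integrable_finsetSum _ fun y _ => (hi1 y).1.const_mul _
  have hj2 : Integrable (fun h => ∑ y, p y * ((e h y)⁻¹) ^ 2) (stdGaussian E) :=
    integrable_finsetSum _ fun y _ => (hi2 y).1.const_mul _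
  have hk1 : ∫ h, ∑ y, p y * (e h y - 1) ^ 2 ∂stdGaussian E ≤ Real.exp (2 * σ ^ 2) - 1 := by
    rw [integral_finsetSum _ fun y _ => (hi1 y).1.const_mul _]
    refine (Finset.sum_le_sum fun y _ => ?_).trans_eq (by rw [← Finset.sum_mul, hp1, one_mul])
    rw [integral_const_mul]
    exact mul_le_mul_of_nonneg_left (hi1 y).2 (hp0 y).le
  have hk2 : ∫ h, ∑ y, p y * ((e h y)⁻¹) ^ 2 ∂stdGaussian E ≤ Real.exp (2 * σ ^ 2) := by
    rw [integral_finsetSum _ fun y _ => (hi2 y).1.const_mul _]
    refine (Finset.sum_le_sum fun y _ => ?_).trans_eq (by rw [← Finset.sum_mul, hp1, one_mul])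
    rw [integral_const_mul]
    exact mul_le_mul_of_nonneg_left (hi2 y).2 (hp0 y).le
  have ha : Integrable (fun h => C * (∑ y, p y * (e h y - 1) ^ 2) / t) (stdGaussian E) :=
    (hj1.const_mul C).div_const t
  have hGi : Integrable G (stdGaussian E) := ha.add (hj2.const_mul (C * t))
  have hTm : Measurable T := by
    have : ∀ y, Measurable fun h => e h y := fun y => Continuous.measurable (by simp only [he]; fun_prop)
    exact (Finset.measurable_fun_sum _ fun y _ => ((this y).const_mul _).mul_const _).div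
      (Finset.measurable_fun_sum _ fun y _ => (this y).const_mul _)
  have hTi : Integrable T (stdGaussian E) := by
    refine ((integrable_const |A|).add hGi).mono' hTm.aestronglyMeasurable
      (Filter.Eventually.of_forall fun h => ?_)
    rw [Real.norm_eq_abs, Pi.add_apply]
    linarith [abs_sub_abs_le_abs_sub (T h) A, hpt h]
  calc |(∫ h, T h ∂stdGaussian E) - A| = |∫ h, (T h - A) ∂stdGaussian E| := by
        rw [integral_sub hTi (integrable_const A), integral_const, probReal_univ, one_smul]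
    _ ≤ ∫ h, G h ∂stdGaussian E := abs_integral_le_integral_abs.trans
        (integral_mono (hTi.sub (integrable_const A)).abs hGi hpt)
    _ ≤ _ := by
        simp only [hG]
        rw [integral_add ha (hj2.const_mul (C * t)), integral_div, integral_const_mul, integral_const_mul,
          mul_add, mul_div_assoc]
        have := mul_le_mul_of_nonneg_left (div_le_div_of_nonneg_right hk1 ht.le) hC0
        have := mul_le_mul_of_nonneg_left hk2 (mul_nonneg hC0 ht.le)
        linarith

/-- Pair averages move little in a small Gaussian field. -/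
lemma abs_fieldAvg_sub_le [Nonempty X] (hw : ∀ x, 0 < w x) (hC : ∀ x y, |Θ x y| ≤ C) {U : X → E}
    {σ : ℝ} (hU : ∀ x, ‖U x‖ ≤ σ) {t : ℝ} (ht : 0 < t) :
    |fieldAvg w U Θ - pairAvg w Θ| ≤
      C * ((Real.exp (8 * σ ^ 2) - 1) / t + t * Real.exp (8 * σ ^ 2)) := by
  have h := abs_integral_tilt_sub_le (Y := X × X) (q := fun z => w z.1 * w z.2) (φ := fun z => Θ z.1 z.2)
    (fun z => mul_pos (hw z.1) (hw z.2)) (fun z => hC z.1 z.2) (U := fun z => U z.1 + U z.2) (σ := 2 * σ)
    (fun z => (norm_add_le _ _).trans (by linarith [hU z.1, hU z.2])) ht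
  rw [show 2 * (2 * σ) ^ 2 = 8 * σ ^ 2 by ring] at h
  refine le_of_eq_of_le ?_ h
  have e1 : pairAvg w Θ = (∑ z : X × X, w z.1 * w z.2 * Θ z.1 z.2) / ∑ z : X × X, w z.1 * w z.2 := by
    rw [pairAvg, sq, Finset.sum_mul_sum, Fintype.sum_prod_type, Fintype.sum_prod_type]
  have e2 : fieldAvg w U Θ = ∫ g, (∑ z : X × X, w z.1 * w z.2 * Real.exp ⟪g, U z.1 + U z.2⟫ * Θ z.1 z.2) /
      ∑ z : X × X, w z.1 * w z.2 * Real.exp ⟪g, U z.1 + U z.2⟫ ∂stdGaussian E := by
    refine integral_congr_ae (Filter.Eventually.of_forall fun g => ?_)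
    simp only [pairAvg, sq, Finset.sum_mul_sum, Fintype.sum_prod_type, inner_add_right, Real.exp_add,
      mul_mul_mul_comm]
  rw [e1, e2]

/-- Dropping the part `b` of a field split coordinate by coordinate. -/
lemma abs_fieldAvg_split [Nonempty X] {ι : Type} [Fintype ι] (hw : ∀ x, 0 < w x)
    (hC : ∀ x y, |Θ x y| ≤ C) {a b : ι → ℝ} (hab : ∀ i, a i ^ 2 + b i ^ 2 = 1)
    {U : X → EuclideanSpace ℝ ι} {σ : ℝ} (hU : ∀ x, ‖cmul b (U x)‖ ≤ σ) {t : ℝ} (ht : 0 < t) :
    |fieldAvg w U Θ - fieldAvg w (fun x => cmul a (U x)) Θ| ≤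
      C * ((Real.exp (8 * σ ^ 2) - 1) / t + t * Real.exp (8 * σ ^ 2)) := by
  set γ := stdGaussian (EuclideanSpace ℝ ι)
  set K := fun g1 : EuclideanSpace ℝ ι => fun x => w x * Real.exp ⟪g1, cmul a (U x)⟫ with hK
  set H := fun p : EuclideanSpace ℝ ι × EuclideanSpace ℝ ι =>
    pairAvg (fun x => K p.1 x * Real.exp ⟪p.2, cmul b (U x)⟫) Θ with hH
  have hmp := measurePreserving_cmul_add hab
  have hKm : ∀ x, Measurable fun g1 => K g1 x := fun x =>
    Continuous.measurable (by simp only [hK]; fun_prop)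
  have hHm : Measurable H := measurable_pairAvg_field hKm _ Θ
  have hK0 : ∀ g1 x, 0 < K g1 x := fun g1 x => mul_pos (hw x) (Real.exp_pos _)
  have hHi : Integrable H (γ.prod γ) := (integrable_const C).mono' hHm.aestronglyMeasurable
    (Filter.Eventually.of_forall fun p => by
      rw [Real.norm_eq_abs]; exact abs_pairAvg_le (fun x => mul_pos (hK0 _ x) (Real.exp_pos _)) hC)
  have e : fieldAvg w U Θ = ∫ g1, fieldAvg (K g1) (fun x => cmul b (U x)) Θ ∂γ := by
    calc fieldAvg w U Θ = ∫ p, H p ∂γ.prod γ := by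
          rw [fieldAvg, ← hmp.map_eq, integral_map hmp.measurable.aemeasurable
            (by rw [hmp.map_eq]; exact (integrable_pairAvg_field hw U hC).aestronglyMeasurable)]
          refine integral_congr_ae (Filter.Eventually.of_forall fun p => ?_)
          simp only [hH, hK, inner_add_left, inner_cmul, Real.exp_add, mul_assoc]
      _ = _ := integral_prod H hHi
  have hFi : Integrable (fun g1 => fieldAvg (K g1) (fun x => cmul b (U x)) Θ) γ := hHi.integral_prod_left
  have hFi2 : Integrable (fun g1 => pairAvg (K g1) Θ) γ := integrable_pairAvg_field hw _ hC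
  rw [e, show fieldAvg w (fun x => cmul a (U x)) Θ = ∫ g1, pairAvg (K g1) Θ ∂γ from rfl,
    ← integral_sub hFi hFi2]
  have h := norm_integral_le_of_norm_le_const (μ := γ)
    (C := C * ((Real.exp (8 * σ ^ 2) - 1) / t + t * Real.exp (8 * σ ^ 2)))
    (f := fun g1 => fieldAvg (K g1) (fun x => cmul b (U x)) Θ - pairAvg (K g1) Θ)
    (Filter.Eventually.of_forall fun g1 => by
      rw [Real.norm_eq_abs]; exact abs_fieldAvg_sub_le (hK0 g1) hC hU ht)
  simpa using h

/-- A field moved by a map with isometric transpose. -/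
lemma fieldAvg_transport [Nonempty X] (hw : ∀ x, 0 < w x) (hC : ∀ x y, |Θ x y| ≤ C) {φ : E → F} {ψ : F → E}
    (hφ : Measurable φ) (h : ∀ g t, ⟪φ g, t⟫ = ⟪g, ψ t⟫) (hn : ∀ t, ‖ψ t‖ = ‖t‖) (V : X → F) :
    fieldAvg w V Θ = fieldAvg w (fun x => ψ (V x)) Θ := by
  have hmp := Vale.Agent.P157.Low.measurePreserving_stdGaussian hφ ψ h hn
  rw [fieldAvg, ← hmp.map_eq, integral_map hmp.measurable.aemeasurable
    (by rw [hmp.map_eq]; exact (integrable_pairAvg_field hw V hC).aestronglyMeasurable)]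
  simp only [fieldAvg, h]

end Vale.Agent.P157F
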