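import Vale.Agent.P157F.Pat.Use
import Vale.Agent.P157.Low.CavityValue
import Vale.Agent.P166F.Low.Discr

/-!
P157: the cavity value of a discretisation against the formula at its squared slopes.
-/

namespace Vale.Agent.P157F

open MeasureTheory ProbabilityTheory Filter Vale.Agent.P157 Vale.Agent.P157.Low Vale.Agent.P166F

variable {k : ℕ} {f : ℝ → ℝ} {m q : Fin (k + 1) → ℝ}

/-- Parisi's functional as value, field functional and pairing. -/
lemma parisiIsing_eq (hs : Smf f) {D : ℝ} (hD : ∀ x, |deriv f x| ≤ D) (α : ℝ) (hm : Levels m)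
    (hq : Path q) :
    parisiIsing f α (q 0) (levels m q) = α * patVal f m q + xbar m (fun l => α * conj f m q l) +
      pairing m q (fun l => α * conj f m q l) := by
  have h := levelParam hm hq
  set R : ℕ → ℝ := rsbOverlap f (q 0) (levels m q) with hR
  have hRj : ∀ j : Fin (k + 1), conj f m q j = R j := fun j => conj_eq_overlap hs hD h j
  have hE : patVal f m q = rsbEnergy f (q 0) (levels m q) := by
    show potUp m (incr q) (fun y => Real.log (topW f q y)) (k + 1) 0 = _
    rw [potUp_root h.ne h.zero, incr_zero, rsbEnergy, h.rsbRest_eq, levels_eq, rsbPot_nil]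
    exact integral_congr_ae (Eventually.of_forall fun z => (rsbPot_eq _ _).symm)
  set a : Fin (k + 1) → ℝ := fun l => α * conj f m q l with ha
  have hP : pairing m q a = α / 2 * (conj f m q (Fin.last k) - rsbPair (levels m q) (q 0) R) := by
    have e : pairing m q a = α / 2 * ∑ j : Fin (k + 1),
        ((if h : (j : ℕ) + 1 ≤ k then m ⟨(j : ℕ) + 1, by omega⟩ else 1) - m j) * (q j * R j) := by
      simp only [pairing, ha, hRj, Finset.mul_sum, Finset.sum_div]
      refine Finset.sum_congr rfl fun j _ => ?_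
      simp only [lmass, Nat.lt_iff_add_one_le]
      ring
    rw [e, pair_sum k m q R, h.zero, hRj]
    simp only [Fin.val_last]
    ring
  have hX : potUp m (incr a) (fun y => Real.log (Real.cosh y)) (k + 1) 0 =
      ∫ x, rsbSpin (levels m q) (fun j => α * R j) (Real.sqrt (α * R 0) * x) ∂gaussianReal 0 1 := by
    rw [potUp_root h.ne h.zero, incr_zero]
    have e0 : a 0 = α * R 0 := by simp only [ha, hRj, Fin.val_zero]
    rw [levels_eq, e0]
    refine integral_congr_ae (Eventually.of_forall fun z => (rsbSpin_eq _ _ (fun t ht => ?_) _ _).symm)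
    rw [length_lv] at ht
    simp only [lv, List.getElem_ofFn, incr_succ, ha, hRj, Fin.val_succ, Fin.val_castSucc]
  rw [parisiIsing, ← hR, hE, hP, xbar, hX]
  simp only [ha]
  ring

/-- Parisi's functional is above the formula at the squared slopes of its conjugate overlaps. -/
theorem formula_le_parisi (hs : Smf f) {D : ℝ} (hD : ∀ x, |deriv f x| ≤ D) {α : ℝ} (hα : 0 ≤ α)
    (hm : Levels m) (hq : Path q) {c : ℝ} (hc : ∀ v ∈ cubeValues f α, c ≤ v) :
    c - α * D ^ 2 * ∑ l, lmass m l * |q l - slopeSq m (fun i => α * conj f m q i) l| ≤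
      parisiIsing f α (q 0) (levels m q) := by
  obtain ⟨hmono, h0, hlast, hdiag⟩ := conj_props hs (levelParam hm hq) hD
  set a : Fin (k + 1) → ℝ := fun i => α * conj f m q i with ha
  have hab : ∀ l, 0 ≤ a l ∧ a l ≤ α * D ^ 2 := fun l =>
    ⟨mul_nonneg hα (h0.trans (hmono (Fin.zero_le l))),
      mul_le_mul_of_nonneg_left ((hmono (Fin.le_last l)).trans (hlast.trans hdiag)) hα⟩
  have hap : a ∈ fieldPaths k :=
    ⟨fun i j hij => mul_le_mul_of_nonneg_left (hmono hij) hα, fun l => (hab l).1⟩
  set p : Fin (k + 1) → ℝ := slopeSq m a with hp'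
  have hp : Path p := by
    have := chainSlope_path hm hap
    rwa [chainSlope_eq] at this
  have hS : entS m p = xbar m a + pairing m p a := by
    have := entS_chainSlope hm hap
    rwa [chainSlope_eq] at this
  have hv := hc _ ⟨k, m, p, hm, hp, rfl⟩
  rw [hS] at hv
  set S := ∑ l, lmass m l * |q l - p l|
  have h1 := (abs_le.1 (abs_patVal_sub_le hs hD hm hq hp)).2
  have e : ∑ l, lmass m l * |p l - q l| = S := Finset.sum_congr rfl fun l _ => by rw [abs_sub_comm]
  rw [e] at h1
  have h2 : pairing m p a - pairing m q a ≤ α * D ^ 2 / 2 * S := by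
    simp only [pairing, S, Finset.mul_sum, ← sub_div, ← Finset.sum_sub_distrib, Finset.sum_div]
    refine Finset.sum_le_sum fun l _ => ?_
    have := mul_le_mul ((le_abs_self (p l - q l)).trans_eq (abs_sub_comm _ _)) (hab l).2 (hab l).1
      (abs_nonneg _)
    have := mul_le_mul_of_nonneg_left this (lmass_nonneg hm l)
    linarith
  have h3 := mul_le_mul_of_nonneg_left h1 hα
  rw [parisiIsing_eq hs hD α hm hq]
  linarith

/-- The distance of the levels from their images, as an average over the array. -/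
lemma sum_lmass_le_mean {A : Arr} {K : ℕ} (D : Discr A K)
    {p : Fin (D.r + 1) → ℝ} (hp : ∀ l, |p l| ≤ 1) :
    ∑ l, lmass D.C.cdf l * |D.q l - p l| ≤
      2 / (K : ℝ) + ∫ R, |R 0 1 - p (D.τ (R 0 1))| ∂A.law 2 := by
  have := A.prob 2
  have hlm : ∀ l, lmass D.C.cdf l = mNext D.C.cdf l - D.C.cdf l := fun l => by
    simp only [lmass, mNext, Nat.lt_iff_add_one_le]
  simp only [hlm]
  rw [← D.C.sum_pair, ← D.law 2 fun B : LMat D.r 2 => |D.q (B 0 1) - p (B 0 1)|]
  have e : ∀ R : Mat 2, lift D.τ R 0 1 = D.τ (R 0 1) := fun R => if_neg (by decide)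
  simp only [e]
  have hm : Measurable fun R : Mat 2 => D.τ (R 0 1) := D.measτ.comp (measurable_entry 0 1)
  have i1 : Integrable (fun R : Mat 2 => |R 0 1 - p (D.τ (R 0 1))|) (A.law 2) := by
    have h1 : Measurable fun R : Mat 2 => |R 0 1 - p (D.τ (R 0 1))| :=
      ((measurable_entry 0 1).sub ((measurable_of_finite p).comp hm)).abs
    refine Integrable.of_bound h1.aestronglyMeasurable 2 ((A.bdd 2).mono fun R hR => ?_)
    rw [Real.norm_eq_abs, abs_abs]
    exact (abs_sub _ _).trans (by linarith [hR 0 1, hp (D.τ (R 0 1))])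
  have i0 : Integrable (fun R : Mat 2 => |D.q (D.τ (R 0 1)) - p (D.τ (R 0 1))|) (A.law 2) := by
    have h1 : Measurable fun R : Mat 2 => |D.q (D.τ (R 0 1)) - p (D.τ (R 0 1))| :=
      (((measurable_of_finite D.q).comp hm).sub ((measurable_of_finite p).comp hm)).abs
    refine Integrable.of_bound h1.aestronglyMeasurable
      (∑ l, |D.q l - p l|) (Eventually.of_forall fun R => ?_)
    rw [Real.norm_eq_abs, abs_abs]
    exact Finset.single_le_sum (fun l _ => abs_nonneg (D.q l - p l)) (Finset.mem_univ _)
  refine (integral_mono_ae i0 ((integrable_const (2 / (K : ℝ))).add i1) (D.close.mono fun R hR =>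
    (abs_sub_le _ (R 0 1) _).trans (add_le_add hR le_rfl))).trans_eq ?_
  rw [integral_add' (integrable_const _) i1, integral_const, probReal_univ, one_smul]

end Vale.Agent.P157F
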